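import Vale.Agent.P129.MathlibUsed

set_option linter.all false

section

section

open Filter Topology

namespace Vale.Agent.P129

variable {𝕜 : Type*} [RCLike 𝕜] {X : Type*} [NormedAddCommGroup X] [NormedSpace 𝕜 X]

/-- The vectors on which the sequence of functionals is bounded. -/
def bddSub (g : ℕ → X →L[𝕜] 𝕜) : Submodule 𝕜 X where
  carrier := {x | ∃ c : ℝ, ∀ k, ‖g k x‖ ≤ c}
  add_mem' := by
    rintro x y ⟨c, hc⟩ ⟨d, hd⟩
    refine ⟨c + d, fun k => ?_⟩
    rw [map_add]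
    exact (norm_add_le _ _).trans (add_le_add (hc k) (hd k))
  zero_mem' := ⟨0, fun k => by simp⟩
  smul_mem' := by
    rintro a x ⟨c, hc⟩
    refine ⟨‖a‖ * c, fun k => ?_⟩
    rw [map_smul, norm_smul]
    exact mul_le_mul_of_nonneg_left (hc k) (norm_nonneg _)

/-- One step of the construction of a biorthogonal sequence. -/
lemma step (g : ℕ → X →L[𝕜] 𝕜) (hunb : ∀ R : ℝ, ∃ k, R < ‖g k‖)
    (hdense : Dense (bddSub g : Set X)) (P : X →L[𝕜] X)
    (h1 : ∀ x, P (P x) = P x)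
    (h2 : ∃ c : ℝ, ∀ k x, ‖g k (P x)‖ ≤ c * ‖x‖)
    (h3 : ∃ c : ℝ, ∀ k x, (∀ j, ‖g j x‖ ≤ 1) → ‖g k (P x)‖ ≤ c)
    (ε : ℝ) (hε : 0 < ε) :
    ∃ (x : X) (h : X →L[𝕜] 𝕜), h x = 1 ∧ P x = 0 ∧ (∀ y, h (P y) = 0) ∧
      (∀ y, (∀ j, ‖g j y‖ ≤ 1) → ‖h y‖ * ‖x‖ ≤ ε) ∧ x ∈ bddSub g ∧
      (∃ c : ℝ, ∀ y, (∀ j, ‖g j y‖ ≤ 1) → ‖h y‖ ≤ c) := by
  obtain ⟨c₂, hc₂⟩ := h2
  obtain ⟨c₃, hc₃⟩ := h3
  have hc₃' : 0 ≤ c₃ := by
    have := hc₃ 0 0 (by simp only [map_zero, norm_zero, zero_le_one, implies_true])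
    exact (norm_nonneg _).trans this
  set R : ℝ := (1 + c₃) * (1 + ‖P‖) / ε with hR
  have hRpos : 0 < R := by (clear * - hc₃' hε; positivity)
  obtain ⟨k, hk⟩ := hunb (R + |c₂|)
  set u : X →L[𝕜] 𝕜 := (g k).comp (ContinuousLinearMap.id 𝕜 X - P) with hu
  have hu_apply : ∀ y, u y = g k y - g k (P y) := by
    intro y; simp [hu]
  have huP : ∀ y, u (P y) = 0 := by
    intro y; rw [hu_apply, h1]; simp
  have hnorm : R < ‖u‖ := by
    have hgP : ‖(g k).comp P‖ ≤ |c₂| := by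
      refine ContinuousLinearMap.opNorm_le_bound _ (abs_nonneg _) (fun x => ?_)
      exact (hc₂ k x).trans (mul_le_mul_of_nonneg_right (le_abs_self _) (norm_nonneg _))
    have : g k = u + (g k).comp P := by
      ext y; simp only [hu, ContinuousLinearMap.comp_sub, ContinuousLinearMap.comp_id, sub_add_cancel]
    have h' : ‖g k‖ ≤ ‖u‖ + ‖(g k).comp P‖ := by
      conv_lhs => rw [this]
      exact norm_add_le _ _
    linarith only [hk, hgP, h']
  obtain ⟨y₀, hy₀, hy₀'⟩ := u.exists_lt_apply_of_lt_opNorm hnorm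
  have hopen : IsOpen (Metric.ball (0 : X) 1 ∩ {y | R < ‖u y‖}) := by
    refine Metric.isOpen_ball.inter ?_
    exact isOpen_lt continuous_const (by fun_prop)
  obtain ⟨y, hyU, hyL⟩ := hdense.inter_open_nonempty _ hopen ⟨y₀, by simpa only [Metric.mem_ball, dist_zero_right] using hy₀, hy₀'⟩
  obtain ⟨hy1, hy2⟩ := hyU
  have hy1' : ‖y‖ < 1 := by simpa only [Metric.mem_ball, dist_zero_right] using hy1
  have hy2' : R < ‖u y‖ := hy2
  have huy : u y ≠ 0 := by
    intro h0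
    rw [h0, norm_zero] at hy2'
    linarith only [hRpos, hy2']
  have hPL : ∀ x, P x ∈ bddSub g := fun x => ⟨c₂ * ‖x‖, fun k => hc₂ k x⟩
  have hCb : ∀ z, (∀ j, ‖g j z‖ ≤ 1) → ‖u z‖ ≤ 1 + c₃ := by
    intro z hz
    rw [hu_apply]
    exact (norm_sub_le _ _).trans (add_le_add (hz k) (hc₃ k z hz))
  refine ⟨y - P y, (u y)⁻¹ • u, ?_, ?_, ?_, ?_, ?_, ?_⟩
  · simp [huP, huy]
  · simp only [map_sub, h1, sub_self]
  · intro z; simp [huP]
  · intro z hz
    have h4 : ‖y - P y‖ ≤ 1 + ‖P‖ := by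
      refine (norm_sub_le _ _).trans (add_le_add hy1'.le ?_)
      exact (P.le_opNorm y).trans (mul_le_of_le_one_right (norm_nonneg _) hy1'.le)
    have h5 : ‖((u y)⁻¹ • u) z‖ ≤ R⁻¹ * (1 + c₃) := by
      simp only [smul_apply, smul_eq_mul, norm_mul, norm_inv]
      refine mul_le_mul (inv_anti₀ hRpos hy2'.le) (hCb z hz) (norm_nonneg _) (by (clear * - hc₃' hε; positivity))
    calc ‖((u y)⁻¹ • u) z‖ * ‖y - P y‖ ≤ (R⁻¹ * (1 + c₃)) * (1 + ‖P‖) :=
          mul_le_mul h5 h4 (norm_nonneg _) (by (clear * - hc₃' hε; positivity))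
      _ = ε := by
          rw [hR]; (clear * - hc₃' hε; field_simp)
  · exact (bddSub g).sub_mem hyL (hPL y)
  · refine ⟨‖(u y)⁻¹‖ * (1 + c₃), fun z hz => ?_⟩
    simp only [smul_apply, smul_eq_mul, norm_mul]
    exact mul_le_mul_of_nonneg_left (hCb z hz) (norm_nonneg _)

/-- The data carried along the recursion. -/
structure St (g : ℕ → X →L[𝕜] 𝕜) where
  P : X →L[𝕜] X
  h1 : ∀ x, P (P x) = P x
  h2 : ∃ c : ℝ, ∀ k x, ‖g k (P x)‖ ≤ c * ‖x‖
  h3 : ∃ c : ℝ, ∀ k x, (∀ j, ‖g j x‖ ≤ 1) → ‖g k (P x)‖ ≤ c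


/-- The extension of the data by one vector and one functional. -/
noncomputable def St.next {g : ℕ → X →L[𝕜] 𝕜} (s : St g) (x : X) (h : X →L[𝕜] 𝕜)
    (p1 : h x = 1) (p2 : s.P x = 0) (p3 : ∀ y, h (s.P y) = 0) (p5 : x ∈ bddSub g)
    (p6 : ∃ c : ℝ, ∀ y, (∀ j, ‖g j y‖ ≤ 1) → ‖h y‖ ≤ c) : St g where
  P := s.P + h.smulRight x
  h1 := by
    intro y
    simp [s.h1, p1, p2, p3]
  h2 := by
    obtain ⟨c, hc⟩ := s.h2
    obtain ⟨d, hd⟩ := p5
    refine ⟨c + ‖h‖ * d, fun k y => ?_⟩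
    have e1 : g k ((s.P + h.smulRight x) y) = g k (s.P y) + h y * g k x := by simp
    rw [e1]
    refine (norm_add_le _ _).trans ?_
    rw [norm_mul, add_mul]
    refine add_le_add (hc k y) ?_
    calc ‖h y‖ * ‖g k x‖ ≤ (‖h‖ * ‖y‖) * d :=
          mul_le_mul (h.le_opNorm y) (hd k) (norm_nonneg _) (by positivity)
      _ = ‖h‖ * d * ‖y‖ := by ring
  h3 := by
    obtain ⟨c, hc⟩ := s.h3
    obtain ⟨d, hd⟩ := p5
    obtain ⟨e, he⟩ := p6
    refine ⟨c + e * d, fun k y hy => ?_⟩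
    have e1 : g k ((s.P + h.smulRight x) y) = g k (s.P y) + h y * g k x := by simp
    rw [e1]
    refine (norm_add_le _ _).trans ?_
    rw [norm_mul]
    refine add_le_add (hc k y hy) ?_
    exact mul_le_mul (he y hy) (hd k) (norm_nonneg _) ((norm_nonneg _).trans (he y hy))

/-- A sequence of functionals that is unbounded in norm but pointwise bounded on a dense set
yields a separable infinite-dimensional quotient. -/
theorem exists_separable_quotient_of_unbounded [CompleteSpace X] (g : ℕ → X →L[𝕜] 𝕜)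
    (hunb : ∀ R : ℝ, ∃ k, R < ‖g k‖) (hdense : Dense (bddSub g : Set X)) :
    ∃ M : Submodule 𝕜 X, IsClosed (M : Set X) ∧ TopologicalSpace.SeparableSpace (X ⧸ M) ∧
      ¬ FiniteDimensional 𝕜 (X ⧸ M) := by
  have hstep : ∀ (s : St g) (n : ℕ), ∃ (x : X) (h : X →L[𝕜] 𝕜), h x = 1 ∧ s.P x = 0 ∧
      (∀ y, h (s.P y) = 0) ∧ (∀ y, (∀ j, ‖g j y‖ ≤ 1) → ‖h y‖ * ‖x‖ ≤ (1 / 2 : ℝ) ^ n) ∧
      x ∈ bddSub g ∧ (∃ c : ℝ, ∀ y, (∀ j, ‖g j y‖ ≤ 1) → ‖h y‖ ≤ c) := by
    intro s n
    exact step g hunb hdense s.P s.h1 s.h2 s.h3 _ (by positivity)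
  choose x h p1 p2 p3 p4 p5 p6 using hstep
  let S : ℕ → St g := fun n => Nat.rec
    (⟨0, by simp, ⟨0, by simp⟩, ⟨0, by simp only [zero_apply, map_zero, norm_zero, Std.le_refl, implies_true]⟩⟩ : St g)
    (fun n s => s.next (x s n) (h s n) (p1 s n) (p2 s n) (p3 s n) (p5 s n) (p6 s n)) n
  have hS0 : (S 0).P = 0 := rfl
  have hS1 : ∀ n, (S (n + 1)).P = (S n).P + (h (S n) n).smulRight (x (S n) n) := fun n => rfl
  set a : ℕ → X := fun n => x (S n) n with ha
  set b : ℕ → X →L[𝕜] 𝕜 := fun n => h (S n) n with hb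
  have q1 : ∀ n, b n (a n) = 1 := fun n => p1 _ _
  have q2 : ∀ n, (S n).P (a n) = 0 := fun n => p2 _ _
  have q3 : ∀ n y, b n ((S n).P y) = 0 := fun n y => p3 _ _ y
  have q4 : ∀ n y, (∀ j, ‖g j y‖ ≤ 1) → ‖b n y‖ * ‖a n‖ ≤ (1 / 2 : ℝ) ^ n := fun n y => p4 _ _ y
  have q5 : ∀ n, a n ∈ bddSub g := fun n => p5 _ _
  have hPsucc : ∀ n y, (S (n + 1)).P y = (S n).P y + b n y • a n := by
    intro n y; rw [hS1]; simp only [add_apply, ContinuousLinearMap.smulRight_apply, hb, ha]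
  -- `b m ∘ P n = b m` and `b m (a n) = 0` for `m < n`
  have hbP : ∀ m n, m < n → ∀ y, b m ((S n).P y) = b m y := by
    intro m n hmn
    induction n, hmn using Nat.le_induction with
    | base => intro y; rw [hPsucc, map_add, q3, map_smul, q1]; simp
    | succ n hn ih =>
      intro y
      have h0 : b m (a n) = 0 := by rw [← ih (a n), q2, map_zero]
      rw [hPsucc, map_add, ih, map_smul, h0]; simp
  have hba : ∀ m n, m < n → b m (a n) = 0 := by
    intro m n hmn
    rw [← hbP m n hmn (a n), q2, map_zero]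
  have hPa : ∀ m n, m < n → (S n).P (a m) = a m := by
    intro m n hmn
    induction n, hmn using Nat.le_induction with
    | base => rw [hPsucc, q2, q1]; simp
    | succ n hn ih =>
      have h0 : b n (a m) = 0 := by rw [← ih, q3]
      rw [hPsucc, ih, h0]; simp
  have hba' : ∀ m n, m < n → b n (a m) = 0 := by
    intro m n hmn
    rw [← hPa m n hmn, q3]
  have hPsum : ∀ n y, (S n).P y = ∑ i ∈ Finset.range n, b i y • a i := by
    intro n y
    induction n with
    | zero => simp [hS0]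
    | succ n ih => rw [hPsucc, ih, Finset.sum_range_succ]
  let M : Submodule 𝕜 X := ⨅ n, (b n).ker
  have hM : ∀ y, y ∈ M ↔ ∀ n, b n y = 0 := by
    intro y; simp only [Submodule.mem_iInf, LinearMap.mem_ker, ContinuousLinearMap.coe_coe, M]
  have hMclosed : IsClosed (M : Set X) := by
    have : (M : Set X) = ⋂ n, {y | b n y = 0} := by
      ext y; simp only [SetLike.mem_coe, hM, Set.mem_iInter, Set.mem_ofPred_eq]
    rw [this]
    exact isClosed_iInter fun n => isClosed_eq (by fun_prop) continuous_const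
  refine ⟨M, hMclosed, ?_, ?_⟩
  · -- separability
    have hsep : TopologicalSpace.IsSeparable
        (closure (Submodule.span 𝕜 (Set.range fun n => M.mkQ (a n)) : Set (X ⧸ M))) := by
      apply TopologicalSpace.IsSeparable.closure
      exact (Set.countable_range _).isSeparable.span
    have hsub : ∀ y ∈ bddSub g, M.mkQ y ∈
        closure (Submodule.span 𝕜 (Set.range fun n => M.mkQ (a n)) : Set (X ⧸ M)) := by
      rintro y ⟨c, hc⟩
      have hc0 : 0 ≤ c := (norm_nonneg _).trans (hc 0)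
      have hsummable : Summable fun n => b n y • a n := by
        refine Summable.of_norm_bounded (g := fun n => (c + 1) * (1 / 2 : ℝ) ^ n)
          (summable_geometric_two.mul_left _) (fun n => ?_)
        have hz : ∀ j, ‖g j ((((c + 1 : ℝ) : 𝕜))⁻¹ • y)‖ ≤ 1 := by
          intro j
          rw [map_smul, norm_smul, norm_inv, RCLike.norm_ofReal, abs_of_pos (by linarith only [hc0]),
            inv_mul_le_iff₀ (by linarith only [hc0]), mul_one]
          exact (hc j).trans (by linarith only [])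
        have h4 := q4 n _ hz
        rw [map_smul, norm_smul, norm_inv, RCLike.norm_ofReal, abs_of_pos (by linarith only [hc0]),
          mul_assoc, inv_mul_le_iff₀ (by linarith only [hc0])] at h4
        rw [norm_smul]
        exact h4
      obtain ⟨w, hw⟩ := hsummable
      have hlim : Tendsto (fun n => (S n).P y) atTop (𝓝 w) := by
        have := hw.tendsto_sum_nat
        refine this.congr (fun n => ?_)
        rw [hPsum]
      have hyw : y - w ∈ M := by
        rw [hM]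
        intro m
        rw [map_sub, sub_eq_zero]
        have h1 : Tendsto (fun n => b m ((S n).P y)) atTop (𝓝 (b m w)) :=
          ((b m).continuous.tendsto w).comp hlim
        have h2 : Tendsto (fun n => b m ((S n).P y)) atTop (𝓝 (b m y)) := by
          refine tendsto_const_nhds.congr' ?_
          filter_upwards [eventually_gt_atTop m] with n hn
          rw [hbP m n hn]
        exact tendsto_nhds_unique h2 h1
      have heq : M.mkQ y = M.mkQ w := (Submodule.Quotient.eq M).2 hyw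
      rw [heq]
      refine mem_closure_of_tendsto ((M.continuous_mkQ.tendsto w).comp hlim)
        (Eventually.of_forall fun n => ?_)
      simp only [Function.comp_apply, hPsum, map_sum, map_smul]
      refine Submodule.sum_mem _ fun i _ => Submodule.smul_mem _ _ ?_
      exact Submodule.subset_span ⟨i, rfl⟩
    rw [← TopologicalSpace.isSeparable_univ_iff]
    refine hsep.mono ?_
    rintro z -
    obtain ⟨y, rfl⟩ := M.mkQ_surjective z
    have hcl : closure (bddSub g : Set X) ⊆ M.mkQ ⁻¹'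
        closure (Submodule.span 𝕜 (Set.range fun n => M.mkQ (a n)) : Set (X ⧸ M)) :=
      closure_minimal hsub (isClosed_closure.preimage M.continuous_mkQ)
    exact hcl (hdense y)
  · intro hfin
    have hker : ∀ n, M ≤ (b n).ker := fun n => iInf_le _ n
    have hli : LinearIndependent 𝕜 (fun n => M.mkQ (a n)) := by
      refine LinearIndependent.of_pairwise_dual_eq_zero_one _
        (fun n => M.liftQ (b n : X →ₗ[𝕜] 𝕜) (hker n)) ?_ ?_
      · intro i j hij
        rcases lt_or_gt_of_ne hij with h | h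
        · simpa only [Submodule.mkQ_apply, Submodule.liftQ_apply, ContinuousLinearMap.coe_coe] using hba i j h
        · simpa only [Submodule.mkQ_apply, Submodule.liftQ_apply, ContinuousLinearMap.coe_coe] using hba' j i h
      · intro i
        simpa only [Submodule.mkQ_apply, Submodule.liftQ_apply, ContinuousLinearMap.coe_coe] using q1 i
    exact (hli.finite : Finite ℕ).false

end Vale.Agent.P129
end
end

section

section

open Filter Topology

namespace Vale.Agent.P129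

/-- A contraction from Euclidean space which is bounded below by `1/2` at some unit vector of
every subspace of more than half dimension. -/
structure Ell (E : Type*) [NormedAddCommGroup E] [NormedSpace ℝ E] (n : ℕ) where
  T : EuclideanSpace ℝ (Fin n) →ₗ[ℝ] E
  le : ∀ v, ‖T v‖ ≤ ‖v‖
  big : ∀ G : Submodule ℝ (EuclideanSpace ℝ (Fin n)), n < 2 * Module.finrank ℝ G →
    ∃ g ∈ G, ‖g‖ = 1 ∧ 1 / 2 ≤ ‖T g‖

section

variable {X : Type*} [NormedAddCommGroup X] [NormedSpace ℝ X]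

/-- The Riesz vector of evaluation at `x`. -/
noncomputable def Ell.r {n : ℕ} (W : Ell (X →L[ℝ] ℝ) n) (x : X) : EuclideanSpace ℝ (Fin n) :=
  (InnerProductSpace.toDual ℝ (EuclideanSpace ℝ (Fin n))).symm
    (LinearMap.toContinuousLinearMap
      ((ContinuousLinearMap.apply ℝ ℝ x : (X →L[ℝ] ℝ) →L[ℝ] ℝ).toLinearMap ∘ₗ W.T))

lemma Ell.inner_r {n : ℕ} (W : Ell (X →L[ℝ] ℝ) n) (x : X) (v : EuclideanSpace ℝ (Fin n)) :
    inner ℝ (W.r x) v = W.T v x := by
  rw [Ell.r, InnerProductSpace.toDual_symm_apply]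
  rfl

lemma Ell.norm_r_le {n : ℕ} (W : Ell (X →L[ℝ] ℝ) n) (x : X) : ‖W.r x‖ ≤ ‖x‖ := by
  have h1 : ‖W.r x‖ * ‖W.r x‖ ≤ ‖W.r x‖ * ‖x‖ := by
    rw [← real_inner_self_eq_norm_mul_norm, W.inner_r]
    calc W.T (W.r x) x ≤ ‖W.T (W.r x) x‖ := Real.le_norm_self _
      _ ≤ ‖W.T (W.r x)‖ * ‖x‖ := (W.T (W.r x)).le_opNorm x
      _ ≤ ‖W.r x‖ * ‖x‖ := mul_le_mul_of_nonneg_right (W.le _) (norm_nonneg _)
  rcases eq_or_lt_of_le (norm_nonneg (W.r x)) with h | h
  · rw [← h]; exact norm_nonneg _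
  · exact le_of_mul_le_mul_left h1 h

/-- The Euclidean vectors whose functionals vanish at the points of `F`. -/
noncomputable def Ell.G {n : ℕ} (W : Ell (X →L[ℝ] ℝ) n) (F : Finset X) :
    Submodule ℝ (EuclideanSpace ℝ (Fin n)) :=
  (Submodule.span ℝ (W.r '' (F : Set X)))ᗮ

lemma Ell.G_anti {n : ℕ} (W : Ell (X →L[ℝ] ℝ) n) {F F' : Finset X} (h : F ⊆ F') :
    W.G F' ≤ W.G F :=
  Submodule.orthogonal_le (Submodule.span_mono (Set.image_mono (by exact_mod_cast h)))

lemma Ell.mem_G {n : ℕ} (W : Ell (X →L[ℝ] ℝ) n) {F : Finset X} {v : EuclideanSpace ℝ (Fin n)}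
    (hv : v ∈ W.G F) {x : X} (hx : x ∈ F) : inner ℝ (W.r x) v = 0 :=
  (Submodule.mem_orthogonal _ _).1 hv _ (Submodule.subset_span ⟨x, hx, rfl⟩)

lemma Ell.finrank_G {n : ℕ} (W : Ell (X →L[ℝ] ℝ) n) (F : Finset X) :
    n ≤ Module.finrank ℝ (W.G F) + F.card := by
  classical
  have h1 := Submodule.finrank_add_finrank_orthogonal
    (Submodule.span ℝ (W.r '' (F : Set X)))
  rw [finrank_euclideanSpace_fin] at h1
  have h2 : Module.finrank ℝ (Submodule.span ℝ (W.r '' (F : Set X))) ≤ F.card := by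
    rw [← Finset.coe_image]
    exact (finrank_span_finset_le_card _).trans Finset.card_image_le
  have h3 : Module.finrank ℝ (W.G F) =
    Module.finrank ℝ (Submodule.span ℝ (W.r '' (F : Set X)))ᗮ := rfl
  omega

/-- The component of the Riesz vector of `x` in `G F`. -/
noncomputable def Ell.p {n : ℕ} (W : Ell (X →L[ℝ] ℝ) n) (F : Finset X) (x : X) :
    EuclideanSpace ℝ (Fin n) :=
  (W.G F).starProjection (W.r x)

lemma Ell.p_mem {n : ℕ} (W : Ell (X →L[ℝ] ℝ) n) (F : Finset X) (x : X) : W.p F x ∈ W.G F :=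
  Submodule.starProjection_apply_mem _ _

lemma Ell.inner_p {n : ℕ} (W : Ell (X →L[ℝ] ℝ) n) (F : Finset X) (x : X)
    {v : EuclideanSpace ℝ (Fin n)} (hv : v ∈ W.G F) : inner ℝ (W.p F x) v = W.T v x := by
  rw [← W.inner_r, Ell.p, Submodule.inner_starProjection_left_eq_right,
    Submodule.starProjection_eq_self_iff.2 hv]

lemma Ell.norm_p_anti {n : ℕ} (W : Ell (X →L[ℝ] ℝ) n) {F F' : Finset X} (h : F ⊆ F') (x : X) :
    ‖W.p F' x‖ ≤ ‖W.p F x‖ := by
  have h1 : W.p F' x = (W.G F').starProjection (W.p F x) := by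
    have := Submodule.starProjection_comp_starProjection_of_le (W.G_anti h)
    have h2 := congrArg (fun L => L (W.r x)) this
    simpa only [p, ContinuousLinearMap.comp_apply] using h2.symm
  rw [h1]
  exact Submodule.norm_starProjection_apply_le _ _


/-- First case of the dichotomy: the Riesz vectors become small on subspaces of small
codimension. -/
lemma jn_case1 (W : ∀ n, Ell (X →L[ℝ] ℝ) n)
    (H : ∀ (A : Set ℕ) (F : Finset X) (η : ℝ), A.Infinite → 0 < η →
      ∃ (A' : Set ℕ) (F' : Finset X), A'.Infinite ∧ A' ⊆ A ∧ F ⊆ F' ∧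
        ∀ x : X, ‖x‖ ≤ 1 → ∀ᶠ N in atTop, N ∈ A' → ‖(W N).p F' x‖ ≤ η) :
    ∃ f : ℕ → X →L[ℝ] ℝ, (∀ n, 1 / 2 ≤ ‖f n‖) ∧ ∀ x, Tendsto (fun n => f n x) atTop (𝓝 0) := by
  have H' : ∀ (s : {s : Set ℕ × Finset X // s.1.Infinite}) (k : ℕ),
      ∃ t : {s : Set ℕ × Finset X // s.1.Infinite}, t.1.1 ⊆ s.1.1 ∧ s.1.2 ⊆ t.1.2 ∧
        ∀ x : X, ‖x‖ ≤ 1 → ∀ᶠ N in atTop, N ∈ t.1.1 → ‖(W N).p t.1.2 x‖ ≤ 1 / ((k : ℝ) + 1) := by
    rintro ⟨⟨A, F⟩, hA⟩ k
    obtain ⟨A', F', h1, h2, h3, h4⟩ := H A F (1 / ((k : ℝ) + 1)) hA (by positivity)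
    exact ⟨⟨⟨A', F'⟩, h1⟩, h2, h3, h4⟩
  choose nx h1 h2 h3 using H'
  let S : ℕ → {s : Set ℕ × Finset X // s.1.Infinite} := fun k => Nat.rec
    ⟨(Set.univ, ∅), Set.infinite_univ⟩ (fun k s => nx s k) k
  have hSs : ∀ k, S (k + 1) = nx (S k) k := fun k => rfl
  have hA : ∀ i j, i ≤ j → (S j).1.1 ⊆ (S i).1.1 := by
    intro i j hij
    induction j, hij using Nat.le_induction with
    | base => exact subset_rfl
    | succ j _ ih => rw [hSs]; exact (h1 _ _).trans ih
  have hF : ∀ i j, i ≤ j → (S i).1.2 ⊆ (S j).1.2 := by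
    intro i j hij
    induction j, hij using Nat.le_induction with
    | base => exact subset_rfl
    | succ j _ ih => rw [hSs]; exact ih.trans (h2 _ _)
  have hN : ∀ k, ∃ N ∈ (S k).1.1, k + 2 * (S k).1.2.card < N := fun k =>
    (S k).2.exists_gt _
  choose N hN1 hN2 using hN
  have hv : ∀ k, ∃ g ∈ (W (N k)).G (S k).1.2, ‖g‖ = 1 ∧ 1 / 2 ≤ ‖(W (N k)).T g‖ := by
    intro k
    apply (W (N k)).big
    have := (W (N k)).finrank_G (S k).1.2
    have := hN2 k
    omega
  choose v hv1 hv2 hv3 using hv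
  refine ⟨fun k => (W (N k)).T (v k), hv3, ?_⟩
  have key : ∀ x : X, ‖x‖ ≤ 1 → Tendsto (fun k => (W (N k)).T (v k) x) atTop (𝓝 0) := by
    intro x hx
    rw [Metric.tendsto_atTop]
    intro ε hε
    obtain ⟨m, hm⟩ := exists_nat_one_div_lt hε
    obtain ⟨N0, hN0⟩ := eventually_atTop.1 (h3 (S m) m x hx)
    refine ⟨max (m + 1) N0, fun k hk => ?_⟩
    have hk1 : m + 1 ≤ k := (le_max_left _ _).trans hk
    have hk2 : N0 ≤ k := (le_max_right _ _).trans hk
    have hNk : N0 ≤ N k := by have := hN2 k; omega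
    have e1 := hN0 (N k) hNk (hA (m + 1) k hk1 (hN1 k))
    have e2 : ‖(W (N k)).p (S k).1.2 x‖ ≤ 1 / ((m : ℝ) + 1) :=
      ((W (N k)).norm_p_anti (hF (m + 1) k hk1) x).trans e1
    rw [Real.dist_eq, sub_zero, ← (W (N k)).inner_p _ x (hv1 k)]
    calc |inner ℝ ((W (N k)).p (S k).1.2 x) (v k)|
        ≤ ‖(W (N k)).p (S k).1.2 x‖ * ‖v k‖ := abs_real_inner_le_norm _ _
      _ ≤ 1 / ((m : ℝ) + 1) := by rw [hv2 k, mul_one]; exact e2
      _ < ε := hm
  intro x
  have hx1 : ‖(‖x‖ + 1)⁻¹ • x‖ ≤ 1 := by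
    rw [norm_smul, norm_inv, Real.norm_of_nonneg (by (clear * -; positivity)), inv_mul_le_iff₀ (by positivity)]
    linarith only []
  have := (key _ hx1).const_mul (‖x‖ + 1)
  rw [mul_zero] at this
  refine this.congr fun k => ?_
  rw [map_smul, smul_eq_mul, mul_inv_cancel_left₀ (by positivity)]

/-- Second case of the dichotomy. -/
lemma jn_case2 (W : ∀ n, Ell (X →L[ℝ] ℝ) n) (A₀ : Set ℕ) (F₀ : Finset X) (η : ℝ)
    (hA₀ : A₀.Infinite) (hη : 0 < η)
    (H : ∀ (A : Set ℕ) (F : Finset X), A.Infinite → A ⊆ A₀ → F₀ ⊆ F →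
      ∃ x : X, ‖x‖ ≤ 1 ∧ ∃ᶠ N in atTop, N ∈ A ∧ η < ‖(W N).p F x‖) :
    ∃ f : ℕ → X →L[ℝ] ℝ, (∀ n, η ≤ ‖f n‖) ∧
      ∀ x (K : ℕ), ∑ k ∈ Finset.range K, (f k x) ^ 2 ≤ ‖x‖ ^ 2 := by
  classical
  let St := {s : Set ℕ × Finset X // s.1.Infinite ∧ s.1 ⊆ A₀ ∧ F₀ ⊆ s.2}
  have H' : ∀ s : St, ∃ x : X, ‖x‖ ≤ 1 ∧ ∃ᶠ N in atTop, N ∈ s.1.1 ∧ η < ‖(W N).p s.1.2 x‖ :=
    fun s => H s.1.1 s.1.2 s.2.1 s.2.2.1 s.2.2.2
  choose y hy1 hy2 using H'
  let nx : St → St := fun s => ⟨({N | N ∈ s.1.1 ∧ η < ‖(W N).p s.1.2 (y s)‖}, insert (y s) s.1.2),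
    Nat.frequently_atTop_iff_infinite.1 (hy2 s), fun N hN => s.2.2.1 hN.1,
    s.2.2.2.trans (Finset.subset_insert _ _)⟩
  let S : ℕ → St := fun k => Nat.rec ⟨(A₀, F₀), hA₀, subset_rfl, subset_rfl⟩ (fun _ s => nx s) k
  have hSs : ∀ k, S (k + 1) = nx (S k) := fun k => rfl
  have hA : ∀ i j, i ≤ j → (S j).1.1 ⊆ (S i).1.1 := by
    intro i j hij
    induction j, hij using Nat.le_induction with
    | base => exact subset_rfl
    | succ j _ ih => rw [hSs]; exact fun N hN => ih hN.1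
  have hF : ∀ i j, i ≤ j → (S i).1.2 ⊆ (S j).1.2 := by
    intro i j hij
    induction j, hij using Nat.le_induction with
    | base => exact subset_rfl
    | succ j _ ih => rw [hSs]; exact ih.trans (Finset.subset_insert _ _)
  have hyF : ∀ k, y (S k) ∈ (S (k + 1)).1.2 := fun k => Finset.mem_insert_self _ _
  have hN : ∀ m, ∃ N, N ∈ (S (m + 1)).1.1 := fun m => (S (m + 1)).2.1.nonempty
  choose N hN1 using hN
  have hN2 : ∀ m k, k ≤ m → η < ‖(W (N m)).p (S k).1.2 (y (S k))‖ := by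
    intro m k hk
    exact (hA (k + 1) (m + 1) (by omega) (hN1 m)).2
  -- the orthonormal vectors
  let v : ∀ m k, EuclideanSpace ℝ (Fin (N m)) := fun m k =>
    ‖(W (N m)).p (S k).1.2 (y (S k))‖⁻¹ • (W (N m)).p (S k).1.2 (y (S k))
  have hvG : ∀ m k, v m k ∈ (W (N m)).G (S k).1.2 := fun m k =>
    Submodule.smul_mem _ _ ((W (N m)).p_mem _ _)
  have hv1 : ∀ m k, k ≤ m → ‖v m k‖ = 1 := by
    intro m k hk
    have h0 : ‖(W (N m)).p (S k).1.2 (y (S k))‖ ≠ 0 := (hη.trans (hN2 m k hk)).ne'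
    simp only [v, norm_smul, norm_inv, norm_norm]
    exact inv_mul_cancel₀ h0
  have hvo : ∀ m k j, k < j → inner ℝ (v m k) (v m j) = 0 := by
    intro m k j hkj
    have e1 : v m j ∈ (W (N m)).G (S k).1.2 := (W (N m)).G_anti (hF k j hkj.le) (hvG m j)
    have e2 : v m j ∈ (W (N m)).G (S (k + 1)).1.2 := (W (N m)).G_anti (hF (k + 1) j hkj) (hvG m j)
    have e3 := (W (N m)).mem_G e2 (hyF k)
    simp only [v, inner_smul_left]
    have e4 : inner ℝ ((W (N m)).p (S k).1.2 (y (S k))) (v m j) = 0 := by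
      rw [(W (N m)).inner_p _ _ e1, ← (W (N m)).inner_r, e3]
    have e5 : inner ℝ ((W (N m)).p (S k).1.2 (y (S k)))
      (‖(W (N m)).p (S j).1.2 (y (S j))‖⁻¹ • (W (N m)).p (S j).1.2 (y (S j))) = 0 := e4
    rw [e5, mul_zero]
  have horth : ∀ m, Orthonormal ℝ (fun k : Fin (m + 1) => v m k) := by
    intro m
    constructor
    · intro k; exact hv1 m k (by omega)
    · intro i j hij
      rcases lt_or_gt_of_ne (fun h => hij (Fin.ext h) : (i : ℕ) ≠ j) with h | h
      · exact hvo m i j h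
      · show inner ℝ (v m i) (v m j) = 0
        rw [real_inner_comm]; exact hvo m j i h
  have hsum : ∀ m K, K ≤ m + 1 → ∀ x, ∑ k ∈ Finset.range K, ((W (N m)).T (v m k) x) ^ 2 ≤
      ‖x‖ ^ 2 := by
    intro m K hK x
    have h1 : ∑ k ∈ Finset.range K, ((W (N m)).T (v m k) x) ^ 2 ≤
        ∑ k ∈ Finset.range (m + 1), ((W (N m)).T (v m k) x) ^ 2 :=
      Finset.sum_le_sum_of_subset_of_nonneg (Finset.range_subset_range.2 hK)
        (fun _ _ _ => sq_nonneg _)
    have h2 : ∑ k ∈ Finset.range (m + 1), ((W (N m)).T (v m k) x) ^ 2 =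
        ∑ k : Fin (m + 1), ‖inner ℝ (v m k) ((W (N m)).r x)‖ ^ 2 := by
      rw [Finset.sum_range]
      refine Finset.sum_congr rfl fun k _ => ?_
      rw [Real.norm_eq_abs, sq_abs, real_inner_comm, (W (N m)).inner_r]
    have h3 := (horth m).sum_inner_products_le ((W (N m)).r x) (s := Finset.univ)
    have h4 : ‖(W (N m)).r x‖ ^ 2 ≤ ‖x‖ ^ 2 :=
      pow_le_pow_left₀ (norm_nonneg _) ((W (N m)).norm_r_le x) 2
    linarith only [h1, h2, h3, h4]
  -- the limit functionals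
  have hball : ∀ k, ∀ᶠ m in (hyperfilter ℕ : Filter ℕ),
      (W (N m)).T (v m k) ∈ Metric.closedBall (0 : X →L[ℝ] ℝ) 1 := by
    intro k
    have : ∀ᶠ m in (atTop : Filter ℕ),
        (W (N m)).T (v m k) ∈ Metric.closedBall (0 : X →L[ℝ] ℝ) 1 := by
      filter_upwards [eventually_ge_atTop k] with m hm
      rw [mem_closedBall_zero_iff]
      exact ((W (N m)).le _).trans (hv1 m k hm).le
    exact this.filter_mono Nat.hyperfilter_le_atTop
  have hlim : ∀ k, ∃ φ : X →L[ℝ] ℝ, ∀ x,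
      Tendsto (fun m => (W (N m)).T (v m k) x) (hyperfilter ℕ : Filter ℕ) (𝓝 (φ x)) := by
    intro k
    have hc := WeakDual.isCompact_closedBall (𝕜 := ℝ) (E := X) 0 1
    let u : Ultrafilter (WeakDual ℝ X) :=
      (hyperfilter ℕ).map (fun m => StrongDual.toWeakDual ((W (N m)).T (v m k)))
    have hu : (WeakDual.toStrongDual ⁻¹' Metric.closedBall (0 : X →L[ℝ] ℝ) 1) ∈ u := hball k
    obtain ⟨ψ, -, hψ⟩ := isCompact_iff_ultrafilter_le_nhds'.1 hc u hu
    refine ⟨WeakDual.toStrongDual ψ, fun x => ?_⟩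
    have h1 : Tendsto (fun m => StrongDual.toWeakDual ((W (N m)).T (v m k)))
        (hyperfilter ℕ : Filter ℕ) (𝓝 ψ) := hψ
    exact ((WeakDual.eval_continuous x).tendsto ψ).comp h1
  choose φ hφ using hlim
  refine ⟨φ, fun k => ?_, fun x K => ?_⟩
  · have h1 : η ≤ φ k (y (S k)) := by
      refine ge_of_tendsto (hφ k (y (S k))) ?_
      have : ∀ᶠ m in (atTop : Filter ℕ), η ≤ (W (N m)).T (v m k) (y (S k)) := by
        filter_upwards [eventually_ge_atTop k] with m hm
        rw [← (W (N m)).inner_p _ _ (hvG m k)]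
        have h0 : ‖(W (N m)).p (S k).1.2 (y (S k))‖ ≠ 0 := (hη.trans (hN2 m k hm)).ne'
        simp only [v, inner_smul_right, real_inner_self_eq_norm_mul_norm]
        rw [inv_mul_cancel_left₀ h0]
        exact (hN2 m k hm).le
      exact this.filter_mono Nat.hyperfilter_le_atTop
    calc η ≤ ‖φ k (y (S k))‖ := h1.trans (Real.le_norm_self _)
      _ ≤ ‖φ k‖ * ‖y (S k)‖ := (φ k).le_opNorm _
      _ ≤ ‖φ k‖ := mul_le_of_le_one_right (norm_nonneg _) (hy1 _)
  · have h1 : Tendsto (fun m => ∑ k ∈ Finset.range K, ((W (N m)).T (v m k) x) ^ 2)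
        (hyperfilter ℕ : Filter ℕ) (𝓝 (∑ k ∈ Finset.range K, (φ k x) ^ 2)) :=
      tendsto_finsetSum _ fun k _ => (hφ k x).pow 2
    refine le_of_tendsto h1 ?_
    have : ∀ᶠ m in (atTop : Filter ℕ),
        ∑ k ∈ Finset.range K, ((W (N m)).T (v m k) x) ^ 2 ≤ ‖x‖ ^ 2 := by
      filter_upwards [eventually_ge_atTop K] with m hm
      exact hsum m K (by omega) x
    exact this.filter_mono Nat.hyperfilter_le_atTop

/-- The Josefson-Nissenzweig theorem, up to normalisation. -/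
theorem josefson_nissenzweig (W : ∀ n, Ell (X →L[ℝ] ℝ) n) :
    ∃ (f : ℕ → X →L[ℝ] ℝ) (c : ℝ), 0 < c ∧ (∀ n, c ≤ ‖f n‖) ∧
      ∀ x, Tendsto (fun n => f n x) atTop (𝓝 0) := by
  by_cases H : ∀ (A : Set ℕ) (F : Finset X) (η : ℝ), A.Infinite → 0 < η →
      ∃ (A' : Set ℕ) (F' : Finset X), A'.Infinite ∧ A' ⊆ A ∧ F ⊆ F' ∧
        ∀ x : X, ‖x‖ ≤ 1 → ∀ᶠ N in atTop, N ∈ A' → ‖(W N).p F' x‖ ≤ η
  · obtain ⟨f, h1, h2⟩ := jn_case1 W H
    exact ⟨f, 1 / 2, by norm_num, h1, h2⟩
  · push Not at H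
    obtain ⟨A₀, F₀, η, hA₀, hη, H⟩ := H
    obtain ⟨f, h1, h2⟩ := jn_case2 W A₀ F₀ η hA₀ hη (fun A F hA hAA hFF => by
      obtain ⟨x, hx, hx'⟩ := H A F hA hAA hFF
      exact ⟨x, hx, hx'⟩)
    refine ⟨f, η, hη, h1, fun x => ?_⟩
    have hs : Summable fun k => (f k x) ^ 2 :=
      summable_of_sum_range_le (fun _ => sq_nonneg _) (h2 x)
    have h3 := hs.tendsto_atTop_zero
    have h4 : Tendsto (fun k => √((f k x) ^ 2)) atTop (𝓝 0) := by
      have := (Real.continuous_sqrt.tendsto 0).comp h3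
      simpa only [Function.comp_def, Real.sqrt_zero] using this
    rw [tendsto_zero_iff_abs_tendsto_zero]
    refine h4.congr fun k => ?_
    rw [Real.sqrt_sq_eq_abs]; rfl

end

end Vale.Agent.P129
end
end

section

section

open Filter Topology

namespace Vale.Agent.P129

section real

variable {X : Type*} [NormedAddCommGroup X] [NormedSpace ℝ X]

/-- Many functionals with an upper 2-estimate. -/
lemma Ell.exists_orthonormal {E : Type*} [NormedAddCommGroup E] [NormedSpace ℝ E] {M : ℕ}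
    (W : Ell E M) (N : ℕ) (hN : 2 * N ≤ M) :
    ∃ v : ℕ → EuclideanSpace ℝ (Fin M), (∀ i < N, ‖v i‖ = 1 ∧ 1 / 2 ≤ ‖W.T (v i)‖) ∧
      ∀ i j, i < j → j < N → inner ℝ (v i) (v j) = 0 := by
  classical
  induction N with
  | zero => exact ⟨fun _ => 0, by simp, by simp⟩
  | succ N ih =>
    obtain ⟨v, hv1, hv2⟩ := ih (by omega)
    let s : Finset (EuclideanSpace ℝ (Fin M)) := (Finset.range N).image v
    have h1 := Submodule.finrank_add_finrank_orthogonal
      (Submodule.span ℝ (s : Set (EuclideanSpace ℝ (Fin M))))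
    rw [finrank_euclideanSpace_fin] at h1
    have h2 : Module.finrank ℝ (Submodule.span ℝ (s : Set (EuclideanSpace ℝ (Fin M)))) ≤ N := by
      refine (finrank_span_finset_le_card _).trans (Finset.card_image_le.trans ?_)
      simp
    obtain ⟨g, hg1, hg2, hg3⟩ := W.big
      (Submodule.span ℝ (s : Set (EuclideanSpace ℝ (Fin M))))ᗮ (by omega)
    refine ⟨Function.update v N g, ?_, ?_⟩
    · intro i hi
      rcases Nat.lt_succ_iff_lt_or_eq.1 hi with h | h
      · rw [Function.update_of_ne h.ne]; exact hv1 i h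
      · subst h; rw [Function.update_self]; exact ⟨hg2, hg3⟩
    · intro i j hij hj
      rcases Nat.lt_succ_iff_lt_or_eq.1 hj with h | h
      · rw [Function.update_of_ne h.ne, Function.update_of_ne (hij.trans h).ne]
        exact hv2 i j hij h
      · subst h
        rw [Function.update_self, Function.update_of_ne hij.ne]
        refine (Submodule.mem_orthogonal _ _).1 hg1 _ (Submodule.subset_span ?_)
        simp only [s, Finset.coe_image, Set.mem_image, Finset.coe_range, Set.mem_Iio]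
        exact ⟨i, hij, rfl⟩

lemma exists_two_estimate (W : ∀ n, Ell (X →L[ℝ] ℝ) n) :
    ∃ f : ℕ → ℕ → X →L[ℝ] ℝ, (∀ N, ∀ j < N, 1 / 2 ≤ ‖f N j‖) ∧
      ∀ N x, ∑ j ∈ Finset.range N, (f N j x) ^ 2 ≤ ‖x‖ ^ 2 := by
  choose v hv1 hv2 using fun N => (W (2 * N)).exists_orthonormal N le_rfl
  refine ⟨fun N j => (W (2 * N)).T (v N j), fun N j hj => (hv1 N j hj).2, fun N x => ?_⟩
  have horth : Orthonormal ℝ (fun k : Fin N => v N k) := by
    constructor
    · intro k; exact (hv1 N k k.2).1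
    · intro i j hij
      rcases lt_or_gt_of_ne (fun h => hij (Fin.ext h) : (i : ℕ) ≠ j) with h | h
      · exact hv2 N i j h j.2
      · show inner ℝ (v N i) (v N j) = 0
        rw [real_inner_comm]; exact hv2 N j i h i.2
  have h2 : ∑ k ∈ Finset.range N, ((W (2 * N)).T (v N k) x) ^ 2 =
      ∑ k : Fin N, ‖inner ℝ (v N k) ((W (2 * N)).r x)‖ ^ 2 := by
    rw [Finset.sum_range]
    refine Finset.sum_congr rfl fun k _ => ?_
    rw [Real.norm_eq_abs, sq_abs, real_inner_comm, (W (2 * N)).inner_r]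
  have h3 := horth.sum_inner_products_le ((W (2 * N)).r x) (s := Finset.univ)
  have h4 : ‖(W (2 * N)).r x‖ ^ 2 ≤ ‖x‖ ^ 2 :=
    pow_le_pow_left₀ (norm_nonneg _) ((W (2 * N)).norm_r_le x) 2
  linarith only [h2, h3, h4]

lemma card_bad_le {N : ℕ} (f : ℕ → ℝ) (t : ℝ) (k : ℕ)
    (hf : ∑ j ∈ Finset.range N, (f j) ^ 2 ≤ t ^ 2) (ht0 : 0 ≤ t) (ht : t ≤ 2 ^ k) :
    ((Finset.range N).filter (fun j => (1 / 2 : ℝ) ^ k < |f j|)).card ≤ 16 ^ k := by
  set s := (Finset.range N).filter (fun j => (1 / 2 : ℝ) ^ k < |f j|) with hs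
  have h1 : (s.card : ℝ) * ((1 / 2 : ℝ) ^ k) ^ 2 ≤ ∑ j ∈ s, (f j) ^ 2 := by
    rw [← nsmul_eq_mul]
    refine Finset.card_nsmul_le_sum _ _ _ fun j hj => ?_
    rw [← sq_abs (f j)]
    exact pow_le_pow_left₀ (by positivity) (Finset.mem_filter.1 hj).2.le 2
  have h2 : ∑ j ∈ s, (f j) ^ 2 ≤ ∑ j ∈ Finset.range N, (f j) ^ 2 :=
    Finset.sum_le_sum_of_subset_of_nonneg (Finset.filter_subset _ _) fun _ _ _ => sq_nonneg _
  have h3 : t ^ 2 ≤ (2 ^ k) ^ 2 := pow_le_pow_left₀ ht0 ht 2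
  have h4 : (s.card : ℝ) * ((1 / 2 : ℝ) ^ k) ^ 2 ≤ (2 ^ k) ^ 2 := by linarith only [hf, h1, h2, h3]
  have h5 : (s.card : ℝ) ≤ 16 ^ k := by
    have e1 : ((1 / 2 : ℝ) ^ k) ^ 2 * 4 ^ k = 1 := by
      rw [← pow_mul, mul_comm k 2, pow_mul, ← mul_pow]; norm_num
    have e2 : ((2 : ℝ) ^ k) ^ 2 * 4 ^ k = 16 ^ k := by
      rw [← pow_mul, mul_comm k 2, pow_mul, ← mul_pow]; norm_num
    calc (s.card : ℝ) = (s.card : ℝ) * (((1 / 2 : ℝ) ^ k) ^ 2 * 4 ^ k) := by rw [e1, mul_one]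
      _ = ((s.card : ℝ) * ((1 / 2 : ℝ) ^ k) ^ 2) * 4 ^ k := by ring
      _ ≤ (2 ^ k) ^ 2 * 4 ^ k := mul_le_mul_of_nonneg_right h4 (by positivity)
      _ = 16 ^ k := e2
  exact_mod_cast h5

/-- The heart of the argument: functionals which are bounded below in norm and tend to zero fast
at fewer than non(M) given points. -/
theorem exists_fast_null (W : ∀ n, Ell (X →L[ℝ] ℝ) n) {ι : Type*} [Infinite ι]
    (hev : ∀ (h : ℕ → ℕ) (S : ι × ι → ℕ → Finset ℕ), (∀ i k, (S i k).card ≤ h k) →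
      ∃ e : ℕ → ℕ, ∀ i, ∀ᶠ k in atTop, e k ∉ S i k) (d : ι → X) :
    ∃ (f : ℕ → X →L[ℝ] ℝ) (c : ℝ), 0 < c ∧ (∀ n, c ≤ ‖f n‖) ∧
      ∀ i, ∀ᶠ k in atTop, |f k (d i)| ≤ (1 / 2 : ℝ) ^ k := by
  classical
  by_cases hb : ∀ φ : ι → ℕ → ℕ, ∃ g : ℕ → ℕ, ∀ i, ∀ᶠ k in atTop, φ i k ≤ g k
  · obtain ⟨u, c, hc, hu1, hu2⟩ := josefson_nissenzweig W
    have h1 : ∀ i k, ∃ N : ℕ, ∀ n ≥ N, |u n (d i)| ≤ (1 / 2 : ℝ) ^ k := by
      intro i k
      have := (Metric.tendsto_atTop.1 (hu2 (d i))) ((1 / 2 : ℝ) ^ k) (by positivity)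
      obtain ⟨N, hN⟩ := this
      refine ⟨N, fun n hn => ?_⟩
      have := hN n hn
      rw [Real.dist_eq, sub_zero] at this
      exact this.le
    choose φ hφ using h1
    obtain ⟨g, hg⟩ := hb φ
    refine ⟨fun k => u (g k), c, hc, fun k => hu1 _, fun i => ?_⟩
    filter_upwards [hg i] with k hk
    exact hφ i k _ hk
  · push Not at hb
    obtain ⟨φ, hφ⟩ := hb
    obtain ⟨F, hF1, hF2⟩ := exists_two_estimate W
    let S : ι × ι → ℕ → Finset ℕ := fun i k =>
      if ‖d i.1‖ ≤ 2 ^ k then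
        (Finset.range (φ i.2 k)).filter (fun j => (1 / 2 : ℝ) ^ k < |F (φ i.2 k) j (d i.1)|)
      else ∅
    have hS : ∀ i k, (S i k).card ≤ 16 ^ k := by
      intro i k
      by_cases h : ‖d i.1‖ ≤ 2 ^ k
      · simp only [S, h, if_true]
        exact card_bad_le (fun j => F (φ i.2 k) j (d i.1)) ‖d i.1‖ k (hF2 _ _) (norm_nonneg _) h
      · simp only [one_div, inv_pow, h, ↓reduceIte, Finset.card_empty, zero_le, S]
    obtain ⟨e, he⟩ := hev (fun k => 16 ^ k) S hS
    obtain ⟨i', hi'⟩ := hφ e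
    have hfreq : ∃ᶠ k in atTop, e k < φ i' k := by
      exact hi'.mono fun k hk => by simpa using hk
    obtain ⟨ψ, hψ1, hψ2⟩ := extraction_of_frequently_atTop hfreq
    refine ⟨fun m => F (φ i' (ψ m)) (e (ψ m)), 1 / 2, by norm_num,
      fun m => hF1 _ _ (hψ2 m), fun i => ?_⟩
    have h1 : ∀ᶠ k : ℕ in atTop, ‖d i‖ ≤ 2 ^ k := by
      have : Tendsto (fun k : ℕ => (2 : ℝ) ^ k) atTop atTop :=
        tendsto_pow_atTop_atTop_of_one_lt (by norm_num)
      exact this.eventually_ge_atTop _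
    have h2 := hψ1.tendsto_atTop.eventually ((he (i, i')).and h1)
    filter_upwards [h2] with m hm
    obtain ⟨hm1, hm2⟩ := hm
    have h3 : |F (φ i' (ψ m)) (e (ψ m)) (d i)| ≤ (1 / 2 : ℝ) ^ (ψ m) := by
      by_contra hcon
      apply hm1
      simp only [S, hm2, if_true, Finset.mem_filter, Finset.mem_range]
      exact ⟨hψ2 m, not_le.1 hcon⟩
    refine h3.trans ?_
    exact pow_le_pow_of_le_one (by norm_num) (by norm_num) (hψ1.id_le m)

end real

end Vale.Agent.P129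
end
end

section

section

/-!
# P129, Lemma B (Dvoretzky-Rogers type ellipsoid lemma)

Every infinite-dimensional real normed space contains, for every `n`, the image of the Euclidean
ball of `ℝ^n` under a contraction `T` such that every subspace of dimension `> n / 2` contains a
unit vector `g` with `‖T g‖ ≥ 1/2`.
-/

namespace Vale.Agent.P129

open Module

/-- An infinite-dimensional space admits an injective linear map from `ℝ^n`. -/
theorem exists_injective_euclidean {E : Type*} [NormedAddCommGroup E] [NormedSpace ℝ E]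
    (hE : ¬ FiniteDimensional ℝ E) (n : ℕ) :
    ∃ e : EuclideanSpace ℝ (Fin n) →ₗ[ℝ] E, Function.Injective e := by
  let b := Basis.ofVectorSpace ℝ E
  have hinf : Infinite (Basis.ofVectorSpaceIndex ℝ E) := by
    by_contra hfin
    rw [not_infinite_iff_finite] at hfin
    exact hE (Module.Finite.of_basis b)
  let f : Fin n ↪ Basis.ofVectorSpaceIndex ℝ E :=
    Fin.valEmbedding.trans (Infinite.natEmbedding _)
  refine ⟨(EuclideanSpace.basisFun (Fin n) ℝ).toBasis.constr ℝ (b ∘ f), ?_⟩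
  exact Basis.injective_constr_of_linearIndependent _ (b.linearIndependent.comp f f.injective)

/-- Determinant of the map acting as `a` on `G` and as `c` modulo `G`. -/
theorem det_smul_proj {n : ℕ} (G : Submodule ℝ (EuclideanSpace ℝ (Fin n))) (a c : ℝ) :
    LinearMap.det (c • LinearMap.id +
      (a - c) • (G.starProjection : EuclideanSpace ℝ (Fin n) →L[ℝ] EuclideanSpace ℝ (Fin n)).toLinearMap)
      = a ^ (finrank ℝ G) * c ^ (n - finrank ℝ G) := by
  set B : EuclideanSpace ℝ (Fin n) →ₗ[ℝ] EuclideanSpace ℝ (Fin n) := c • LinearMap.id +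
      (a - c) • (G.starProjection : EuclideanSpace ℝ (Fin n) →L[ℝ] EuclideanSpace ℝ (Fin n)).toLinearMap
    with hB
  have hmem : ∀ v, G.starProjection v ∈ G := fun v => G.starProjection_apply_mem v
  have hBG : ∀ v ∈ G, B v = a • v := by
    intro v hv
    have : G.starProjection v = v := Submodule.starProjection_eq_self_iff.2 hv
    simp only [hB, LinearMap.add_apply, LinearMap.smul_apply, LinearMap.id_apply,
      ContinuousLinearMap.coe_coe, this, ← add_smul]
    congr 1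
    ring
  have he : G ≤ G.comap B := by
    intro v hv
    simp only [Submodule.mem_comap, hBG v hv]
    exact G.smul_mem a hv
  rw [LinearMap.det_eq_det_mul_det G B he]
  have h1 : B.restrict he = a • LinearMap.id := by
    ext v
    simp only [LinearMap.restrict_apply, hBG v v.2, PiLp.smul_apply, smul_eq_mul, LinearMap.smul_apply, LinearMap.id_coe, id_eq, SetLike.val_smul]
  have h2 : G.mapQ G B he = c • LinearMap.id := by
    apply Submodule.linearMap_qext
    ext1 v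
    simp only [LinearMap.comp_apply, Submodule.mkQ_apply, Submodule.mapQ_apply,
      LinearMap.smul_apply, LinearMap.id_apply]
    rw [← Submodule.Quotient.mk_smul, Submodule.Quotient.eq]
    simp only [hB, LinearMap.add_apply, LinearMap.smul_apply, LinearMap.id_apply, ContinuousLinearMap.coe_coe, add_sub_cancel_left]
    exact G.smul_mem _ (hmem v)
  rw [h1, h2, LinearMap.det_smul, LinearMap.det_smul, LinearMap.det_id, LinearMap.det_id,
    mul_one, mul_one, Submodule.finrank_quotient, finrank_euclideanSpace_fin]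

theorem exists_ellipsoid {E : Type*} [NormedAddCommGroup E] [NormedSpace ℝ E]
    (hE : ¬ FiniteDimensional ℝ E) (n : ℕ) :
    ∃ T : EuclideanSpace ℝ (Fin n) →ₗ[ℝ] E, (∀ v, ‖T v‖ ≤ ‖v‖) ∧
      ∀ G : Submodule ℝ (EuclideanSpace ℝ (Fin n)), n < 2 * Module.finrank ℝ G →
        ∃ g ∈ G, ‖g‖ = 1 ∧ 1 / 2 ≤ ‖T g‖ := by
  obtain ⟨e, he⟩ := exists_injective_euclidean hE n
  obtain ⟨K, hK0, hK⟩ := e.exists_antilipschitzWith (LinearMap.ker_eq_bot.2 he)
  have hKe : ∀ v, ‖v‖ ≤ K * ‖e v‖ := by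
    intro v
    simpa only [dist_zero_right, map_zero] using hK.le_mul_dist v 0
  have hec : Continuous e := e.continuous_of_finiteDimensional
  let S : Set (EuclideanSpace ℝ (Fin n) →L[ℝ] EuclideanSpace ℝ (Fin n)) :=
    {A | ∀ v, ‖e (A v)‖ ≤ ‖v‖}
  have hSclosed : IsClosed S := by
    have : S = ⋂ v, {A | ‖e (A v)‖ ≤ ‖v‖} := by
      ext A
      simp only [Set.mem_ofPred_eq, Set.mem_iInter, S]
    rw [this]
    refine isClosed_iInter fun v => ?_
    refine isClosed_le ?_ continuous_const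
    exact (hec.comp (ContinuousLinearMap.apply ℝ _ v).continuous).norm
  have hSbdd : Bornology.IsBounded S := by
    refine (isBounded_iff_forall_norm_le).2 ⟨K, fun A hA => ?_⟩
    refine ContinuousLinearMap.opNorm_le_bound _ K.2 fun v => ?_
    calc ‖A v‖ ≤ K * ‖e (A v)‖ := hKe _
      _ ≤ K * ‖v‖ := by gcongr; exact hA v
  have hScomp : IsCompact S := Metric.isCompact_of_isClosed_isBounded hSclosed hSbdd
  have hdetc : Continuous fun A : EuclideanSpace ℝ (Fin n) →L[ℝ] EuclideanSpace ℝ (Fin n) =>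
      |LinearMap.det A.toLinearMap| := ContinuousLinearMap.continuous_det.abs
  -- a nondegenerate element of `S`
  obtain ⟨t, ht0, ht⟩ : ∃ t : ℝ, 0 < t ∧ ∀ v, ‖e (t • v)‖ ≤ ‖v‖ := by
    let ec : EuclideanSpace ℝ (Fin n) →L[ℝ] E := LinearMap.toContinuousLinearMap e
    refine ⟨1 / (‖ec‖ + 1), by positivity, fun v => ?_⟩
    have h1 : ‖e v‖ ≤ ‖ec‖ * ‖v‖ := ec.le_opNorm v
    rw [map_smul, norm_smul, Real.norm_of_nonneg (by positivity), div_mul_eq_mul_div, one_mul,
      div_le_iff₀ (by positivity)]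
    nlinarith only [h1, norm_nonneg v]
  have hA0 : (t • (ContinuousLinearMap.id ℝ (EuclideanSpace ℝ (Fin n)))) ∈ S := by
    intro v
    simpa only [smul_apply, ContinuousLinearMap.id_apply, map_smul] using ht v
  obtain ⟨A, hAS, hAmax⟩ := hScomp.exists_isMaxOn ⟨_, hA0⟩ hdetc.continuousOn
  have hApos : 0 < |LinearMap.det A.toLinearMap| := by
    refine lt_of_lt_of_le ?_ (hAmax hA0)
    have : ((t • (ContinuousLinearMap.id ℝ (EuclideanSpace ℝ (Fin n)))).toLinearMap)
        = t • LinearMap.id := rfl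
    simp only [this, LinearMap.det_smul, LinearMap.det_id, mul_one]
    positivity
  refine ⟨e ∘ₗ A.toLinearMap, fun v => hAS v, fun G hG => ?_⟩
  by_contra hcon
  push Not at hcon
  have hTG : ∀ g ∈ G, ‖e (A g)‖ ≤ 1 / 2 * ‖g‖ := by
    intro g hg
    rcases eq_or_ne g 0 with rfl | hg0
    · simp
    · have hn : 0 < ‖g‖ := norm_pos_iff.2 hg0
      have h1 := hcon (‖g‖⁻¹ • g) (G.smul_mem _ hg) (by
        rw [norm_smul, norm_inv, norm_norm, inv_mul_cancel₀ hn.ne'])
      simp only [LinearMap.comp_apply, ContinuousLinearMap.coe_coe, map_smul, norm_smul, norm_inv,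
        norm_norm] at h1
      rw [inv_mul_lt_iff₀ hn] at h1
      linarith only [h1]
  set s : ℝ := √2 with hs
  have hs2 : s * s = 2 := Real.mul_self_sqrt (by norm_num)
  have hs0 : 0 < s := Real.sqrt_pos.2 (by norm_num)
  let B : EuclideanSpace ℝ (Fin n) →L[ℝ] EuclideanSpace ℝ (Fin n) :=
    (s / 2) • ContinuousLinearMap.id ℝ _ + (s - s / 2) • G.starProjection
  have hBdet : LinearMap.det B.toLinearMap = s ^ (finrank ℝ G) * (s / 2) ^ (n - finrank ℝ G) :=
    det_smul_proj G s (s / 2)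
  have hBS : A ∘L B ∈ S := by
    intro v
    set p := G.starProjection v with hp
    have hpG : p ∈ G := G.starProjection_apply_mem v
    have hqG : v - p ∈ Gᗮ := G.sub_starProjection_mem_orthogonal v
    have hBv : B v = s • p + (s / 2) • (v - p) := by
      simp only [B, add_apply, smul_apply,
        ContinuousLinearMap.id_apply, ← hp]
      module
    have hpyth : ‖v‖ * ‖v‖ = ‖p‖ * ‖p‖ + ‖v - p‖ * ‖v - p‖ := by
      have h := norm_add_sq_eq_norm_sq_add_norm_sq_of_inner_eq_zero p (v - p)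
        (hqG p hpG)
      simpa only [add_sub_cancel] using h
    have h1 : ‖e (A (B v))‖ ≤ s / 2 * (‖p‖ + ‖v - p‖) := by
      rw [hBv, map_add, map_add, map_smul, map_smul, map_smul, map_smul]
      calc ‖s • e (A p) + (s / 2) • e (A (v - p))‖
          ≤ ‖s • e (A p)‖ + ‖(s / 2) • e (A (v - p))‖ := norm_add_le _ _
        _ = s * ‖e (A p)‖ + s / 2 * ‖e (A (v - p))‖ := by
            rw [norm_smul, norm_smul, Real.norm_of_nonneg hs0.le,
              Real.norm_of_nonneg (by positivity)]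
        _ ≤ s * (1 / 2 * ‖p‖) + s / 2 * ‖v - p‖ := by
            gcongr
            · exact hTG p hpG
            · exact hAS (v - p)
        _ = s / 2 * (‖p‖ + ‖v - p‖) := by ring
    change ‖e (A (B v))‖ ≤ ‖v‖
    refine h1.trans ?_
    refine abs_le_of_sq_le_sq' ?_ (norm_nonneg v) |>.2
    nlinarith only [hs2, hpyth, sq_nonneg (‖p‖ - ‖v - p‖)]
  have hmax := hAmax hBS
  replace hmax : |LinearMap.det (A ∘L B).toLinearMap| ≤ |LinearMap.det A.toLinearMap| := hmax
  have hcomp : LinearMap.det (A ∘L B).toLinearMap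
      = LinearMap.det A.toLinearMap * LinearMap.det B.toLinearMap := by
    rw [← LinearMap.det_comp]
    rfl
  rw [hcomp, abs_mul, hBdet] at hmax
  have hk : finrank ℝ G ≤ n := by
    simpa only [finrank_euclideanSpace, Fintype.card_fin] using Submodule.finrank_le G
  set k := finrank ℝ G with hkdef
  have hbig : (1 : ℝ) < s ^ k * (s / 2) ^ (n - k) := by
    have hs1 : 1 < s := by
      by_contra h
      push Not at h
      nlinarith only [hs2, h, hs0]
    have hinv : s / 2 = s⁻¹ := by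
      refine eq_inv_of_mul_eq_one_left ?_
      linarith only [hs2]
    have hlt : n - k < k := by omega
    rw [hinv, inv_pow, ← div_eq_mul_inv, one_lt_div (by positivity)]
    exact pow_lt_pow_right₀ hs1 hlt
  rw [abs_of_pos (by positivity : 0 < s ^ k * (s / 2) ^ (n - k))] at hmax
  nlinarith only [hmax, hApos, hbig]

end Vale.Agent.P129
end
end

section

section

/-!
# Slalom evasion below the uniformity number of the meagre ideal

If every map from an infinite index type `ι` to the real line has meagre range, then any family of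
`ι` many slaloms of bounded widths `h` is evaded by a single function `e : ℕ → ℕ`.
-/

namespace Vale.Agent.P129

open Filter Set

/-! ### Blocks of a strictly increasing sequence -/

/-- Index of the block `[i n, i (n+1))` containing `m`. -/
noncomputable def blockIdx (i : ℕ → ℕ) (m : ℕ) : ℕ := Nat.findGreatest (fun n => i n ≤ m) m

lemma blockIdx_eq {i : ℕ → ℕ} (hi : StrictMono i) {n m : ℕ} (h1 : i n ≤ m)
    (h2 : m < i (n + 1)) : blockIdx i m = n := by
  have hnm : n ≤ m := le_trans (hi.le_apply) h1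
  have hP : i (blockIdx i m) ≤ m :=
    Nat.findGreatest_spec (P := fun n => i n ≤ m) hnm h1
  have hge : n ≤ blockIdx i m := Nat.le_findGreatest hnm h1
  by_contra hne
  have hlt : n + 1 ≤ blockIdx i m := lt_of_le_of_ne hge (Ne.symm hne)
  have := hi.monotone hlt
  omega

lemma exists_block {i : ℕ → ℕ} (hi : StrictMono i) (h0 : i 0 = 0) (m : ℕ) :
    ∃ n, i n ≤ m ∧ m < i (n + 1) := by
  refine ⟨Nat.findGreatest (fun n => i n ≤ m) m, ?_, ?_⟩
  · exact Nat.findGreatest_spec (P := fun n => i n ≤ m) (Nat.zero_le m) (by simp [h0])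
  · by_contra hcon
    push Not at hcon
    have hle : Nat.findGreatest (fun n => i n ≤ m) m + 1 ≤ m :=
      le_trans (hi.le_apply) hcon
    have := Nat.le_findGreatest (P := fun n => i n ≤ m) hle hcon
    omega

/-! ### Dense open sets of the line pulled back to sequences of binary digits -/

lemma exists_ofDigits_mem {E : Set ℝ} (hE : Dense E) (x : ℕ → Fin 2) (n : ℕ) :
    ∃ y ∈ PiNat.cylinder x n, Real.ofDigits y ∈ E := by
  set a : ℝ := ∑ i ∈ Finset.range n, Real.ofDigitsTerm x i with ha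
  have hpos : (0 : ℝ) < ((2 : ℝ) ^ n)⁻¹ := by positivity
  obtain ⟨t, htE, ht⟩ := hE.exists_mem_open (isOpen_Ioo (a := a) (b := a + ((2 : ℝ) ^ n)⁻¹))
    ⟨a + ((2 : ℝ) ^ n)⁻¹ / 2, by constructor <;> linarith only [hpos]⟩
  have hu : (t - a) * 2 ^ n ∈ Icc (0 : ℝ) 1 := by
    constructor
    · have : 0 ≤ t - a := by linarith only [ht.1]
      (clear * - this; positivity)
    · have h2 : t - a ≤ ((2 : ℝ) ^ n)⁻¹ := by linarith only [ht.2]
      calc (t - a) * 2 ^ n ≤ ((2 : ℝ) ^ n)⁻¹ * 2 ^ n := by gcongr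
        _ = 1 := by field_simp
  obtain ⟨z, -, hz⟩ := Real.ofDigits_SurjOn (b := 2) (by norm_num) hu
  refine ⟨fun i => if i < n then x i else z (i - n), ?_, ?_⟩
  · rw [PiNat.mem_cylinder_iff]
    intro i hi
    simp [hi]
  · rw [Real.ofDigits_eq_sum_add_ofDigits _ n]
    have h1 : ∑ i ∈ Finset.range n,
        Real.ofDigitsTerm (fun i => if i < n then x i else z (i - n)) i = a := by
      rw [ha]
      refine Finset.sum_congr rfl fun i hi => ?_
      simp only [Real.ofDigitsTerm, Finset.mem_range.mp hi, ↓reduceIte, Nat.cast_ofNat]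
    have h2 : (fun i => (fun i => if i < n then x i else z (i - n)) (i + n)) = z := by
      funext i
      simp only [add_lt_iff_neg_right, not_lt_zero, ↓reduceIte, add_tsub_cancel_right]
    rw [h1, h2, hz]
    have : a + (((2 : ℕ) : ℝ) ^ n)⁻¹ * ((t - a) * 2 ^ n) = t := by
      push_cast
      field_simp
      ring
    rw [this]
    exact htE

/-- One step of the block construction: all prefixes of length `n₀` are handled at once. -/
lemma exists_block_forcing {E : Set (ℕ → Fin 2)} (hEo : IsOpen E)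
    (hEd : ∀ (x : ℕ → Fin 2) (n : ℕ), ∃ y ∈ PiNat.cylinder x n, y ∈ E) (n₀ : ℕ) :
    ∃ n₁, n₀ < n₁ ∧ ∃ w : ℕ → Fin 2,
      ∀ y : ℕ → Fin 2, (∀ m, n₀ ≤ m → m < n₁ → y m = w m) → y ∈ E := by
  have key : ∀ T : Finset (Fin n₀ → Fin 2), ∃ n₁, n₀ < n₁ ∧ ∃ w : ℕ → Fin 2,
      ∀ y : ℕ → Fin 2, (fun i : Fin n₀ => y i) ∈ T →
        (∀ m, n₀ ≤ m → m < n₁ → y m = w m) → y ∈ E := by
    intro T
    induction T using Finset.induction_on with
    | empty => exact ⟨n₀ + 1, by omega, fun _ => 0, by simp only [Finset.notMem_empty, Order.lt_add_one_iff, Fin.isValue, IsEmpty.forall_iff, implies_true]⟩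
    | insert t T _ ih =>
      obtain ⟨n₁, hn₁, w, hw⟩ := ih
      obtain ⟨y', hy', hyE⟩ := hEd (fun m => if h : m < n₀ then t ⟨m, h⟩ else w m) n₁
      rw [PiNat.mem_cylinder_iff] at hy'
      obtain ⟨s, ⟨x, k, rfl⟩, hxs, hsE⟩ :=
        (PiNat.isTopologicalBasis_cylinders (fun _ : ℕ => Fin 2)).exists_subset_of_mem_open
          hyE hEo
      have hs : PiNat.cylinder y' k ⊆ E := by
        rw [PiNat.mem_cylinder_iff_eq] at hxs
        rw [hxs]
        exact hsE
      refine ⟨max n₁ k, lt_of_lt_of_le hn₁ (le_max_left _ _), y', ?_⟩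
      intro y hyT hy
      rw [Finset.mem_insert] at hyT
      rcases hyT with hyT | hyT
      · apply hs
        rw [PiNat.mem_cylinder_iff]
        intro i hi
        by_cases hin : i < n₀
        · have h1 := hy' i (by omega)
          rw [h1]
          have h2 := congrFun hyT ⟨i, hin⟩
          simp only at h2
          simp [hin, h2]
        · exact hy i (by omega) (lt_of_lt_of_le hi (le_max_right _ _))
      · apply hw y hyT
        intro m hm1 hm2
        rw [hy m hm1 (lt_of_lt_of_le hm2 (le_max_left _ _)), hy' m hm2]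
        simp [not_lt.mpr hm1]
  obtain ⟨n₁, h1, w, hw⟩ := key Finset.univ
  exact ⟨n₁, h1, w, fun y hy => hw y (Finset.mem_univ _) hy⟩

lemma exists_blocks (E : ℕ → Set (ℕ → Fin 2)) (hEo : ∀ n, IsOpen (E n))
    (hEd : ∀ (k : ℕ) (x : ℕ → Fin 2) (n : ℕ), ∃ y ∈ PiNat.cylinder x n, y ∈ E k) :
    ∃ (i : ℕ → ℕ) (z : ℕ → Fin 2), StrictMono i ∧
      ∀ n, ∀ y : ℕ → Fin 2, (∀ m, i n ≤ m → m < i (n + 1) → y m = z m) → y ∈ E n := by
  choose N hN W hW using fun k n₀ => exists_block_forcing (hEo k) (hEd k) n₀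
  let i : ℕ → ℕ := fun n => Nat.rec 0 (fun k r => N k r) n
  have hi : StrictMono i := strictMono_nat_of_lt_succ fun n => hN n (i n)
  refine ⟨i, fun m => W (blockIdx i m) (i (blockIdx i m)) m, hi, ?_⟩
  intro n y hy
  apply hW n (i n)
  intro m h1 h2
  rw [hy m h1 h2]
  show W (blockIdx i m) (i (blockIdx i m)) m = W n (i n) m
  rw [blockIdx_eq hi h1 h2]

/-- A meagre subset of the line is matched by a real and a partition. -/
lemma exists_match_of_isMeagre {M : Set ℝ} (hM : IsMeagre M) :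
    ∃ (i : ℕ → ℕ) (z : ℕ → Fin 2), StrictMono i ∧
      ∀ y : ℕ → Fin 2, (∃ᶠ n in atTop, ∀ m, i n ≤ m → m < i (n + 1) → y m = z m) →
        Real.ofDigits y ∉ M := by
  have hM' : Mᶜ ∈ residual ℝ := hM
  rw [mem_residual_iff] at hM'
  obtain ⟨S, hSo, hSd, hSc, hSM⟩ := hM'
  obtain ⟨f, hf⟩ := (hSc.insert univ).exists_eq_range (insert_nonempty _ _)
  have hfo : ∀ n, IsOpen (f n) := by
    intro n
    have : f n ∈ insert univ S := by rw [hf]; exact mem_range_self n
    rcases this with h | h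
    · rw [h]; exact isOpen_univ
    · exact hSo _ h
  have hfd : ∀ n, Dense (f n) := by
    intro n
    have : f n ∈ insert univ S := by rw [hf]; exact mem_range_self n
    rcases this with h | h
    · rw [h]; exact dense_univ
    · exact hSd _ h
  let E : ℕ → Set ℝ := fun n => Nat.rec (f 0) (fun k r => r ∩ f (k + 1)) n
  have hE : ∀ n, IsOpen (E n) ∧ Dense (E n) := by
    intro n
    induction n with
    | zero => exact ⟨hfo 0, hfd 0⟩
    | succ n ih => exact ⟨ih.1.inter (hfo _), ih.2.inter_of_isOpen_left (hfd _) ih.1⟩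
  have hEf : ∀ n k, k ≤ n → E n ⊆ f k := by
    intro n
    induction n with
    | zero =>
      intro k hk
      obtain rfl : k = 0 := by omega
      exact subset_rfl
    | succ n ih =>
      intro k hk
      rcases Nat.lt_or_ge k (n + 1) with h | h
      · exact inter_subset_left.trans (ih k (by omega))
      · obtain rfl : k = n + 1 := by omega
        exact inter_subset_right
  obtain ⟨i, z, hi, hz⟩ := exists_blocks (fun n => Real.ofDigits ⁻¹' (E n))
    (fun n => (hE n).1.preimage Real.continuous_ofDigits)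
    (fun k x n => exists_ofDigits_mem (hE k).2 x n)
  refine ⟨i, z, hi, fun y hy hyM => ?_⟩
  have hmem : Real.ofDigits y ∈ ⋂₀ S := by
    rw [mem_sInter]
    intro t ht
    have : t ∈ range f := by rw [← hf]; exact mem_insert_of_mem _ ht
    obtain ⟨k, rfl⟩ := this
    obtain ⟨n, hn, hn'⟩ := (frequently_atTop.mp hy) k
    exact hEf n k hn (hz n y hn')
  exact hSM hmem hyM

/-! ### Guessing on infinite sets -/

/-- The keys used before stage `n` when scanning the lists `c 0, c 1, …`. -/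
def usedKeys (c : ℕ → List (ℕ × ℕ)) : ℕ → Finset ℕ
  | 0 => ∅
  | n + 1 => match (c n).find? (fun p => p.1 ∉ usedKeys c n) with
    | none => usedKeys c n
    | some p => insert p.1 (usedKeys c n)

/-- The pair picked at stage `n`. -/
def pick (c : ℕ → List (ℕ × ℕ)) (n : ℕ) : Option (ℕ × ℕ) :=
  (c n).find? (fun p => p.1 ∉ usedKeys c n)

lemma usedKeys_succ (c : ℕ → List (ℕ × ℕ)) (n : ℕ) :
    usedKeys c (n + 1) = match pick c n with
    | none => usedKeys c n
    | some p => insert p.1 (usedKeys c n) := rfl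

lemma usedKeys_card (c : ℕ → List (ℕ × ℕ)) (n : ℕ) : (usedKeys c n).card ≤ n := by
  induction n with
  | zero => simp only [usedKeys, Finset.card_empty, Std.le_refl]
  | succ n ih =>
    rw [usedKeys_succ]
    cases pick c n with
    | none => exact ih.trans (Nat.le_succ n)
    | some p => exact (Finset.card_insert_le _ _).trans (Nat.succ_le_succ ih)

lemma usedKeys_mono (c : ℕ → List (ℕ × ℕ)) : Monotone (usedKeys c) := by
  refine monotone_nat_of_le_succ fun n => ?_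
  rw [usedKeys_succ]
  cases pick c n with
  | none => exact le_rfl
  | some p => exact Finset.subset_insert _ _

lemma pick_notMem {c : ℕ → List (ℕ × ℕ)} {n : ℕ} {p : ℕ × ℕ} (h : pick c n = some p) :
    p.1 ∉ usedKeys c n := by
  have := List.find?_some h
  simpa using this

lemma pick_mem_succ {c : ℕ → List (ℕ × ℕ)} {n : ℕ} {p : ℕ × ℕ} (h : pick c n = some p) :
    p.1 ∈ usedKeys c (n + 1) := by
  rw [usedKeys_succ, h]
  exact Finset.mem_insert_self _ _

lemma pick_inj {c : ℕ → List (ℕ × ℕ)} {n n' : ℕ} {p p' : ℕ × ℕ} (h : pick c n = some p)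
    (h' : pick c n' = some p') (hpp : p.1 = p'.1) : n = n' := by
  by_contra hne
  rcases lt_or_gt_of_ne hne with hlt | hlt
  · exact pick_notMem h' (usedKeys_mono c (Nat.succ_le_of_lt hlt) (hpp ▸ pick_mem_succ h))
  · exact pick_notMem h (usedKeys_mono c (Nat.succ_le_of_lt hlt) (hpp ▸ pick_mem_succ h'))

open Classical in
/-- The function on keys coded by the lists `c`. -/
noncomputable def keyVal (c : ℕ → List (ℕ × ℕ)) (a : ℕ) : ℕ :=
  if h : ∃ s, ∃ n, pick c n = some (a, s) then h.choose else 0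

lemma keyVal_eq {c : ℕ → List (ℕ × ℕ)} {n : ℕ} {p : ℕ × ℕ} (h : pick c n = some p) :
    keyVal c p.1 = p.2 := by
  have hex : ∃ s, ∃ n, pick c n = some (p.1, s) := ⟨p.2, n, h⟩
  rw [keyVal, dif_pos hex]
  obtain ⟨n', hn'⟩ := hex.choose_spec
  have hnn : n = n' := pick_inj h hn' rfl
  subst hnn
  rw [h] at hn'
  have := congrArg Prod.snd (Option.some.inj hn')
  exact this.symm

/-- From infinitely often equal reals to guessing on infinite sets. -/
lemma exists_guess_on {ι : Type*} (F : ι → ℕ → ℕ)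
    (hF : ∀ g : ℕ → ℕ, ∃ i, ∃ᶠ n in atTop, F i n = g n) :
    ∃ F' : ι → ℕ → ℕ, ∀ (A : Set ℕ), A.Infinite → ∀ g : ℕ → ℕ,
      ∃ i, {a | a ∈ A ∧ F' i a = g a}.Infinite := by
  classical
  let dec : ℕ → List (ℕ × ℕ) := fun n => (Encodable.decode n : Option (List (ℕ × ℕ))).getD []
  refine ⟨fun i => keyVal (fun n => dec (F i n)), fun A hA g => ?_⟩
  let a : ℕ → ℕ := Nat.nth (· ∈ A)
  have haA : ∀ n, a n ∈ A := fun n => Nat.nth_mem_of_infinite hA n
  have hainj : Function.Injective a := Nat.nth_injective hA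
  let G : ℕ → List (ℕ × ℕ) := fun n => (List.range (n + 1)).map (fun l => (a l, g (a l)))
  obtain ⟨i, hi⟩ := hF (fun n => Encodable.encode (G n))
  refine ⟨i, ?_⟩
  set c : ℕ → List (ℕ × ℕ) := fun n => dec (F i n) with hc
  have hst : ∀ n, F i n = Encodable.encode (G n) →
      ∃ p : ℕ × ℕ, pick c n = some p ∧ p.1 ∈ A ∧ p.2 = g p.1 := by
    intro n hn
    have hcn : c n = G n := by simp [hc, dec, hn]
    have hex : ∃ p, pick c n = some p := by
      rw [← Option.isSome_iff_exists]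
      unfold pick
      rw [List.find?_isSome, hcn]
      have hcard : ∃ l ∈ Finset.range (n + 1), a l ∉ usedKeys c n := by
        by_contra hcon
        push Not at hcon
        have h1 : (Finset.range (n + 1)).image a ⊆ usedKeys c n := by
          intro x hx
          obtain ⟨l, hl, rfl⟩ := Finset.mem_image.mp hx
          exact hcon l hl
        have h2 := Finset.card_le_card h1
        rw [Finset.card_image_of_injective _ hainj, Finset.card_range] at h2
        have := usedKeys_card c n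
        omega
      obtain ⟨l, hl, hal⟩ := hcard
      exact ⟨(a l, g (a l)), List.mem_map.mpr ⟨l, List.mem_range.mpr (Finset.mem_range.mp hl), rfl⟩,
        by simpa using hal⟩
    obtain ⟨p, hp⟩ := hex
    refine ⟨p, hp, ?_⟩
    have hpm : p ∈ G n := by
      rw [← hcn]
      exact List.mem_of_find?_eq_some hp
    obtain ⟨l, -, rfl⟩ := List.mem_map.mp hpm
    exact ⟨haA l, rfl⟩
  have hT : {n | F i n = Encodable.encode (G n)}.Infinite := Nat.frequently_atTop_iff_infinite.mp hi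
  choose! q hq using hst
  refine Set.infinite_of_injOn_mapsTo (f := fun n => (q n).1) ?_ ?_ hT
  · intro n hn n' hn' hnn
    exact pick_inj (hq n hn).1 (hq n' hn').1 hnn
  · intro n hn
    refine ⟨(hq n hn).2.1, ?_⟩
    show keyVal c (q n).1 = g (q n).1
    rw [keyVal_eq (hq n hn).1, (hq n hn).2.2]

/-! ### Eventually different functions -/

theorem exists_eventually_ne {ι : Type*} [Infinite ι]
    (hι : ∀ F : ι → ℝ, IsMeagre (Set.range F)) (F : ι → ℕ → ℕ) :
    ∃ g : ℕ → ℕ, ∀ i, ∀ᶠ n in atTop, F i n ≠ g n := by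
  classical
  by_contra hcon
  have hF : ∀ g : ℕ → ℕ, ∃ i, ∃ᶠ n in atTop, F i n = g n := by
    intro g
    by_contra h
    apply hcon
    refine ⟨g, fun i => ?_⟩
    by_contra h'
    exact h ⟨i, by simpa only [Filter.Frequently, eventually_atTop, not_exists, not_forall, Classical.not_imp, Decidable.not_not,     ne_eq] using h'⟩
  obtain ⟨F', hF'⟩ := exists_guess_on F hF
  -- partitions
  let p : (ℕ → ℕ) → ℕ → ℕ := fun f n => (Finset.range (n + 1)).sup f + n + 1
  let j : (ℕ → ℕ) → ℕ → ℕ := fun f n => Nat.rec 0 (fun _ r => p f r) n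
  have hj : ∀ f, StrictMono (j f) := fun f => strictMono_nat_of_lt_succ fun n => by
    show j f n < p f (j f n)
    simp only [p]
    omega
  let dec : ℕ → List (Fin 2) := fun n => (Encodable.decode n : Option (List (Fin 2))).getD []
  let Y : (ℕ → ℕ) → (ℕ → ℕ) → ℕ → Fin 2 := fun f c m => (dec (c (blockIdx (j f) m))).getD m 0
  obtain ⟨e⟩ : Nonempty (ι ≃ ι × ι) := by
    rw [← Cardinal.eq, Cardinal.mk_prod, Cardinal.lift_id]
    exact (Cardinal.mul_eq_self (Cardinal.aleph0_le_mk ι)).symm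
  obtain ⟨i, z, hi, hz⟩ := exists_match_of_isMeagre
    (hι (fun x => Real.ofDigits (Y (F (e x).1) (F' (e x).2))))
  have hi_le : ∀ n, n ≤ i n := fun n => hi.le_apply
  obtain ⟨a, ha⟩ := hF (fun n => i (i (n + 1) + 1))
  set f := F a with hf
  set J := j f with hJ
  have hJs : StrictMono J := hj f
  have hJ_le : ∀ n, n ≤ J n := fun n => hJs.le_apply
  let A : Set ℕ := {l | ∃ m, J l ≤ i m ∧ i (m + 1) ≤ J (l + 1)}
  have hA : A.Infinite := by
    rw [← Nat.frequently_atTop_iff_infinite, frequently_atTop]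
    intro L
    obtain ⟨n, hn, hfn⟩ := (frequently_atTop.mp ha) (J L)
    obtain ⟨k, hk1, hk2⟩ := exists_block hJs rfl n
    have hLk : L ≤ k := by
      by_contra h
      push Not at h
      have : J (k + 1) ≤ J L := hJs.monotone h
      omega
    have hstep : i (i (n + 1) + 1) < J (k + 2) := by
      have h1 : J (k + 2) = p f (J (k + 1)) := rfl
      rw [h1, ← hfn]
      have h2 : f n ≤ (Finset.range (J (k + 1) + 1)).sup f :=
        Finset.le_sup (f := f) (Finset.mem_range.mpr (by omega))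
      simp only [p]
      omega
    rcases Nat.lt_or_ge (J (k + 1)) (i (n + 1)) with h | h
    · refine ⟨k + 1, by omega, i (n + 1), ?_, hstep.le⟩
      exact h.le.trans (hi_le _)
    · exact ⟨k, hLk, n, hk1.trans (hi_le n), h⟩
  obtain ⟨b, hb⟩ := hF' A hA
    (fun l => Encodable.encode ((List.range (J (l + 1))).map z))
  have hyM : Real.ofDigits (Y (F a) (F' b)) ∉
      Set.range (fun x => Real.ofDigits (Y (F (e x).1) (F' (e x).2))) := by
    apply hz
    rw [frequently_atTop]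
    intro B
    obtain ⟨l, ⟨⟨m', hm1, hm2⟩, hl⟩, hBl⟩ := hb.exists_gt (i B)
    refine ⟨m', ?_, ?_⟩
    · have h1 : i B ≤ i m' := by
        have := hJ_le l
        omega
      exact hi.le_iff_le.mp h1
    · intro m h1 h2
      have hbl : blockIdx J m = l := blockIdx_eq hJs (hm1.trans h1) (lt_of_lt_of_le h2 hm2)
      show (dec (F' b (blockIdx J m))).getD m 0 = z m
      rw [hbl, hl]
      have hmJ : m < J (l + 1) := lt_of_lt_of_le h2 hm2
      simp [dec, List.getD_eq_getElem?_getD, hmJ]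
  exact hyM ⟨e.symm (a, b), by simp⟩

/-! ### Slaloms -/

theorem exists_evading {ι : Type*} [Infinite ι]
    (hι : ∀ F : ι → ℝ, IsMeagre (Set.range F))
    (h : ℕ → ℕ) (S : ι → ℕ → Finset ℕ) (hS : ∀ i k, (S i k).card ≤ h k) :
    ∃ e : ℕ → ℕ, ∀ i, ∀ᶠ k in Filter.atTop, e k ∉ S i k := by
  classical
  let dec : ℕ → List ℕ := fun n => (Encodable.decode n : Option (List ℕ)).getD []
  obtain ⟨g, hg⟩ := exists_eventually_ne hι
    (fun i n => (dec ((S i n.unpair.1).toList.getD n.unpair.2 0)).getD n.unpair.2 0)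
  refine ⟨fun k => Encodable.encode ((List.range (h k)).map fun t => g (Nat.pair k t)),
    fun i => ?_⟩
  obtain ⟨N, hN⟩ := eventually_atTop.mp (hg i)
  refine eventually_atTop.mpr ⟨N, fun k hk hmem => ?_⟩
  rw [← Finset.mem_toList, List.mem_iff_getElem] at hmem
  obtain ⟨t, ht, hte⟩ := hmem
  have hth : t < h k := by
    rw [Finset.length_toList] at ht
    exact lt_of_lt_of_le ht (hS i k)
  refine hN (Nat.pair k t) (hk.trans (Nat.left_le_pair k t)) ?_
  simp only [Nat.unpair_pair]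
  rw [List.getD_eq_getElem _ _ ht, hte]
  simp [dec, List.getD_eq_getElem?_getD, hth]

end Vale.Agent.P129
end
end

section

section

open Filter Topology

namespace Vale.Agent.P129

/-- The dual of an infinite-dimensional normed space is infinite-dimensional. -/
lemma not_finiteDimensional_dual {X : Type*} [NormedAddCommGroup X] [NormedSpace ℝ X]
    (h : ¬ FiniteDimensional ℝ X) : ¬ FiniteDimensional ℝ (X →L[ℝ] ℝ) := by
  intro hfin
  apply h
  let J : X →ₗ[ℝ] ((X →L[ℝ] ℝ) →ₗ[ℝ] ℝ) :=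
    { toFun := fun x => (ContinuousLinearMap.apply ℝ ℝ x : (X →L[ℝ] ℝ) →L[ℝ] ℝ).toLinearMap
      map_add' := fun x y => by ext f; simp
      map_smul' := fun c x => by ext f; simp }
  have hJ : Function.Injective J := by
    rw [← LinearMap.ker_eq_bot, LinearMap.ker_eq_bot']
    intro x hx
    by_contra hx0
    obtain ⟨f, -, hf⟩ := exists_dual_vector ℝ x (norm_ne_zero_iff.2 hx0)
    have : f x = 0 := by
      have := congrArg (fun L => L f) hx
      simpa [J] using this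
    rw [hf] at this
    simp at this
    exact hx0 this
  exact Module.Finite.of_injective J hJ

end Vale.Agent.P129
end
end

section

section

open Filter Topology Set

namespace Vale.Agent.P129

/-- A weakly compact set on which countably many functionals separate points is norm separable:
it is contained in the closed span of a countable set. -/
theorem exists_countable_of_weaklyCompact {𝕜 : Type*} [RCLike 𝕜] {Z : Type*}
    [NormedAddCommGroup Z] [NormedSpace 𝕜 Z] (K : Set Z)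
    (hK : IsCompact (toWeakSpace 𝕜 Z '' K)) (h : ℕ → StrongDual 𝕜 Z)
    (hsep : ∀ z, (∀ n, h n z = 0) → z = 0) :
    ∃ C : Set Z, C.Countable ∧ K ⊆ closure (Submodule.span 𝕜 C : Set Z) := by
  let _ : NormedSpace ℝ Z := NormedSpace.restrictScalars ℝ 𝕜 Z
  have _ : IsScalarTower ℝ 𝕜 Z := RestrictScalars.isScalarTower ℝ 𝕜 Z
  let K' : Set (WeakSpace 𝕜 Z) := toWeakSpace 𝕜 Z '' K
  have hcK : CompactSpace K' := isCompact_iff_compactSpace.1 hK
  let π : WeakSpace 𝕜 Z → (ℕ → 𝕜) := fun z n => h n ((toWeakSpace 𝕜 Z).symm z)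
  have hπ : Continuous π := by
    refine continuous_pi fun n => ?_
    exact WeakBilin.eval_continuous (topDualPairing 𝕜 Z).flip (h n)
  have hinj : Function.Injective π := by
    intro a b hab
    have h1 : (toWeakSpace 𝕜 Z).symm a - (toWeakSpace 𝕜 Z).symm b = 0 := by
      apply hsep
      intro n
      rw [map_sub, sub_eq_zero]
      exact congrFun hab n
    have h2 := sub_eq_zero.1 h1
    exact (toWeakSpace 𝕜 Z).symm.injective h2
  have hemb : Topology.IsClosedEmbedding (fun z : K' => π z) :=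
    (hπ.comp continuous_subtype_val).isClosedEmbedding
      (hinj.comp Subtype.val_injective)
  have hsc : SecondCountableTopology K' := hemb.isEmbedding.secondCountableTopology
  obtain ⟨s, hsc, hsd⟩ := TopologicalSpace.exists_countable_dense K'
  refine ⟨(fun z : K' => (toWeakSpace 𝕜 Z).symm z) '' s, hsc.image _, ?_⟩
  intro z hz
  set C : Set Z := (fun z : K' => (toWeakSpace 𝕜 Z).symm z) '' s with hC
  have hconv : Convex ℝ (Submodule.span 𝕜 C : Set Z) :=
    ((Submodule.span 𝕜 C).restrictScalars ℝ).convex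
  have h1 : toWeakSpace 𝕜 Z z ∈ closure (toWeakSpace 𝕜 Z '' (Submodule.span 𝕜 C : Set Z)) := by
    have h2 : (⟨toWeakSpace 𝕜 Z z, z, hz, rfl⟩ : K') ∈ closure s := hsd _
    have h3 := (closure_subtype (s := s)).1 h2
    refine closure_mono ?_ h3
    rintro _ ⟨y, hy, rfl⟩
    exact ⟨(toWeakSpace 𝕜 Z).symm y, Submodule.subset_span ⟨y, hy, rfl⟩, by simp⟩
  rw [← hconv.toWeakSpace_closure 𝕜] at h1
  obtain ⟨y, hy, hyz⟩ := h1
  rwa [(toWeakSpace 𝕜 Z).injective hyz] at hy

end Vale.Agent.P129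
end
end

section

section

open Filter Topology Set

namespace Vale.Agent.P129

/-- The conclusion of the separable quotient problem. -/
def HasSepQuot (𝕜 : Type*) [RCLike 𝕜] (X : Type*) [NormedAddCommGroup X] [NormedSpace 𝕜 X] :
    Prop :=
  ∃ M : Submodule 𝕜 X, IsClosed (M : Set X) ∧ TopologicalSpace.SeparableSpace (X ⧸ M) ∧
      ¬ FiniteDimensional 𝕜 (X ⧸ M)

/-- A separable infinite-dimensional quotient of a quotient is one of the space. -/
theorem HasSepQuot.of_quotient {𝕜 : Type*} [RCLike 𝕜] {X : Type*} [NormedAddCommGroup X]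
    [NormedSpace 𝕜 X] (N : Submodule 𝕜 X) [hN : IsClosed (N : Set X)]
    (h : HasSepQuot 𝕜 (X ⧸ N)) : HasSepQuot 𝕜 X := by
  obtain ⟨M', hM', hsep, hfin⟩ := h
  let M : Submodule 𝕜 X := M'.comap N.mkQ
  have hNM : N ≤ M := by
    intro x hx
    have : N.mkQ x = 0 := (Submodule.Quotient.mk_eq_zero N).2 hx
    simp only [M, Submodule.mem_comap, this, Submodule.zero_mem]
  refine ⟨M, hM'.preimage N.continuous_mkQ, ?_, ?_⟩
  · -- a continuous surjection from the double quotient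
    let g : (X ⧸ N) →ₗ[𝕜] (X ⧸ M) := N.liftQ M.mkQ (by rw [Submodule.ker_mkQ]; exact hNM)
    have hgc : Continuous g := by
      have hq : Topology.IsQuotientMap (N.mkQ : X → X ⧸ N) := isQuotientMap_quotient_mk'
      rw [hq.continuous_iff]
      have : (g ∘ N.mkQ : X → X ⧸ M) = M.mkQ := by
        ext x; simp [g]
      rw [this]
      exact M.continuous_mkQ
    have hker : M' ≤ LinearMap.ker g := by
      intro z hz
      obtain ⟨x, rfl⟩ := N.mkQ_surjective z
      simp only [LinearMap.mem_ker, g, Submodule.mkQ_apply, Submodule.liftQ_apply]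
      exact (Submodule.Quotient.mk_eq_zero M).2 hz
    let g' : ((X ⧸ N) ⧸ M') →ₗ[𝕜] (X ⧸ M) := M'.liftQ g hker
    have hg'c : Continuous g' := by
      have hq : Topology.IsQuotientMap (M'.mkQ : (X ⧸ N) → (X ⧸ N) ⧸ M') :=
        isQuotientMap_quotient_mk'
      rw [hq.continuous_iff]
      have : (g' ∘ M'.mkQ : (X ⧸ N) → X ⧸ M) = g := by
        ext x; simp [g']
      rw [this]
      exact hgc
    have hsurj : Function.Surjective g' := by
      intro y
      obtain ⟨x, rfl⟩ := M.mkQ_surjective y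
      exact ⟨M'.mkQ (N.mkQ x), by simp [g', g]⟩
    exact hsurj.denseRange.separableSpace hg'c
  · intro hf
    apply hfin
    let f : (X ⧸ M) →ₗ[𝕜] ((X ⧸ N) ⧸ M') := M.liftQ (M'.mkQ ∘ₗ N.mkQ) (by
      intro x hx
      simp only [LinearMap.mem_ker, LinearMap.comp_apply]
      exact (Submodule.Quotient.mk_eq_zero M').2 hx)
    have hfs : Function.Surjective f := by
      intro z
      obtain ⟨y, rfl⟩ := M'.mkQ_surjective z
      obtain ⟨x, rfl⟩ := N.mkQ_surjective y
      exact ⟨M.mkQ x, by simp [f]⟩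
    exact Module.Finite.of_surjective f hfs

/-- An infinite-dimensional normed space has an infinite sequence of linearly independent
functionals. -/
theorem exists_linearIndependent_functionals {𝕜 : Type*} [RCLike 𝕜] {X : Type*}
    [NormedAddCommGroup X] [NormedSpace 𝕜 X] (hinf : ¬ FiniteDimensional 𝕜 X) :
    ∃ h : ℕ → StrongDual 𝕜 X, LinearIndependent 𝕜 h := by
  have hd : ¬ FiniteDimensional 𝕜 (StrongDual 𝕜 X) := by
    intro hfin
    apply hinf
    let J : X →ₗ[𝕜] (StrongDual 𝕜 X →ₗ[𝕜] 𝕜) :=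
      { toFun := fun x => (ContinuousLinearMap.apply 𝕜 𝕜 x : StrongDual 𝕜 X →L[𝕜] 𝕜).toLinearMap
        map_add' := fun x y => by ext f; simp
        map_smul' := fun c x => by ext f; simp }
    have hJ : Function.Injective J := by
      rw [← LinearMap.ker_eq_bot, LinearMap.ker_eq_bot']
      intro x hx
      by_contra hx0
      obtain ⟨f, -, hf⟩ := exists_dual_vector 𝕜 x (norm_ne_zero_iff.2 hx0)
      have h1 : f x = 0 := by
        have := congrArg (fun L => L f) hx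
        simpa [J] using this
      rw [hf] at h1
      have h2 : ‖x‖ = 0 := by exact_mod_cast h1
      exact hx0 (norm_eq_zero.1 h2)
    exact Module.Finite.of_injective J hJ
  let b := Module.Basis.ofVectorSpace 𝕜 (StrongDual 𝕜 X)
  have hinf' : Infinite (Module.Basis.ofVectorSpaceIndex 𝕜 (StrongDual 𝕜 X)) := by
    by_contra hfin
    rw [not_infinite_iff_finite] at hfin
    exact hd (Module.Finite.of_basis b)
  obtain ⟨e⟩ : Nonempty (ℕ ↪ Module.Basis.ofVectorSpaceIndex 𝕜 (StrongDual 𝕜 X)) :=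
    ⟨Infinite.natEmbedding _⟩
  exact ⟨fun n => b (e n), b.linearIndependent.comp e e.injective⟩

/-- Version of `exists_separable_quotient_of_dense` for total sets. -/
theorem hasSepQuot_of_total {𝕜 : Type*} [RCLike 𝕜] {X : Type*}
    [NormedAddCommGroup X] [NormedSpace 𝕜 X] [CompleteSpace X]
    (hinf : ¬ FiniteDimensional 𝕜 X) {ι : Type*} [Infinite ι]
    (hι : ∀ F : ι → ℝ, IsMeagre (Set.range F)) (d : ι → X)
    (hd : Dense (Submodule.span 𝕜 (Set.range d) : Set X)) :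
    HasSepQuot 𝕜 X := by
  let _ : NormedSpace ℝ X := NormedSpace.restrictScalars ℝ 𝕜 X
  have _ : IsScalarTower ℝ 𝕜 X := RestrictScalars.isScalarTower ℝ 𝕜 X
  have hinf' : ¬ FiniteDimensional ℝ X := by
    intro hf
    exact hinf (Module.Finite.of_restrictScalars_finite ℝ 𝕜 X)
  have hdual := not_finiteDimensional_dual hinf'
  let W : ∀ n, Ell (X →L[ℝ] ℝ) n := fun n =>
    { T := (exists_ellipsoid hdual n).choose
      le := (exists_ellipsoid hdual n).choose_spec.1
      big := (exists_ellipsoid hdual n).choose_spec.2 }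
  have hequiv : Nonempty (ι ≃ (ι ⊕ ι) × (ι ⊕ ι)) := by
    rw [← Cardinal.eq]
    have h0 : Cardinal.aleph0 ≤ Cardinal.mk ι := Cardinal.aleph0_le_mk ι
    simp only [Cardinal.mk_prod, Cardinal.lift_id, Cardinal.mk_sum, Cardinal.add_eq_self h0,
      Cardinal.mul_eq_self h0]
  obtain ⟨ε⟩ := hequiv
  have hι' : ∀ F : (ι ⊕ ι) × (ι ⊕ ι) → ℝ, IsMeagre (Set.range F) := by
    intro F
    have := hι (F ∘ ε)
    rwa [ε.surjective.range_comp] at this
  have hev : ∀ (h : ℕ → ℕ) (S : (ι ⊕ ι) × (ι ⊕ ι) → ℕ → Finset ℕ),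
      (∀ i k, (S i k).card ≤ h k) → ∃ e : ℕ → ℕ, ∀ i, ∀ᶠ k in atTop, e k ∉ S i k :=
    fun h S hS => exists_evading hι' h S hS
  let d' : ι ⊕ ι → X := Sum.elim (fun i => (RCLike.I : 𝕜) • d i) d
  obtain ⟨f, c, hc, hf1, hf2⟩ := exists_fast_null W hev d'
  let g : ℕ → X →L[𝕜] 𝕜 := fun k =>
    (((3 / 2 : ℝ) ^ k : ℝ) : 𝕜) • StrongDual.extendRCLike (𝕜 := 𝕜) (f k)
  have hgn : ∀ k, ‖g k‖ = (3 / 2 : ℝ) ^ k * ‖f k‖ := by
    intro k
    simp only [g, norm_smul, RCLike.norm_ofReal, StrongDual.norm_extendRCLike]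
    rw [abs_of_pos (by positivity)]
  refine exists_separable_quotient_of_unbounded g ?_ ?_
  · intro R
    have h1 : Tendsto (fun k : ℕ => (3 / 2 : ℝ) ^ k * c) atTop atTop :=
      (tendsto_pow_atTop_atTop_of_one_lt (by norm_num)).atTop_mul_const hc
    obtain ⟨k, hk⟩ := (h1.eventually_gt_atTop R).exists
    refine ⟨k, hk.trans_le ?_⟩
    rw [hgn]
    exact mul_le_mul_of_nonneg_left (hf1 k) (by positivity)
  · refine hd.mono (SetLike.coe_subset_coe.2 (Submodule.span_le.2 ?_))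
    rintro _ ⟨i, rfl⟩
    have h1 : ∀ᶠ k in atTop, ‖g k (d i)‖ ≤ 2 := by
      filter_upwards [hf2 (Sum.inl i), hf2 (Sum.inr i)] with k hk1 hk2
      have e1 : ‖StrongDual.extendRCLike (𝕜 := 𝕜) (f k) (d i)‖ ≤ (1 / 2 : ℝ) ^ k + (1 / 2 : ℝ) ^ k := by
        rw [StrongDual.extendRCLike_apply]
        refine (norm_sub_le _ _).trans ?_
        refine add_le_add ?_ ?_
        · rw [RCLike.norm_ofReal]; simpa [d'] using hk2
        · rw [norm_mul, RCLike.norm_ofReal]
          have : |f k ((RCLike.I : 𝕜) • d i)| ≤ (1 / 2 : ℝ) ^ k := by simpa [d'] using hk1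
          refine (mul_le_of_le_one_left (abs_nonneg _) ?_).trans this
          rcases eq_or_ne (RCLike.I : 𝕜) 0 with h | h
          · rw [h, norm_zero]; exact zero_le_one
          · rw [RCLike.norm_I_of_ne_zero h]
      have e2 : ‖g k (d i)‖ = (3 / 2 : ℝ) ^ k * ‖StrongDual.extendRCLike (𝕜 := 𝕜) (f k) (d i)‖ := by
        simp only [g, smul_apply, norm_smul, RCLike.norm_ofReal]
        rw [abs_of_pos (by positivity)]
      rw [e2]
      calc (3 / 2 : ℝ) ^ k * ‖StrongDual.extendRCLike (𝕜 := 𝕜) (f k) (d i)‖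
          ≤ (3 / 2 : ℝ) ^ k * ((1 / 2 : ℝ) ^ k + (1 / 2 : ℝ) ^ k) :=
            mul_le_mul_of_nonneg_left e1 (by positivity)
        _ = 2 * (3 / 4 : ℝ) ^ k := by
            have : (3 / 2 : ℝ) ^ k * (1 / 2 : ℝ) ^ k = (3 / 4 : ℝ) ^ k := by
              rw [← mul_pow]; norm_num
            rw [mul_add, this]; ring
        _ ≤ 2 * 1 := by
            refine mul_le_mul_of_nonneg_left ?_ (by norm_num)
            exact pow_le_one₀ (by norm_num) (by norm_num)
        _ = 2 := by norm_num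
    obtain ⟨K, hK⟩ := eventually_atTop.1 h1
    refine ⟨2 + ∑ k ∈ Finset.range K, ‖g k (d i)‖, fun k => ?_⟩
    by_cases hk : k < K
    · have : ‖g k (d i)‖ ≤ ∑ k ∈ Finset.range K, ‖g k (d i)‖ :=
        Finset.single_le_sum (f := fun k => ‖g k (d i)‖) (fun _ _ => norm_nonneg _)
          (Finset.mem_range.2 hk)
      linarith only [this]
    · have h2 := hK k (not_lt.1 hk)
      have : 0 ≤ ∑ k ∈ Finset.range K, ‖g k (d i)‖ :=
        Finset.sum_nonneg fun _ _ => norm_nonneg _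
      linarith only [h2, this]

/-- The closed linear span of few weakly compact sets. -/
theorem hasSepQuot_of_weaklyCompact {𝕜 : Type*} [RCLike 𝕜] {X : Type*}
    [NormedAddCommGroup X] [NormedSpace 𝕜 X] [CompleteSpace X]
    (hinf : ¬ FiniteDimensional 𝕜 X) {ι : Type*} [Infinite ι]
    (hι : ∀ F : ι → ℝ, IsMeagre (Set.range F)) (K : ι → Set X)
    (hK : ∀ i, IsCompact (toWeakSpace 𝕜 X '' K i))
    (hd : Dense (Submodule.span 𝕜 (⋃ i, K i) : Set X)) :
    HasSepQuot 𝕜 X := by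
  obtain ⟨h, hli⟩ := exists_linearIndependent_functionals hinf
  let N : Submodule 𝕜 X := ⨅ n, (h n).ker
  have hNmem : ∀ y, y ∈ N ↔ ∀ n, h n y = 0 := by
    intro y; simp only [Submodule.mem_iInf, LinearMap.mem_ker, ContinuousLinearMap.coe_coe, N]
  have hN : IsClosed (N : Set X) := by
    have : (N : Set X) = ⋂ n, {y | h n y = 0} := by
      ext y; simp only [SetLike.mem_coe, hNmem, mem_iInter, mem_ofPred_eq]
    rw [this]
    exact isClosed_iInter fun n => isClosed_eq (by (clear * -; fun_prop)) continuous_const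
  -- the induced functionals on the quotient
  have hker : ∀ n, N ≤ (h n).ker := fun n => iInf_le _ n
  let h' : ℕ → StrongDual 𝕜 (X ⧸ N) := fun n =>
    { toLinearMap := N.liftQ (h n : X →ₗ[𝕜] 𝕜) (hker n)
      cont := by
        have hq : Topology.IsQuotientMap (N.mkQ : X → X ⧸ N) := isQuotientMap_quotient_mk'
        refine hq.continuous_iff.2 ?_
        exact (h n).continuous }
  have hh' : ∀ n x, h' n (N.mkQ x) = h n x := fun n x => by
    show N.liftQ (h n : X →ₗ[𝕜] 𝕜) (hker n) (N.mkQ x) = h n x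
    simp
  have hsep : ∀ z : X ⧸ N, (∀ n, h' n z = 0) → z = 0 := by
    intro z hz
    obtain ⟨x, rfl⟩ := N.mkQ_surjective z
    refine (Submodule.Quotient.mk_eq_zero N).2 ((hNmem x).2 fun n => ?_)
    rw [← hh']; exact hz n
  have hli' : LinearIndependent 𝕜 h' := by
    let P : StrongDual 𝕜 (X ⧸ N) →ₗ[𝕜] StrongDual 𝕜 X :=
      { toFun := fun f => f.comp (N.mkQL)
        map_add' := fun f g => by ext x; simp
        map_smul' := fun c f => by ext x; simp }
    have hP : ∀ n, P (h' n) = h n := by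
      intro n
      ext x
      exact hh' n x
    refine LinearIndependent.of_comp P ?_
    have : (P ∘ h') = h := funext hP
    rw [this]; exact hli
  have hinfZ : ¬ FiniteDimensional 𝕜 (X ⧸ N) := by
    intro hf
    have : FiniteDimensional 𝕜 (StrongDual 𝕜 (X ⧸ N)) := by infer_instance
    exact (hli'.finite : Finite ℕ).false
  have hq : ∀ i, IsCompact (toWeakSpace 𝕜 (X ⧸ N) '' (N.mkQ '' K i)) := by
    intro i
    have h1 := (hK i).image (WeakSpace.map (N.mkQL)).continuous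
    have h2 : (WeakSpace.map N.mkQL) '' (toWeakSpace 𝕜 X '' K i) =
        toWeakSpace 𝕜 (X ⧸ N) '' (N.mkQ '' K i) := by
      rw [Set.image_image, Set.image_image]
      rfl
    rwa [h2] at h1
  choose C hC1 hC2 using fun i =>
    exists_countable_of_weaklyCompact (N.mkQ '' K i) (hq i) h' hsep
  choose c hc using fun i =>
    ((hC1 i).insert 0).exists_eq_range (Set.insert_nonempty _ _)
  have hι' : ∀ F : ι × ℕ → ℝ, IsMeagre (Set.range F) := by
    intro F
    have : Set.range F = ⋃ n : ℕ, Set.range (fun i => F (i, n)) := by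
      ext y
      simp only [Set.mem_range, Set.mem_iUnion, Prod.exists]
      exact exists_comm
    rw [this]
    exact isMeagre_iUnion fun n => hι _
  refine HasSepQuot.of_quotient N (hasSepQuot_of_total hinfZ (ι := ι × ℕ) hι'
    (fun p => c p.1 p.2) ?_)
  -- density of the span
  set S : Submodule 𝕜 (X ⧸ N) := Submodule.span 𝕜 (Set.range fun p : ι × ℕ => c p.1 p.2) with hS
  have h1 : ∀ i, N.mkQ '' K i ⊆ closure (S : Set (X ⧸ N)) := by
    intro i
    refine (hC2 i).trans (closure_mono (SetLike.coe_subset_coe.2 (Submodule.span_le.2 ?_)))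
    intro z hz
    have : z ∈ Set.range (c i) := by rw [← hc i]; exact Set.mem_insert_of_mem _ hz
    obtain ⟨n, rfl⟩ := this
    exact Submodule.subset_span ⟨(i, n), rfl⟩
  have h2 : (Submodule.span 𝕜 (⋃ i, K i) : Set X) ⊆ N.mkQ ⁻¹' (S.topologicalClosure : Set (X ⧸ N)) := by
    have : Submodule.span 𝕜 (⋃ i, K i) ≤ S.topologicalClosure.comap N.mkQ := by
      rw [Submodule.span_le]
      intro x hx
      obtain ⟨i, hi⟩ := Set.mem_iUnion.1 hx
      exact h1 i ⟨x, hi, rfl⟩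
    exact this
  have h3 : ∀ x, N.mkQ x ∈ closure (S : Set (X ⧸ N)) := by
    intro x
    have h4 : closure (Submodule.span 𝕜 (⋃ i, K i) : Set X) ⊆ N.mkQ ⁻¹' closure (S : Set (X ⧸ N)) :=
      closure_minimal h2 (isClosed_closure.preimage N.continuous_mkQ)
    exact h4 (hd x)
  intro z
  obtain ⟨x, rfl⟩ := N.mkQ_surjective z
  exact h3 x

end Vale.Agent.P129
end
end

section

section

/-!
# Infinite free sets from a total extension of Lebesgue measure
-/

namespace Vale.Agent.P129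

open MeasureTheory Set

/-- Fubini lemma for a total finite measure and a family of Lebesgue null sets. -/
lemma fubini_null {I : Type*} [MeasurableSpace I] [DiscreteMeasurableSpace I] (μ : Measure I)
    [IsFiniteMeasure μ] (B : I → Set ℝ) (hB : ∀ i, volume (B i) = 0) :
    ∀ᵐ g : ℝ, μ {i | g ∈ B i} = 0 := by
  -- open covers
  have hU : ∀ (n : ℕ) (i : I), ∃ U : Set ℝ, B i ⊆ U ∧ IsOpen U ∧
      volume U ≤ (2 : ENNReal)⁻¹ ^ n := by
    intro n i
    have hpos : (2 : ENNReal)⁻¹ ^ n ≠ 0 := by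
      apply pow_ne_zero
      simp
    obtain ⟨U, hBU, hUo, hUv⟩ := (B i).exists_isOpen_lt_of_lt ((2 : ENNReal)⁻¹ ^ n)
      (by rw [hB i]; exact pos_iff_ne_zero.mpr hpos)
    exact ⟨U, hBU, hUo, hUv.le⟩
  choose U hBU hUo hUv using hU
  set E : ℕ → Set (ℝ × I) := fun n => {p | p.1 ∈ U n p.2} with hE
  have hEm : ∀ n, MeasurableSet (E n) := by
    intro n
    have : E n = ⋃ (a : ℚ) (b : ℚ), Ioo (a : ℝ) b ×ˢ {i : I | Ioo (a : ℝ) b ⊆ U n i} := by
      ext ⟨x, i⟩
      simp only [hE, mem_ofPred_eq, mem_iUnion, mem_prod]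
      constructor
      · intro hx
        obtain ⟨s, hs, hxs, hsU⟩ :=
          Real.isTopologicalBasis_Ioo_rat.exists_subset_of_mem_open hx (hUo n i)
        simp only [mem_iUnion, mem_singleton_iff, exists_prop] at hs
        obtain ⟨a, b, -, rfl⟩ := hs
        exact ⟨a, b, hxs, hsU⟩
      · rintro ⟨a, b, hx, hsub⟩
        exact hsub hx
    rw [this]
    exact MeasurableSet.iUnion fun a => MeasurableSet.iUnion fun b =>
      measurableSet_Ioo.prod (MeasurableSet.of_discrete)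
  have hEv : ∀ n, (volume.prod μ) (E n) ≤ (2 : ENNReal)⁻¹ ^ n * μ univ := by
    intro n
    rw [Measure.prod_apply_symm (hEm n)]
    calc ∫⁻ y, volume ((fun x => (x, y)) ⁻¹' E n) ∂μ
        ≤ ∫⁻ _, (2 : ENNReal)⁻¹ ^ n ∂μ := lintegral_mono fun i => hUv n i
      _ = (2 : ENNReal)⁻¹ ^ n * μ univ := by rw [lintegral_const]
  have h0 : (volume.prod μ) (⋂ n, E n) = 0 := by
    have hle : ∀ n, (volume.prod μ) (⋂ n, E n) ≤ (2 : ENNReal)⁻¹ ^ n * μ univ :=
      fun n => (measure_mono (iInter_subset _ n)).trans (hEv n)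
    have hlim : Filter.Tendsto (fun n : ℕ => (2 : ENNReal)⁻¹ ^ n * μ univ) Filter.atTop
        (nhds (0 * μ univ)) := by
      apply ENNReal.Tendsto.mul_const
      · exact ENNReal.tendsto_pow_atTop_nhds_zero_of_lt_one (by simp only [ENNReal.inv_lt_one, Nat.one_lt_ofNat])
      · right
        exact measure_ne_top μ univ
    rw [zero_mul] at hlim
    exact nonpos_iff_eq_zero.mp (ge_of_tendsto' hlim hle)
  have h1 := Measure.ae_ae_of_ae_prod (μ := (volume : Measure ℝ)) (ν := μ)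
    (p := fun p => p ∉ ⋂ n, E n) (by
      rw [ae_iff]
      convert h0 using 2
      ext p
      simp only [mem_iInter, not_forall, not_exists, not_not, mem_ofPred_eq])
  filter_upwards [h1] with g hg
  rw [ae_iff] at hg
  refine measure_mono_null ?_ hg
  intro i hi
  simp only [mem_ofPred_eq, not_not, mem_iInter, hE]
  intro n
  exact hBU n i hi

section

variable (ν : @Measure ℝ ⊤)

/-- For iterated almost all extensions of the list `l` by `k` entries. -/
def AEx : ℕ → (List ℝ → Prop) → List ℝ → Prop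
  | 0, P, l => P l
  | k + 1, P, l => ∀ᵐ g ∂ν, AEx k P (l ++ [g])

lemma AEx_congr {m : ℕ} : ∀ {P Q : List ℝ → Prop} {a b : List ℝ},
    (∀ t : List ℝ, t.length = m → (P (a ++ t) ↔ Q (b ++ t))) → (AEx ν m P a ↔ AEx ν m Q b) := by
  induction m with
  | zero =>
    intro P Q a b h
    have := h [] rfl
    simpa only [AEx, List.append_nil] using this
  | succ m ih =>
    intro P Q a b h
    have h1 : ∀ g : ℝ, AEx ν m P (a ++ [g]) ↔ AEx ν m Q (b ++ [g]) := by
      intro g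
      apply ih
      intro t ht
      have := h (g :: t) (by simp [ht])
      simpa using this
    unfold AEx
    simp only [h1]

lemma AEx_mono {m : ℕ} : ∀ {P Q : List ℝ → Prop} {a : List ℝ},
    (∀ l, P l → Q l) → AEx ν m P a → AEx ν m Q a := by
  induction m with
  | zero => exact fun h hP => h _ hP
  | succ m ih =>
    intro P Q a h hP
    unfold AEx at hP ⊢
    filter_upwards [hP] with g hg
    exact ih h hg

lemma AEx_of_forall {m : ℕ} : ∀ {P : List ℝ → Prop} {a : List ℝ},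
    (∀ t : List ℝ, t.length = m → P (a ++ t)) → AEx ν m P a := by
  induction m with
  | zero =>
    intro P a h
    simpa [AEx] using h [] rfl
  | succ m ih =>
    intro P a h
    unfold AEx
    refine Filter.Eventually.of_forall fun g => ih ?_
    intro t ht
    have := h (g :: t) (by simp [ht])
    simpa using this

lemma AEx_add {j m : ℕ} : ∀ {P : List ℝ → Prop} {a : List ℝ},
    (∀ t : List ℝ, t.length = j → AEx ν m P (a ++ t)) → AEx ν (j + m) P a := by
  induction j with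
  | zero =>
    intro P a h
    simpa using h [] rfl
  | succ j ih =>
    intro P a h
    rw [show j + 1 + m = (j + m) + 1 by ring]
    unfold AEx
    refine Filter.Eventually.of_forall fun g => ih ?_
    intro t ht
    have := h (g :: t) (by simp [ht])
    simpa using this

lemma AEx_all {ι : Type*} [Countable ι] {m : ℕ} : ∀ {P : ι → List ℝ → Prop} {a : List ℝ},
    (∀ i, AEx ν m (P i) a) → AEx ν m (fun l => ∀ i, P i l) a := by
  induction m with
  | zero =>
    intro P a h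
    exact h
  | succ m ih =>
    intro P a h
    unfold AEx at h ⊢
    have := ae_all_iff.mpr h
    filter_upwards [this] with g hg
    exact ih hg

lemma AEx_fubini (hfin : ν univ ≠ ⊤) {m : ℕ} : ∀ (B : List ℝ → Set ℝ),
    (∀ l, volume (B l) = 0) → ∀ a : List ℝ,
    ∀ᵐ g : ℝ, AEx ν m (fun l => g ∉ B l) a := by
  induction m with
  | zero =>
    intro B hB a
    show ∀ᵐ g : ℝ, g ∉ B a
    rw [ae_iff]
    simpa only [not_not, ofPred_mem_eq] using hB a
  | succ m ih =>
    intro B hB a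
    -- two-variable Fubini lemma for the discrete copy of the line
    have key : ∀ C : ℝ → Set ℝ, (∀ h, volume (C h) = 0) → ∀ᵐ g : ℝ, ν {h | g ∈ C h} = 0 := by
      intro C hC
      have hI : @DiscreteMeasurableSpace ℝ ⊤ := @DiscreteMeasurableSpace.mk ℝ ⊤ (fun _ => trivial)
      have hfm : @IsFiniteMeasure ℝ ⊤ ν := @IsFiniteMeasure.mk ℝ ⊤ ν (lt_top_iff_ne_top.mpr hfin)
      exact @fubini_null ℝ ⊤ hI ν hfm C hC
    have h1 := key (fun h => {g | ¬ AEx ν m (fun l => g ∉ B l) (a ++ [h])}) (fun h => by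
      have := ih B hB (a ++ [h])
      rwa [ae_iff] at this)
    filter_upwards [h1] with g hg
    show ∀ᵐ h ∂ν, AEx ν m (fun l => g ∉ B l) (a ++ [h])
    rw [ae_iff]
    exact hg

/-- The list `l` is free for the pair `(S, j)`. -/
def FreeAt (F : Finset ℝ → Set ℝ) (p : Finset ℕ × ℕ) (l : List ℝ) : Prop :=
  p.2 ∉ p.1 → p.2 < l.length → (∀ i ∈ p.1, i < l.length) →
    l.getD p.2 0 ∉ F (p.1.image fun i => l.getD i 0)

lemma AEx_freeAt (hfin : ν univ ≠ ⊤) (hac : ∀ s : Set ℝ, volume s = 0 → ν s = 0)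
    (F : Finset ℝ → Set ℝ) (hF : ∀ s, volume (F s) = 0) (p : Finset ℕ × ℕ) (k : ℕ) :
    AEx ν k (FreeAt F p) [] := by
  classical
  obtain ⟨S, j⟩ := p
  by_cases hk : j < k ∧ j ∉ S
  · obtain ⟨hjk, hjS⟩ := hk
    obtain ⟨m, rfl⟩ : ∃ m, k = j + (m + 1) := ⟨k - j - 1, by omega⟩
    apply AEx_add
    intro l hl
    rw [List.nil_append]
    -- the family of null sets does not depend on the `j`-th entry
    have h1 := AEx_fubini ν hfin (m := m) (fun l' => F (S.image fun i => l'.getD i 0))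
      (fun l' => hF _) (l ++ [0])
    have h2 := hac _ (by rwa [ae_iff] at h1)
    show ∀ᵐ g ∂ν, AEx ν m (FreeAt F (S, j)) (l ++ [g])
    rw [ae_iff]
    refine measure_mono_null ?_ h2
    intro g hg hg'
    apply hg
    have h3 : AEx ν m (fun l' => g ∉ F (S.image fun i => l'.getD i 0)) (l ++ [0]) := hg'
    -- compare
    have h4 : AEx ν m (fun l' => l'.getD j 0 ∉ F (S.image fun i => l'.getD i 0)) (l ++ [g]) := by
      rw [AEx_congr ν (Q := fun l' => g ∉ F (S.image fun i => l'.getD i 0)) (b := l ++ [0])]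
      · exact h3
      · intro t ht
        have e1 : (l ++ [g] ++ t).getD j 0 = g := by
          simp only [List.append_assoc, List.cons_append, List.nil_append, ← hl, List.getD_eq_getElem?_getD, List.length_append, List.length_cons, lt_add_iff_pos_right, Order.lt_add_one_iff, zero_le, getElem?_pos, Std.le_refl, List.getElem_append_right, tsub_self, List.getElem_cons_zero, Option.getD_some]
        have e2 : (S.image fun i => (l ++ [g] ++ t).getD i 0)
            = (S.image fun i => (l ++ [0] ++ t).getD i 0) := by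
          apply Finset.image_congr
          intro i hi
          have hij : i ≠ j := by
            rintro rfl
            exact hjS hi
          simp only [List.append_assoc, List.getD_eq_getElem?_getD, List.singleton_append]
          rcases lt_or_gt_of_ne hij with h | h
          · rw [List.getElem?_append_left (by omega), List.getElem?_append_left (by omega)]
          · rw [List.getElem?_append_right (by omega), List.getElem?_append_right (by omega)]
            obtain ⟨d, hd⟩ : ∃ d, i - l.length = d + 1 := ⟨i - l.length - 1, by omega⟩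
            rw [hd]
            simp only [List.getElem?_cons_succ]
        rw [e1, e2]
    exact AEx_mono ν (fun l' h _ _ _ => h) h4
  · apply AEx_of_forall
    intro t ht h1 h2 _
    simp at h1 h2
    exact absurd ⟨by omega, h1⟩ hk

end

/-- A total extension of Lebesgue measure (a finite nonzero measure on all subsets of the line
which vanishes on Lebesgue null sets) gives an infinite free set for every set mapping from finite
sets to Lebesgue null sets. -/
theorem exists_infinite_free (ν : @MeasureTheory.Measure ℝ ⊤) (hfin : ν Set.univ ≠ ⊤)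
    (hne : ν Set.univ ≠ 0) (hac : ∀ s : Set ℝ, MeasureTheory.volume s = 0 → ν s = 0)
    (F : Finset ℝ → Set ℝ) (hF : ∀ s, MeasureTheory.volume (F s) = 0) :
    ∃ g : ℕ → ℝ, Function.Injective g ∧
      ∀ (S : Finset ℕ) (j : ℕ), j ∉ S → g j ∉ F (S.image g) := by
  classical
  -- replace `F s` by `F s ∪ s`
  set F' : Finset ℝ → Set ℝ := fun s => F s ∪ s with hF'
  have hF'0 : ∀ s, volume (F' s) = 0 := by
    intro s
    rw [hF']
    exact measure_union_null (hF s) (s.finite_toSet.measure_zero _)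
  let P : List ℝ → Prop := fun l => ∀ p : Finset ℕ × ℕ, FreeAt F' p l
  let Good : List ℝ → Prop := fun l => ∀ k, AEx ν k P l
  have h0 : Good [] := fun k => AEx_all ν fun p => AEx_freeAt ν hfin hac F' hF'0 p k
  have hstep : ∀ l, Good l → ∃ g, Good (l ++ [g]) := by
    intro l hl
    have h1 : ∀ k, ∀ᵐ g ∂ν, AEx ν k P (l ++ [g]) := fun k => hl (k + 1)
    have h2 := ae_all_iff.mpr h1
    by_contra hcon
    push Not at hcon
    apply hne
    rw [ae_iff] at h2
    convert h2 using 2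
    ext g
    simp only [mem_univ, mem_ofPred_eq, true_iff]
    exact hcon g
  choose! nxt hnxt using hstep
  -- the lists
  let L : ℕ → List ℝ := fun n => Nat.rec [] (fun _ l => l ++ [nxt l]) n
  have hL : ∀ n, Good (L n) := by
    intro n
    induction n with
    | zero => exact h0
    | succ n ih => exact hnxt _ ih
  have hlen : ∀ n, (L n).length = n := by
    intro n
    induction n with
    | zero => rfl
    | succ n ih =>
      show (L n ++ [nxt (L n)]).length = n + 1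
      simp [ih]
  let g : ℕ → ℝ := fun n => nxt (L n)
  have hget : ∀ n i, i < n → (L n).getD i 0 = g i := by
    intro n
    induction n with
    | zero => intro i hi; omega
    | succ n ih =>
      intro i hi
      show (L n ++ [nxt (L n)]).getD i 0 = g i
      rw [List.getD_eq_getElem?_getD]
      rcases Nat.lt_or_ge i n with h | h
      · rw [List.getElem?_append_left (by rw [hlen]; exact h), ← List.getD_eq_getElem?_getD]
        exact ih i h
      · obtain rfl : i = n := by omega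
        rw [List.getElem?_append_right (by rw [hlen])]
        simp only [hlen, tsub_self, List.length_cons, List.length_nil, zero_add, Order.lt_one_iff, getElem?_pos, List.getElem_cons_zero, Option.getD_some, g]
  have hfree : ∀ (S : Finset ℕ) (j : ℕ), j ∉ S → g j ∉ F' (S.image g) := by
    intro S j hjS
    set n := max (S.sup id) j + 1 with hn
    have hP : P (L n) := hL n 0
    have hSn : ∀ i ∈ S, i < n := by
      intro i hi
      have : i ≤ S.sup id := Finset.le_sup (f := id) hi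
      omega
    have hjn : j < n := by omega
    have := hP (S, j) hjS (lt_of_lt_of_eq hjn (hlen n).symm)
      (fun i hi => lt_of_lt_of_eq (hSn i hi) (hlen n).symm)
    simp only at this
    rw [hget n j (by omega)] at this
    have himg : (S.image fun i => (L n).getD i 0) = S.image g := by
      apply Finset.image_congr
      intro i hi
      exact hget n i (hSn i hi)
    rwa [himg] at this
  refine ⟨g, ?_, fun S j hj h => hfree S j hj (Or.inl h)⟩
  intro i j hij
  by_contra hne'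
  have := hfree {i} j (by simpa using fun h => hne' h.symm)
  apply this
  right
  simp [hij]

end Vale.Agent.P129
end
end

section

section

open Filter Topology Set MeasureTheory

namespace Vale.Agent.P129

/-- The index of the cell of length `1 / N` containing the fractional part of `t`. -/
noncomputable def cell (N : ℕ) (t : ℝ) : ℕ := ⌊(N : ℝ) * Int.fract t⌋₊

lemma cell_lt {N : ℕ} (hN : 0 < N) (t : ℝ) : cell N t < N := by
  unfold cell
  have hN' : (0 : ℝ) < N := by exact_mod_cast hN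
  have h1 : (N : ℝ) * Int.fract t < N := by
    have := Int.fract_lt_one t
    nlinarith only [hN', this]
  exact (Nat.floor_lt (mul_nonneg hN'.le (Int.fract_nonneg t))).2 h1

lemma volume_cell {N : ℕ} (hN : 0 < N) (s : Finset ℕ) (m : ℤ) :
    volume ({t : ℝ | cell N t ∈ s} ∩ Ico (m : ℝ) (m + 1)) ≤
      ENNReal.ofReal ((s.card : ℝ) / N) := by
  have hN' : (0 : ℝ) < N := by exact_mod_cast hN
  have h1 : {t : ℝ | cell N t ∈ s} ∩ Ico (m : ℝ) (m + 1) ⊆
      ⋃ j ∈ s, Ico ((m : ℝ) + j / N) ((m : ℝ) + (j + 1) / N) := by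
    rintro t ⟨ht, ht1, ht2⟩
    have hfl : ⌊t⌋ = m := Int.floor_eq_iff.2 ⟨ht1, ht2⟩
    have hfr : Int.fract t = t - m := by rw [Int.fract, hfl]
    refine mem_iUnion₂.2 ⟨cell N t, ht, ?_⟩
    have h0 : 0 ≤ (N : ℝ) * Int.fract t := mul_nonneg hN'.le (Int.fract_nonneg t)
    have h2 : (cell N t : ℝ) ≤ N * Int.fract t := Nat.floor_le h0
    have h3 : (N : ℝ) * Int.fract t < cell N t + 1 := Nat.lt_floor_add_one _
    rw [hfr] at h2 h3
    constructor
    · have : (cell N t : ℝ) / N ≤ t - m := by rw [div_le_iff₀ hN']; linarith only [h2]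
      linarith only [this]
    · have : t - m < ((cell N t : ℝ) + 1) / N := by rw [lt_div_iff₀ hN']; linarith only [h3]
      linarith only [this]
  refine (measure_mono h1).trans ((measure_biUnion_finset_le _ _).trans ?_)
  have h2 : ∀ j ∈ s, volume (Ico ((m : ℝ) + j / N) ((m : ℝ) + (j + 1) / N)) =
      ENNReal.ofReal (1 / N) := by
    intro j _
    rw [Real.volume_Ico]
    congr 1
    ring
  have h3 : ENNReal.ofReal ((s.card : ℝ) / N) = (s.card : ENNReal) * ENNReal.ofReal (1 / N) := by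
    rw [div_eq_mul_one_div, ENNReal.ofReal_mul (Nat.cast_nonneg _), ENNReal.ofReal_natCast]
  rw [Finset.sum_congr rfl h2, Finset.sum_const, nsmul_eq_mul, h3]

/-- Borel-Cantelli for cells: if at stage `k` at most `16 ^ k` cells out of `32 ^ k` are bad for
all large `k`, then almost every point meets only finitely many bad cells. -/
lemma volume_frequently_bad (bad : ℕ → Finset ℕ) (k₀ : ℕ)
    (hbad : ∀ k ≥ k₀, (bad k).card ≤ 16 ^ k) :
    volume {t : ℝ | ∃ᶠ k in atTop, cell (32 ^ k) t ∈ bad k} = 0 := by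
  have key : ∀ m : ℤ, volume ({t : ℝ | ∃ᶠ k in atTop, cell (32 ^ k) t ∈ bad k} ∩
      Ico (m : ℝ) (m + 1)) = 0 := by
    intro m
    have h1 : ∀ k, (volume.restrict (Ico (m : ℝ) (m + 1))) {t : ℝ | cell (32 ^ k) t ∈ bad k} ≤
        ENNReal.ofReal (2 ^ k₀ * (1 / 2 : ℝ) ^ k) := by
      intro k
      rw [Measure.restrict_apply' measurableSet_Ico]
      by_cases hk : k₀ ≤ k
      · refine (volume_cell (by positivity) (bad k) m).trans (ENNReal.ofReal_le_ofReal ?_)
        have h2 : ((bad k).card : ℝ) ≤ 16 ^ k := by exact_mod_cast hbad k hk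
        have h3 : ((bad k).card : ℝ) / ((32 ^ k : ℕ) : ℝ) ≤ (1 / 2 : ℝ) ^ k := by
          rw [div_le_iff₀ (by positivity)]
          refine h2.trans (le_of_eq ?_)
          push_cast
          rw [← mul_pow]
          norm_num
        refine h3.trans ?_
        have : (1 : ℝ) ≤ 2 ^ k₀ := one_le_pow₀ (by norm_num)
        nlinarith only [this, pow_pos (show (0 : ℝ) < 1 / 2 by norm_num) k]
      · have h2 : volume ({t : ℝ | cell (32 ^ k) t ∈ bad k} ∩ Ico (m : ℝ) (m + 1)) ≤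
            volume (Ico (m : ℝ) (m + 1)) := measure_mono inter_subset_right
        refine h2.trans ?_
        rw [Real.volume_Ico]
        refine ENNReal.ofReal_le_ofReal ?_
        have h3 : (1 : ℝ) ≤ 2 ^ k₀ * (1 / 2 : ℝ) ^ k := by
          have h4 : (1 / 2 : ℝ) ^ k₀ ≤ (1 / 2 : ℝ) ^ k :=
            pow_le_pow_of_le_one (by norm_num) (by norm_num) (not_le.1 hk).le
          calc (1 : ℝ) = 2 ^ k₀ * (1 / 2 : ℝ) ^ k₀ := by rw [← mul_pow]; norm_num
            _ ≤ _ := mul_le_mul_of_nonneg_left h4 (by positivity)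
        linarith only [h3]
    have h2 : ∑' k, (volume.restrict (Ico (m : ℝ) (m + 1))) {t : ℝ | cell (32 ^ k) t ∈ bad k} ≠ ⊤ := by
      refine ne_top_of_le_ne_top ?_ (ENNReal.tsum_le_tsum h1)
      exact ((summable_geometric_of_lt_one (by norm_num) (by norm_num)).mul_left _).tsum_ofReal_ne_top
    have h3 := measure_setOfPred_frequently_eq_zero h2
    rwa [Measure.restrict_apply' measurableSet_Ico] at h3
  have h4 : {t : ℝ | ∃ᶠ k in atTop, cell (32 ^ k) t ∈ bad k} = ⋃ m : ℤ,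
      ({t : ℝ | ∃ᶠ k in atTop, cell (32 ^ k) t ∈ bad k} ∩ Ico (m : ℝ) (m + 1)) := by
    rw [← inter_iUnion, iUnion_Ico_intCast, inter_univ]
  rw [h4]
  exact measure_iUnion_null key

/-- A non-dense subspace is contained in the kernel of a norm-one functional. -/
lemma exists_norm_one_vanishing {𝕜 : Type*} [RCLike 𝕜] {X : Type*} [NormedAddCommGroup X]
    [NormedSpace 𝕜 X] (S : Submodule 𝕜 X) (hS : ¬ Dense (S : Set X)) :
    ∃ φ : X →L[𝕜] 𝕜, ‖φ‖ = 1 ∧ ∀ x ∈ S, φ x = 0 := by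
  let N : Submodule 𝕜 X := S.topologicalClosure
  have hN : IsClosed (N : Set X) := S.isClosed_topologicalClosure
  obtain ⟨x₀, hx₀⟩ : ∃ x, x ∉ N := by
    by_contra hcon
    push Not at hcon
    apply hS
    intro x
    exact hcon x
  have hq : N.mkQL x₀ ≠ 0 := by
    intro h
    exact hx₀ ((Submodule.Quotient.mk_eq_zero N).1 h)
  obtain ⟨ψ, hψ1, hψ2⟩ := exists_dual_vector 𝕜 (N.mkQL x₀) (norm_ne_zero_iff.2 hq)
  let χ : X →L[𝕜] 𝕜 := ψ.comp N.mkQL
  have hχ : χ ≠ 0 := by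
    intro h
    have h1 : χ x₀ = 0 := by rw [h]; rfl
    have h2 : χ x₀ = ‖N.mkQL x₀‖ := hψ2
    rw [h1] at h2
    have : ‖N.mkQL x₀‖ = 0 := by exact_mod_cast h2.symm
    exact hq (norm_eq_zero.1 this)
  have hχn : ‖χ‖ ≠ 0 := norm_ne_zero_iff.2 hχ
  refine ⟨((‖χ‖⁻¹ : ℝ) : 𝕜) • χ, ?_, ?_⟩
  · rw [norm_smul, RCLike.norm_ofReal, abs_of_nonneg (by positivity), inv_mul_cancel₀ hχn]
  · intro x hx
    have h1 : N.mkQL x = 0 := (Submodule.Quotient.mk_eq_zero N).2 (S.le_topologicalClosure hx)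
    have h2 : χ x = 0 := by
      show ψ (N.mkQL x) = 0
      rw [h1, map_zero]
    rw [smul_apply, h2, smul_zero]

/-- If there is no separable infinite-dimensional quotient, there is a family of norm-one
functionals, indexed by the reals, such that every vector is annihilated by almost all of them. -/
theorem exists_null_family {𝕜 : Type*} [RCLike 𝕜] {X : Type*} [NormedAddCommGroup X]
    [NormedSpace 𝕜 X] [CompleteSpace X] (hinf : ¬ FiniteDimensional 𝕜 X)
    (hno : ¬ ∃ M : Submodule 𝕜 X, IsClosed (M : Set X) ∧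
      TopologicalSpace.SeparableSpace (X ⧸ M) ∧ ¬ FiniteDimensional 𝕜 (X ⧸ M)) :
    ∃ φ : ℝ → X →L[𝕜] 𝕜, (∀ t, ‖φ t‖ = 1) ∧ ∀ x, volume {t : ℝ | φ t x ≠ 0} = 0 := by
  let _ : NormedSpace ℝ X := NormedSpace.restrictScalars ℝ 𝕜 X
  have _ : IsScalarTower ℝ 𝕜 X := RestrictScalars.isScalarTower ℝ 𝕜 X
  have hinf' : ¬ FiniteDimensional ℝ X := by
    intro hf
    exact hinf (Module.Finite.of_restrictScalars_finite ℝ 𝕜 X)
  have hdual := not_finiteDimensional_dual hinf'
  let W : ∀ n, Ell (X →L[ℝ] ℝ) n := fun n =>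
    { T := (exists_ellipsoid hdual n).choose
      le := (exists_ellipsoid hdual n).choose_spec.1
      big := (exists_ellipsoid hdual n).choose_spec.2 }
  obtain ⟨f, hf1, hf2⟩ := exists_two_estimate W
  let F : ℝ → ℕ → X →L[ℝ] ℝ := fun t k => f (32 ^ k) (cell (32 ^ k) t)
  let G : ℝ → ℕ → X →L[𝕜] 𝕜 := fun t k =>
    (((3 / 2 : ℝ) ^ k : ℝ) : 𝕜) • StrongDual.extendRCLike (𝕜 := 𝕜) (F t k)
  have hFn : ∀ t k, 1 / 2 ≤ ‖F t k‖ := fun t k =>
    hf1 _ _ (cell_lt (by positivity) t)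
  have hgn : ∀ t k, ‖G t k‖ = (3 / 2 : ℝ) ^ k * ‖F t k‖ := by
    intro t k
    simp only [G, norm_smul, RCLike.norm_ofReal, StrongDual.norm_extendRCLike]
    rw [abs_of_pos (by positivity)]
  have hnd : ∀ t, ¬ Dense (bddSub (G t) : Set X) := by
    intro t hd
    refine hno (exists_separable_quotient_of_unbounded (G t) ?_ hd)
    intro R
    have h1 : Tendsto (fun k : ℕ => (3 / 2 : ℝ) ^ k * (1 / 2)) atTop atTop :=
      (tendsto_pow_atTop_atTop_of_one_lt (by norm_num)).atTop_mul_const (by norm_num)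
    obtain ⟨k, hk⟩ := (h1.eventually_gt_atTop R).exists
    refine ⟨k, hk.trans_le ?_⟩
    rw [hgn]
    exact mul_le_mul_of_nonneg_left (hFn t k) (by positivity)
  choose φ hφ1 hφ2 using fun t => exists_norm_one_vanishing (bddSub (G t)) (hnd t)
  refine ⟨φ, hφ1, fun x => ?_⟩
  -- the bad sets
  let bad : X → ℕ → Finset ℕ := fun y k =>
    (Finset.range (32 ^ k)).filter (fun j => (1 / 2 : ℝ) ^ k < |f (32 ^ k) j y|)
  have hbad : ∀ y, volume {t : ℝ | ∃ᶠ k in atTop, cell (32 ^ k) t ∈ bad y k} = 0 := by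
    intro y
    obtain ⟨k₀, hk₀⟩ : ∃ k₀ : ℕ, ‖y‖ < 2 ^ k₀ := pow_unbounded_of_one_lt _ (by norm_num)
    refine volume_frequently_bad (bad y) k₀ fun k hk => ?_
    refine card_bad_le (fun j => f (32 ^ k) j y) ‖y‖ k (hf2 _ _) (norm_nonneg _) ?_
    exact hk₀.le.trans (pow_le_pow_right₀ (by norm_num) hk)
  have hgood : ∀ y t, (¬ ∃ᶠ k in atTop, cell (32 ^ k) t ∈ bad y k) →
      ∀ᶠ k in atTop, |F t k y| ≤ (1 / 2 : ℝ) ^ k := by
    intro y t ht
    rw [not_frequently] at ht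
    filter_upwards [ht] with k hk
    by_contra hcon
    apply hk
    exact Finset.mem_filter.2 ⟨Finset.mem_range.2 (cell_lt (by positivity) t), not_le.1 hcon⟩
  refine measure_mono_null ?_ (measure_union_null (hbad x) (hbad ((RCLike.I : 𝕜) • x)))
  intro t ht
  by_contra hcon
  rw [mem_union, not_or] at hcon
  refine ht (hφ2 t x ?_)
  have e1 := hgood x t hcon.1
  have e2 := hgood _ t hcon.2
  have h1 : ∀ᶠ k in atTop, ‖G t k x‖ ≤ 2 := by
    filter_upwards [e1, e2] with k hk1 hk2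
    have e1 : ‖StrongDual.extendRCLike (𝕜 := 𝕜) (F t k) x‖ ≤ (1 / 2 : ℝ) ^ k + (1 / 2 : ℝ) ^ k := by
      rw [StrongDual.extendRCLike_apply]
      refine (norm_sub_le _ _).trans ?_
      refine add_le_add ?_ ?_
      · rw [RCLike.norm_ofReal]; exact hk1
      · rw [norm_mul, RCLike.norm_ofReal]
        refine (mul_le_of_le_one_left (abs_nonneg _) ?_).trans hk2
        rcases eq_or_ne (RCLike.I : 𝕜) 0 with h | h
        · rw [h, norm_zero]; exact zero_le_one
        · rw [RCLike.norm_I_of_ne_zero h]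
    have e2 : ‖G t k x‖ = (3 / 2 : ℝ) ^ k * ‖StrongDual.extendRCLike (𝕜 := 𝕜) (F t k) x‖ := by
      simp only [G, smul_apply, norm_smul, RCLike.norm_ofReal]
      rw [abs_of_pos (by positivity)]
    rw [e2]
    calc (3 / 2 : ℝ) ^ k * ‖StrongDual.extendRCLike (𝕜 := 𝕜) (F t k) x‖
        ≤ (3 / 2 : ℝ) ^ k * ((1 / 2 : ℝ) ^ k + (1 / 2 : ℝ) ^ k) :=
          mul_le_mul_of_nonneg_left e1 (by positivity)
      _ = 2 * (3 / 4 : ℝ) ^ k := by
          have : (3 / 2 : ℝ) ^ k * (1 / 2 : ℝ) ^ k = (3 / 4 : ℝ) ^ k := by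
            rw [← mul_pow]; norm_num
          rw [mul_add, this]; ring
      _ ≤ 2 * 1 := by
          refine mul_le_mul_of_nonneg_left ?_ (by norm_num)
          exact pow_le_one₀ (by norm_num) (by norm_num)
      _ = 2 := by norm_num
  obtain ⟨K, hK⟩ := eventually_atTop.1 h1
  refine ⟨2 + ∑ k ∈ Finset.range K, ‖G t k x‖, fun k => ?_⟩
  by_cases hk : k < K
  · have : ‖G t k x‖ ≤ ∑ k ∈ Finset.range K, ‖G t k x‖ :=
      Finset.single_le_sum (f := fun k => ‖G t k x‖) (fun _ _ => norm_nonneg _)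
        (Finset.mem_range.2 hk)
    linarith only [this]
  · have h2 := hK k (not_lt.1 hk)
    have : 0 ≤ ∑ k ∈ Finset.range K, ‖G t k x‖ :=
      Finset.sum_nonneg fun _ _ => norm_nonneg _
    linarith only [h2, this]

/-- From a family of functionals with null supports and infinite free sets for null set mappings,
extract a sequence of functionals such that the finite spans are normed by vectors annihilated by
all the other functionals. -/
theorem exists_normed_sequence {𝕜 : Type*} [RCLike 𝕜] {X : Type*} [NormedAddCommGroup X]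
    [NormedSpace 𝕜 X] (φ : ℝ → X →L[𝕜] 𝕜) (hnull : ∀ x, volume {t : ℝ | φ t x ≠ 0} = 0)
    (hfree : ∀ F : Finset ℝ → Set ℝ, (∀ s, volume (F s) = 0) →
      ∃ g : ℕ → ℝ, Function.Injective g ∧
        ∀ (S : Finset ℕ) (j : ℕ), j ∉ S → g j ∉ F (S.image g)) :
    ∃ g : ℕ → ℝ, Function.Injective g ∧ ∀ (S : Finset ℕ) (v : X →L[𝕜] 𝕜) (r : ℝ),
      v ∈ Submodule.span 𝕜 (φ '' (g '' S)) → r < ‖v‖ →
      ∃ x : X, ‖x‖ ≤ 1 ∧ (∀ j ∉ S, φ (g j) x = 0) ∧ r < ‖v x‖ := by
  classical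
  -- dense sequences in the finite spans and almost norming vectors
  have hsep : ∀ s : Finset ℝ, ∃ v : ℕ → Submodule.span 𝕜 (φ '' (s : Set ℝ)), DenseRange v := by
    intro s
    have : FiniteDimensional 𝕜 (Submodule.span 𝕜 (φ '' (s : Set ℝ))) :=
      FiniteDimensional.span_of_finite 𝕜 (s.finite_toSet.image φ)
    have : ProperSpace (Submodule.span 𝕜 (φ '' (s : Set ℝ))) :=
      FiniteDimensional.proper 𝕜 (Submodule.span 𝕜 (φ '' (s : Set ℝ)))
    exact ⟨TopologicalSpace.denseSeq _, TopologicalSpace.denseRange_denseSeq _⟩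
  choose v hv using hsep
  have hx : ∀ (s : Finset ℝ) (n m : ℕ), ∃ x : X, ‖x‖ ≤ 1 ∧
      ‖(v s n : X →L[𝕜] 𝕜)‖ - 1 / (m + 1 : ℝ) < ‖(v s n : X →L[𝕜] 𝕜) x‖ := by
    intro s n m
    have hlt : ‖(v s n : X →L[𝕜] 𝕜)‖ - 1 / (m + 1 : ℝ) < ‖(v s n : X →L[𝕜] 𝕜)‖ := by
      have : (0 : ℝ) < 1 / (m + 1 : ℝ) := by positivity
      linarith only [this]
    obtain ⟨x, hx1, hx2⟩ := ContinuousLinearMap.exists_lt_apply_of_lt_opNorm _ hlt
    exact ⟨x, hx1.le, hx2⟩
  choose x hx1 hx2 using hx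
  let F : Finset ℝ → Set ℝ := fun s => ⋃ n : ℕ, ⋃ m : ℕ, {t | φ t (x s n m) ≠ 0}
  have hF : ∀ s, volume (F s) = 0 := fun s =>
    measure_iUnion_null fun n => measure_iUnion_null fun m => hnull _
  obtain ⟨g, hg1, hg2⟩ := hfree F hF
  refine ⟨g, hg1, fun S w r hw hr => ?_⟩
  set s : Finset ℝ := S.image g with hs
  have hw' : w ∈ Submodule.span 𝕜 (φ '' (s : Set ℝ)) := by
    rw [hs, Finset.coe_image]; exact hw
  obtain ⟨m, hm⟩ : ∃ m : ℕ, 1 / (m + 1 : ℝ) < (‖w‖ - r) / 3 :=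
    exists_nat_one_div_lt (by linarith only [hr])
  obtain ⟨n, hn⟩ := (hv s).exists_dist_lt (⟨w, hw'⟩ : Submodule.span 𝕜 (φ '' (s : Set ℝ)))
    (show 0 < (‖w‖ - r) / 3 by linarith only [hr])
  have hn' : ‖w - (v s n : X →L[𝕜] 𝕜)‖ < (‖w‖ - r) / 3 := by
    rw [Subtype.dist_eq, dist_eq_norm] at hn
    exact hn
  refine ⟨x s n m, hx1 s n m, ?_, ?_⟩
  · intro j hj
    by_contra hcon
    apply hg2 S j hj
    exact mem_iUnion.2 ⟨n, mem_iUnion.2 ⟨m, hcon⟩⟩
  · have h1 := hx2 s n m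
    have h2 : ‖w‖ - (‖w‖ - r) / 3 < ‖(v s n : X →L[𝕜] 𝕜)‖ := by
      have := norm_sub_norm_le w (v s n : X →L[𝕜] 𝕜)
      linarith only [hn', this]
    have h3 : ‖(v s n : X →L[𝕜] 𝕜) (x s n m)‖ - (‖w‖ - r) / 3 ≤ ‖w (x s n m)‖ := by
      have h4 : ‖(w - (v s n : X →L[𝕜] 𝕜)) (x s n m)‖ ≤ (‖w‖ - r) / 3 * 1 := by
        refine ((w - (v s n : X →L[𝕜] 𝕜)).le_opNorm _).trans ?_
        exact mul_le_mul hn'.le (hx1 s n m) (norm_nonneg _) (by linarith only [hr])
      have h5 := norm_sub_norm_le ((v s n : X →L[𝕜] 𝕜) (x s n m)) (w (x s n m))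
      have h6 : (v s n : X →L[𝕜] 𝕜) (x s n m) - w (x s n m) =
        -((w - (v s n : X →L[𝕜] 𝕜)) (x s n m)) := by simp
      rw [h6, norm_neg] at h5
      linarith only [h4, h5]
    linarith only [hm, h1, h2, h3]

/-- Combined form used for the theorem on free sets. -/
theorem exists_family_sequence {𝕜 : Type*} [RCLike 𝕜] {X : Type*} [NormedAddCommGroup X]
    [NormedSpace 𝕜 X] [CompleteSpace X] (hinf : ¬ FiniteDimensional 𝕜 X)
    (hno : ¬ ∃ M : Submodule 𝕜 X, IsClosed (M : Set X) ∧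
      TopologicalSpace.SeparableSpace (X ⧸ M) ∧ ¬ FiniteDimensional 𝕜 (X ⧸ M))
    (hfree : ∀ F : Finset ℝ → Set ℝ, (∀ s, volume (F s) = 0) →
      ∃ g : ℕ → ℝ, Function.Injective g ∧
        ∀ (S : Finset ℕ) (j : ℕ), j ∉ S → g j ∉ F (S.image g)) :
    ∃ φ : ℕ → X →L[𝕜] 𝕜, (∀ n, ‖φ n‖ = 1) ∧
      ∀ (S : Finset ℕ) (a : ℕ → 𝕜) (η : ℝ), 0 < η →
        ∃ x : X, ‖x‖ ≤ 1 ∧ (∀ j ∉ S, φ j x = 0) ∧
          ‖∑ i ∈ S, a i • φ i‖ - η ≤ ‖(∑ i ∈ S, a i • φ i) x‖ := by
  obtain ⟨φ, hφ1, hφ2⟩ := exists_null_family hinf hno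
  obtain ⟨g, -, hg⟩ := exists_normed_sequence φ hφ2 hfree
  refine ⟨fun n => φ (g n), fun n => hφ1 _, fun S a η hη => ?_⟩
  have hmem : ∑ i ∈ S, a i • φ (g i) ∈ Submodule.span 𝕜 (φ '' (g '' (S : Set ℕ))) := by
    refine Submodule.sum_mem _ fun i hi => Submodule.smul_mem _ _ (Submodule.subset_span ?_)
    exact ⟨g i, ⟨i, hi, rfl⟩, rfl⟩
  obtain ⟨x, hx1, hx2, hx3⟩ := hg S (∑ i ∈ S, a i • φ (g i))
    (‖∑ i ∈ S, a i • φ (g i)‖ - η) hmem (by linarith)
  exact ⟨x, hx1, hx2, hx3.le⟩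

end Vale.Agent.P129
end
end

section

section

open Filter Topology Set

namespace Vale.Agent.P129

section

variable {𝕜 : Type*} [RCLike 𝕜] {X : Type*} [NormedAddCommGroup X] [NormedSpace 𝕜 X]

/-- Approximate interpolation by vectors annihilated by the other functionals. -/
lemma exists_approx_interpolation (φ : ℕ → X →L[𝕜] 𝕜) (S : Finset ℕ)
    (H : ∀ (a : ℕ → 𝕜) (η : ℝ), 0 < η → ∃ x, ‖x‖ ≤ 1 ∧ (∀ j ∉ S, φ j x = 0) ∧
      ‖∑ i ∈ S, a i • φ i‖ - η ≤ ‖(∑ i ∈ S, a i • φ i) x‖)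
    (t : ℝ) (ht : 0 ≤ t) (c : ℕ → 𝕜)
    (hc : ∀ a : ℕ → 𝕜, ‖∑ i ∈ S, a i * c i‖ ≤ t * ‖∑ i ∈ S, a i • φ i‖) (η : ℝ) (hη : 0 < η) :
    ∃ z : X, ‖z‖ ≤ t ∧ (∀ j ∉ S, φ j z = 0) ∧ ∀ i ∈ S, ‖φ i z - c i‖ ≤ η := by
  classical
  let A : Set (S → 𝕜) := {y | ∃ z : X, ‖z‖ ≤ t ∧ (∀ j ∉ S, φ j z = 0) ∧ ∀ i : S, y i = φ i z}
  have hA : Convex ℝ A := by
    rintro y₁ ⟨z₁, h1, h2, h3⟩ y₂ ⟨z₂, k1, k2, k3⟩ a b ha hb hab
    refine ⟨(a : 𝕜) • z₁ + (b : 𝕜) • z₂, ?_, ?_, ?_⟩
    · refine (norm_add_le _ _).trans ?_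
      rw [norm_smul, norm_smul, RCLike.norm_ofReal, RCLike.norm_ofReal, abs_of_nonneg ha,
        abs_of_nonneg hb]
      calc a * ‖z₁‖ + b * ‖z₂‖ ≤ a * t + b * t :=
            add_le_add (mul_le_mul_of_nonneg_left h1 ha) (mul_le_mul_of_nonneg_left k1 hb)
        _ = t := by rw [← add_mul, hab, one_mul]
    · intro j hj
      rw [map_add, map_smul, map_smul, h2 j hj, k2 j hj, smul_zero, smul_zero, add_zero]
    · intro i
      rw [Pi.add_apply, Pi.smul_apply, Pi.smul_apply, h3 i, k3 i, map_add, map_smul, map_smul,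
        RCLike.real_smul_eq_coe_mul, RCLike.real_smul_eq_coe_mul, smul_eq_mul, smul_eq_mul]
  let c' : S → 𝕜 := fun i => c i
  have hmem : c' ∈ closure A := by
    by_contra hcon
    obtain ⟨f, u, hf1, hf2⟩ := RCLike.geometric_hahn_banach_closed_point (𝕜 := 𝕜)
      hA.closure isClosed_closure hcon
    let a : ℕ → 𝕜 := fun i => if h : i ∈ S then f (Pi.single ⟨i, h⟩ 1) else 0
    have hfa : ∀ d : ℕ → 𝕜, f (fun i : S => d i) = ∑ i ∈ S, a i * d i := by
      intro d
      have h1 : (fun i : S => d i) = ∑ i : S, d i • (Pi.single i (1 : 𝕜) : S → 𝕜) := by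
        ext j
        rw [Finset.sum_apply]
        simp only [Finset.univ_eq_attach, Pi.smul_apply, Pi.single_apply, smul_eq_mul, mul_ite, mul_one, mul_zero, Finset.sum_ite_eq, Finset.mem_attach, ↓reduceIte]
      rw [h1, map_sum, ← Finset.sum_coe_sort S (fun i => a i * d i)]
      refine Finset.sum_congr rfl fun i _ => ?_
      rw [map_smul, smul_eq_mul, mul_comm]
      congr 1
      simp only [a]
      rw [dif_pos i.2]
    set F : X →L[𝕜] 𝕜 := ∑ i ∈ S, a i • φ i with hF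
    have hFz : ∀ z : X, F z = ∑ i ∈ S, a i * φ i z := by
      intro z
      rw [hF, sum_apply]
      rfl
    have hz : ∀ z : X, ‖z‖ ≤ t → (∀ j ∉ S, φ j z = 0) → RCLike.re (F z) < u := by
      intro z h1 h2
      have h3 : (fun i : S => φ i z) ∈ A := ⟨z, h1, h2, fun i => rfl⟩
      have h4 := hf1 _ (subset_closure h3)
      rwa [hfa (fun i => φ i z), ← hFz] at h4
    have h1 : t * ‖F‖ ≤ u := by
      refine le_of_forall_pos_le_add fun ε hε => ?_
      obtain ⟨x, hx1, hx2, hx3⟩ := H a (ε / (t + 1)) (by (clear * - hε ht; positivity))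
      -- rotate
      obtain ⟨ω, hω1, hω2⟩ : ∃ ω : 𝕜, ‖ω‖ = 1 ∧ ω * F x = ((‖F x‖ : ℝ) : 𝕜) := by
        rcases eq_or_ne (F x) 0 with h | h
        · exact ⟨1, by simp, by rw [h]; simp only [mul_zero, norm_zero, map_zero]⟩
        · have hn : ‖F x‖ ≠ 0 := norm_ne_zero_iff.2 h
          refine ⟨(starRingEnd 𝕜) (F x) * ((‖F x‖⁻¹ : ℝ) : 𝕜), ?_, ?_⟩
          · rw [norm_mul, RCLike.norm_conj, RCLike.norm_ofReal, abs_of_nonneg (by positivity)]
            exact mul_inv_cancel₀ hn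
          · have h2 : (starRingEnd 𝕜) (F x) * F x = ((‖F x‖ ^ 2 : ℝ) : 𝕜) := by
              rw [RCLike.conj_mul]
              push_cast
              rfl
            calc (starRingEnd 𝕜) (F x) * ((‖F x‖⁻¹ : ℝ) : 𝕜) * F x
                = ((starRingEnd 𝕜) (F x) * F x) * ((‖F x‖⁻¹ : ℝ) : 𝕜) := by ring
              _ = ((‖F x‖ ^ 2 * ‖F x‖⁻¹ : ℝ) : 𝕜) := by rw [h2]; push_cast; ring
              _ = ((‖F x‖ : ℝ) : 𝕜) := by
                  congr 1
                  field_simp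
      have h2 := hz (((t : ℝ) : 𝕜) • ω • x) (by
        rw [norm_smul, norm_smul, hω1, one_mul, RCLike.norm_ofReal, abs_of_nonneg ht]
        exact mul_le_of_le_one_right ht hx1) (by
        intro j hj
        rw [map_smul, map_smul, hx2 j hj, smul_zero, smul_zero])
      have h2' : F (((t : ℝ) : 𝕜) • ω • x) = ((t * ‖F x‖ : ℝ) : 𝕜) := by
        rw [(F).map_smul, (F).map_smul, smul_eq_mul, smul_eq_mul, hω2, ← RCLike.ofReal_mul]
      rw [h2', RCLike.ofReal_re] at h2
      have h3 : t * (‖F‖ - ε / (t + 1)) ≤ t * ‖F x‖ := mul_le_mul_of_nonneg_left hx3 ht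
      have h4 : t * (ε / (t + 1)) ≤ ε := by
        rw [mul_div_assoc', div_le_iff₀ (by (clear * - ht; positivity))]
        nlinarith only [hε]
      nlinarith only [h2, h3, h4]
    have h2 : RCLike.re (f c') ≤ t * ‖F‖ := by
      refine (RCLike.re_le_norm _).trans ?_
      rw [show c' = fun i : S => c i from rfl, hfa c]
      exact hc a
    linarith
  obtain ⟨y, ⟨z, hz1, hz2, hz3⟩, hy⟩ := Metric.mem_closure_iff.1 hmem η hη
  refine ⟨z, hz1, hz2, fun i hi => ?_⟩
  have h1 : dist (c' ⟨i, hi⟩) (y ⟨i, hi⟩) ≤ dist c' y := dist_le_pi_dist c' y ⟨i, hi⟩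
  rw [hz3 ⟨i, hi⟩, dist_comm, dist_eq_norm] at h1
  exact h1.trans hy.le

/-- The case where all vectors have small norm on the tails of the sequence. -/
theorem exists_separable_quotient_of_alpha [CompleteSpace X] (φ : ℕ → X →L[𝕜] 𝕜)
    (hφ1 : ∀ n, ‖φ n‖ = 1)
    (H : ∀ (S : Finset ℕ) (a : ℕ → 𝕜) (η : ℝ), 0 < η → ∃ x, ‖x‖ ≤ 1 ∧ (∀ j ∉ S, φ j x = 0) ∧
      ‖∑ i ∈ S, a i • φ i‖ - η ≤ ‖(∑ i ∈ S, a i • φ i) x‖)
    (hα : ∀ (x : X) (ε : ℝ), 0 < ε → ∃ n : ℕ, ∀ (S : Finset ℕ) (a : ℕ → 𝕜), (∀ i ∈ S, n ≤ i) →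
      ‖(∑ i ∈ S, a i • φ i) x‖ ≤ ε * ‖∑ i ∈ S, a i • φ i‖) :
    ∃ M : Submodule 𝕜 X, IsClosed (M : Set X) ∧ TopologicalSpace.SeparableSpace (X ⧸ M) ∧
      ¬ FiniteDimensional 𝕜 (X ⧸ M) := by
  classical
  refine exists_separable_quotient_of_unbounded (fun k => ((k : ℝ) : 𝕜) • φ k) ?_ ?_
  · intro R
    obtain ⟨k, hk⟩ := exists_nat_gt R
    refine ⟨k, ?_⟩
    rw [norm_smul, hφ1, mul_one, RCLike.norm_ofReal]
    exact hk.trans_le (le_abs_self _)
  · intro x
    rw [Metric.mem_closure_iff]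
    intro ε hε
    -- the tails
    choose N hN using fun k : ℕ => hα x (ε / 4 * (1 / 2 : ℝ) ^ k) (by positivity)
    let n : ℕ → ℕ := fun k => Nat.rec (N 0) (fun k m => max (m + 1) (N (k + 1))) k
    have hn : ∀ k, n (k + 1) = max (n k + 1) (N (k + 1)) := fun k => rfl
    have hnmono : StrictMono n := strictMono_nat_of_lt_succ fun k => by
      rw [hn]; exact lt_of_lt_of_le (Nat.lt_succ_self _) (le_max_left _ _)
    have hnN : ∀ k, N k ≤ n k := by
      intro k
      cases k with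
      | zero => exact le_rfl
      | succ k => rw [hn]; exact le_max_right _ _
    have hz : ∀ k : ℕ, ∃ z : X, ‖z‖ ≤ ε / 4 * (1 / 2 : ℝ) ^ k ∧
        (∀ j ∉ Finset.Ico (n k) (n (k + 1)), φ j z = 0) ∧
        ∀ i ∈ Finset.Ico (n k) (n (k + 1)), ‖φ i z - φ i x‖ ≤ 1 / (n (k + 1) : ℝ) := by
      intro k
      refine exists_approx_interpolation φ (Finset.Ico (n k) (n (k + 1))) (H _) _ (by positivity)
        (fun i => φ i x) ?_ _ ?_
      · intro a
        have h1 := hN k (Finset.Ico (n k) (n (k + 1))) a (fun i hi =>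
          (hnN k).trans (Finset.mem_Ico.1 hi).1)
        rwa [sum_apply] at h1
      · have : 0 < n (k + 1) := lt_of_le_of_lt (Nat.zero_le _) (hnmono (Nat.lt_succ_self k))
        positivity
    choose z hz1 hz2 hz3 using hz
    have hsum : Summable z := by
      refine Summable.of_norm_bounded (g := fun k => ε / 4 * (1 / 2 : ℝ) ^ k) ?_ hz1
      exact (summable_geometric_of_lt_one (by norm_num) (by norm_num)).mul_left _
    refine ⟨x - ∑' k, z k, ?_, ?_⟩
    · -- boundedness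
      have hφz : ∀ i, φ i (∑' k, z k) = ∑' k, φ i (z k) := fun i => (φ i).map_tsum hsum
      have hbig : ∀ i ≥ n 0, (i : ℝ) * ‖φ i (x - ∑' k, z k)‖ ≤ 1 := by
        intro i hi
        -- the block of i
        obtain ⟨k, hk1, hk2⟩ : ∃ k, n k ≤ i ∧ i < n (k + 1) := by
          have hex : ∃ m, i < n m := ⟨i + 1, lt_of_lt_of_le (Nat.lt_succ_self i) (hnmono.le_apply)⟩
          have h1 := Nat.find_spec hex
          have h2 : Nat.find hex ≠ 0 := by
            intro h0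
            rw [h0] at h1
            omega
          obtain ⟨k, hk⟩ := Nat.exists_eq_succ_of_ne_zero h2
          refine ⟨k, ?_, ?_⟩
          · have := Nat.find_min hex (m := k) (by omega)
            omega
          · rw [← Nat.succ_eq_add_one, ← hk]; exact h1
        have hother : ∀ l, l ≠ k → φ i (z l) = 0 := by
          intro l hl
          refine hz2 l i ?_
          rw [Finset.mem_Ico]
          rintro ⟨h1, h2⟩
          rcases lt_or_gt_of_ne hl with h | h
          · have : n (l + 1) ≤ n k := hnmono.monotone h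
            omega
          · have : n (k + 1) ≤ n l := hnmono.monotone h
            omega
        have h1 : φ i (x - ∑' k, z k) = -(φ i (z k) - φ i x) := by
          rw [map_sub, hφz, tsum_eq_single k hother]
          ring
        rw [h1, norm_neg]
        have h2 := hz3 k i (Finset.mem_Ico.2 ⟨hk1, hk2⟩)
        have h3 : (i : ℝ) ≤ n (k + 1) := by exact_mod_cast hk2.le
        have h4 : (0 : ℝ) < n (k + 1) := by
          have : 0 < n (k + 1) := lt_of_le_of_lt (Nat.zero_le _) hk2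
          exact_mod_cast this
        calc (i : ℝ) * ‖φ i (z k) - φ i x‖ ≤ n (k + 1) * (1 / (n (k + 1) : ℝ)) :=
              mul_le_mul h3 h2 (norm_nonneg _) h4.le
          _ = 1 := by (clear * - h4; field_simp)
      refine ⟨1 + ∑ i ∈ Finset.range (n 0), (i : ℝ) * ‖φ i (x - ∑' k, z k)‖, fun (i : ℕ) => ?_⟩
      have h1 : ‖(((i : ℝ) : 𝕜) • φ i) (x - ∑' k, z k)‖ = (i : ℝ) * ‖φ i (x - ∑' k, z k)‖ := by
        rw [smul_apply, norm_smul, RCLike.norm_ofReal, abs_of_nonneg (Nat.cast_nonneg i)]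
      show ‖(((i : ℝ) : 𝕜) • φ i) (x - ∑' k, z k)‖ ≤ _
      rw [h1]
      have h0 : 0 ≤ ∑ i ∈ Finset.range (n 0), (i : ℝ) * ‖φ i (x - ∑' k, z k)‖ :=
        Finset.sum_nonneg fun i _ => by (clear * -; positivity)
      rcases le_or_gt (n 0) i with hi | hi
      · linarith only [h0, hbig i hi]
      · have h2 := Finset.single_le_sum (f := fun i : ℕ => (i : ℝ) * ‖φ i (x - ∑' k, z k)‖)
          (fun i _ => by (clear * -; positivity)) (Finset.mem_range.2 hi)
        linarith only [h2]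
    · -- distance
      rw [dist_eq_norm, sub_sub_cancel]
      have h1 : ‖∑' k, z k‖ ≤ ∑' k, ε / 4 * (1 / 2 : ℝ) ^ k :=
        tsum_of_norm_bounded
          ((summable_geometric_of_lt_one (by norm_num) (by norm_num)).mul_left _).hasSum hz1
      rw [tsum_mul_left, tsum_geometric_of_lt_one (by norm_num) (by norm_num)] at h1
      norm_num at h1
      linarith only [hε, h1]

end

end Vale.Agent.P129
end
end

section

section

open Filter Topology

namespace Vale.Agent.P129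

section

variable {𝕜 : Type*} [RCLike 𝕜] {X : Type*} [NormedAddCommGroup X] [NormedSpace 𝕜 X]

/-- Splitting into four real parts. -/
lemma sum_norm_le_four (n : ℕ) (b : ℕ → 𝕜) (K : ℝ)
    (h : ∀ σ : 𝕜, ‖σ‖ ≤ 1 → ∑ k ∈ Finset.range n, max (RCLike.re (σ * b k)) 0 ≤ K) :
    ∑ k ∈ Finset.range n, ‖b k‖ ≤ 4 * K := by
  have hI : ‖(RCLike.I : 𝕜)‖ ≤ 1 := by
    rcases RCLike.I_eq_zero_or_im_I_eq_one (K := 𝕜) with h | h
    · rw [h]; simp only [norm_zero, zero_le_one]
    · exact (RCLike.norm_I_of_ne_zero (by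
        intro h0; rw [h0] at h; simp at h)).le
  have h1 := h 1 (by simp)
  have h2 := h (-1) (by simp)
  have h3 := h (RCLike.I) hI
  have h4 := h (-RCLike.I) (by rw [norm_neg]; exact hI)
  have key : ∀ k, ‖b k‖ ≤ max (RCLike.re (1 * b k)) 0 + max (RCLike.re (-1 * b k)) 0 +
      max (RCLike.re (RCLike.I * b k)) 0 + max (RCLike.re (-RCLike.I * b k)) 0 := by
    intro k
    have e0 : ‖b k‖ ≤ |RCLike.re (b k)| + |RCLike.im (b k)| := by
      rw [← sq_le_sq₀ (norm_nonneg _) (by positivity), ← RCLike.normSq_eq_def',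
        RCLike.normSq_apply]
      have h5 := abs_nonneg (RCLike.re (b k))
      have h6 := abs_nonneg (RCLike.im (b k))
      have h7 := abs_mul_abs_self (RCLike.re (b k))
      have h8 := abs_mul_abs_self (RCLike.im (b k))
      nlinarith only [h7, h8, h5, h6]
    refine e0.trans ?_
    have e1 : |RCLike.re (b k)| ≤ max (RCLike.re (1 * b k)) 0 + max (RCLike.re (-1 * b k)) 0 := by
      rw [one_mul, neg_one_mul, map_neg]
      rcases le_total 0 (RCLike.re (b k)) with h | h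
      · rw [abs_of_nonneg h]
        have := le_max_left (RCLike.re (b k)) 0
        have := le_max_right (-RCLike.re (b k)) 0
        (clear hI h1 h2 h3 h4 e0 h; linarith)
      · rw [abs_of_nonpos h]
        have := le_max_right (RCLike.re (b k)) 0
        have := le_max_left (-RCLike.re (b k)) 0
        (clear hI h1 h2 h3 h4 e0 h; linarith)
    have e2 : |RCLike.im (b k)| ≤ max (RCLike.re (RCLike.I * b k)) 0 +
        max (RCLike.re (-RCLike.I * b k)) 0 := by
      rw [neg_mul, map_neg, RCLike.I_mul_re, neg_neg]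
      rcases le_total 0 (RCLike.im (b k)) with h | h
      · rw [abs_of_nonneg h]
        have := le_max_right (-RCLike.im (b k)) 0
        have := le_max_left (RCLike.im (b k)) 0
        (clear hI h1 h2 h3 h4 e0 e1 h; linarith)
      · rw [abs_of_nonpos h]
        have := le_max_left (-RCLike.im (b k)) 0
        have := le_max_right (RCLike.im (b k)) 0
        (clear hI h1 h2 h3 h4 e0 e1 h; linarith)
    linarith
  calc ∑ k ∈ Finset.range n, ‖b k‖ ≤ ∑ k ∈ Finset.range n, (max (RCLike.re (1 * b k)) 0 +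
        max (RCLike.re (-1 * b k)) 0 + max (RCLike.re (RCLike.I * b k)) 0 +
        max (RCLike.re (-RCLike.I * b k)) 0) := Finset.sum_le_sum fun k _ => key k
    _ = _ + _ + _ + _ := by
        rw [Finset.sum_add_distrib, Finset.sum_add_distrib, Finset.sum_add_distrib]
    _ ≤ K + K + K + K := by linarith
    _ = 4 * K := by ring

/-- Combinations of functionals vanishing at a point vanish there. -/
lemma apply_eq_zero_of_mem_span {φ : ℕ → X →L[𝕜] 𝕜} {S : Set ℕ} {u : X →L[𝕜] 𝕜}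
    (hu : u ∈ Submodule.span 𝕜 (φ '' S)) {x : X} (hx : ∀ i ∈ S, φ i x = 0) : u x = 0 := by
  induction hu using Submodule.span_induction with
  | mem w hw => obtain ⟨i, hi, rfl⟩ := hw; exact hx i hi
  | zero => rfl
  | add v w _ _ h1 h2 => rw [add_apply, h1, h2, add_zero]
  | smul a v _ h1 => rw [smul_apply, h1, smul_zero]

/-- Second alternative: a point which is not asymptotically small on the span of the tails yields
an `ℓ¹`-sequence of functionals. -/
theorem exists_l1_of_beta (φ : ℕ → X →L[𝕜] 𝕜)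
    (H : ∀ (S : Finset ℕ) (a : ℕ → 𝕜) (η : ℝ), 0 < η → ∃ x : X, ‖x‖ ≤ 1 ∧
      (∀ j ∉ S, φ j x = 0) ∧ ‖∑ i ∈ S, a i • φ i‖ - η ≤ ‖(∑ i ∈ S, a i • φ i) x‖)
    (x₀ : X) (δ : ℝ) (hδ : 0 < δ)
    (hβ : ∀ n : ℕ, ∃ (S : Finset ℕ) (a : ℕ → 𝕜), (∀ i ∈ S, n ≤ i) ∧
      δ * ‖∑ i ∈ S, a i • φ i‖ < ‖(∑ i ∈ S, a i • φ i) x₀‖) :
    ∃ (u : ℕ → X →L[𝕜] 𝕜) (c : ℝ), 0 < c ∧ (∀ k, ‖u k‖ ≤ 1) ∧
      ∀ (n : ℕ) (a : ℕ → 𝕜), c * ∑ k ∈ Finset.range n, ‖a k‖ ≤
        ‖∑ k ∈ Finset.range n, a k • u k‖ := by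
  classical
  -- normalised blocks
  have H1 : ∀ n : ℕ, ∃ (m : ℕ) (u : X →L[𝕜] 𝕜), n ≤ m ∧
      u ∈ Submodule.span 𝕜 (φ '' (Finset.Ico n m : Set ℕ)) ∧ ‖u‖ ≤ 1 ∧
      ∃ t : ℝ, δ < t ∧ u x₀ = (t : 𝕜) := by
    intro n
    obtain ⟨S, a, hS, hw⟩ := hβ n
    set w : X →L[𝕜] 𝕜 := ∑ i ∈ S, a i • φ i with hwdef
    have hw0 : 0 < ‖w‖ := by
      rcases eq_or_lt_of_le (norm_nonneg w) with h | h
      · exfalso
        have : w = 0 := norm_eq_zero.1 h.symm
        rw [this] at hw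
        simp at hw
      · exact h
    obtain ⟨c, hc1, hc2⟩ := RCLike.exists_norm_eq_mul_self (w x₀)
    refine ⟨max n (S.sup id + 1), (c * ((‖w‖⁻¹ : ℝ) : 𝕜)) • w, le_max_left _ _, ?_, ?_,
      ‖w‖⁻¹ * ‖w x₀‖, ?_, ?_⟩
    · refine Submodule.smul_mem _ _ (Submodule.sum_mem _ fun i hi => Submodule.smul_mem _ _
        (Submodule.subset_span ⟨i, ?_, rfl⟩))
      have : i ≤ S.sup id := Finset.le_sup (f := id) hi
      have h2 := hS i hi
      simp only [Finset.coe_Ico, Set.mem_Ico, lt_max_iff]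
      exact ⟨h2, Or.inr (by omega)⟩
    · rw [norm_smul, norm_mul, hc1, one_mul, RCLike.norm_ofReal, abs_of_pos (by positivity),
        inv_mul_cancel₀ hw0.ne']
    · rw [lt_inv_mul_iff₀ hw0, mul_comm]; exact hw
    · rw [smul_apply, smul_eq_mul, mul_right_comm, ← hc2, RCLike.ofReal_mul, mul_comm]
  choose nx v h1 h2 h3 t h4 h5 using H1
  let N : ℕ → ℕ := fun k => Nat.rec 0 (fun _ n => nx n) k
  have hN : ∀ k, N (k + 1) = nx (N k) := fun k => rfl
  have hmono : Monotone N := monotone_nat_of_le_succ fun k => by rw [hN]; exact h1 _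
  let u : ℕ → X →L[𝕜] 𝕜 := fun k => v (N k)
  have hu : ∀ k, u k ∈ Submodule.span 𝕜 (φ '' (Finset.Ico (N k) (N (k + 1)) : Set ℕ)) := by
    intro k; rw [hN]; exact h2 _
  have hdisj : ∀ k l i, k ≠ l → i ∈ Finset.Ico (N k) (N (k + 1)) →
      i ∉ Finset.Ico (N l) (N (l + 1)) := by
    intro k l i hkl hi hi'
    rw [Finset.mem_Ico] at hi hi'
    rcases lt_or_gt_of_ne hkl with h | h
    · have := hmono (show k + 1 ≤ l from h)
      omega
    · have := hmono (show l + 1 ≤ k from h)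
      omega
  -- suppression
  have hsup : ∀ (n : ℕ) (b : ℕ → 𝕜) (T : Finset ℕ), T ⊆ Finset.range n →
      ‖∑ k ∈ T, b k • u k‖ ≤ ‖∑ k ∈ Finset.range n, b k • u k‖ := by
    intro n b T hT
    refine le_of_forall_pos_le_add fun η hη => ?_
    set S : Finset ℕ := T.biUnion fun k => Finset.Ico (N k) (N (k + 1)) with hS
    have hmem : ∑ k ∈ T, b k • u k ∈ Submodule.span 𝕜 (φ '' (S : Set ℕ)) := by
      refine Submodule.sum_mem _ fun k hk => Submodule.smul_mem _ _ ?_
      refine Submodule.span_mono (Set.image_mono ?_) (hu k)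
      intro i hi
      exact Finset.mem_coe.2 (Finset.mem_biUnion.2 ⟨k, hk, Finset.mem_coe.1 hi⟩)
    rw [Submodule.mem_span_image_finset_iff_exists_fun'] at hmem
    obtain ⟨a, ha⟩ := hmem
    obtain ⟨x, hx1, hx2, hx3⟩ := H S a η hη
    rw [ha] at hx3
    have e1 : (∑ k ∈ Finset.range n, b k • u k) x = (∑ k ∈ T, b k • u k) x := by
      rw [FunLike.coe_sum, FunLike.coe_sum, Finset.sum_apply, Finset.sum_apply]
      refine (Finset.sum_subset hT fun k _ hk => ?_).symm
      have : u k x = 0 := by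
        refine apply_eq_zero_of_mem_span (hu k) fun i hi => hx2 i fun hi' => ?_
        obtain ⟨l, hl, hl'⟩ := Finset.mem_biUnion.1 hi'
        exact hdisj k l i (fun h => hk (h ▸ hl)) (Finset.mem_coe.1 hi) hl'
      rw [smul_apply, this, smul_zero]
    calc ‖∑ k ∈ T, b k • u k‖ ≤ ‖(∑ k ∈ Finset.range n, b k • u k) x‖ + η := by
          rw [e1]; linarith only [hx3]
      _ ≤ ‖∑ k ∈ Finset.range n, b k • u k‖ * 1 + η := by
          gcongr
          exact (ContinuousLinearMap.le_opNorm _ _).trans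
            (mul_le_mul_of_nonneg_left hx1 (norm_nonneg _))
      _ = _ := by rw [mul_one]
  refine ⟨u, δ / (4 * (‖x₀‖ + 1)), by positivity, fun k => h3 _, fun n b => ?_⟩
  have hx0 : (0 : ℝ) < ‖x₀‖ + 1 := by positivity
  have key := sum_norm_le_four n b ((‖x₀‖ + 1) / δ * ‖∑ k ∈ Finset.range n, b k • u k‖) ?_
  · have e1 : δ / (4 * (‖x₀‖ + 1)) * (4 * ((‖x₀‖ + 1) / δ *
        ‖∑ k ∈ Finset.range n, b k • u k‖)) = ‖∑ k ∈ Finset.range n, b k • u k‖ := by
      field_simp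
    rw [← e1]
    exact mul_le_mul_of_nonneg_left key (by positivity)
  · intro σ hσ
    set T : Finset ℕ := (Finset.range n).filter fun k => 0 < RCLike.re (σ * b k) with hT
    have e1 : ∑ k ∈ Finset.range n, max (RCLike.re (σ * b k)) 0 =
        ∑ k ∈ T, RCLike.re (σ * b k) := by
      rw [hT, Finset.sum_filter]
      refine Finset.sum_congr rfl fun k _ => ?_
      by_cases h : 0 < RCLike.re (σ * b k)
      · rw [if_pos h, max_eq_left h.le]
      · rw [if_neg h, max_eq_right (not_lt.1 h)]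
    have e2 : δ * ∑ k ∈ T, RCLike.re (σ * b k) ≤
        RCLike.re (σ * (∑ k ∈ T, b k • u k) x₀) := by
      rw [FunLike.coe_sum, Finset.sum_apply, Finset.mul_sum, Finset.mul_sum, map_sum]
      refine Finset.sum_le_sum fun k hk => ?_
      have hk' : 0 < RCLike.re (σ * b k) := (Finset.mem_filter.1 hk).2
      have e3 : σ * (b k • u k) x₀ = ((t (N k) : ℝ) : 𝕜) * (σ * b k) := by
        rw [smul_apply, smul_eq_mul, show u k x₀ = ((t (N k) : ℝ) : 𝕜) from h5 _]
        ring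
      rw [e3, RCLike.re_ofReal_mul]
      exact mul_le_mul_of_nonneg_right (h4 _).le hk'.le
    have e3 : RCLike.re (σ * (∑ k ∈ T, b k • u k) x₀) ≤
        ‖∑ k ∈ Finset.range n, b k • u k‖ * (‖x₀‖ + 1) := by
      refine (RCLike.re_le_norm _).trans ?_
      rw [norm_mul]
      calc ‖σ‖ * ‖(∑ k ∈ T, b k • u k) x₀‖ ≤ 1 * ‖(∑ k ∈ T, b k • u k) x₀‖ :=
            mul_le_mul_of_nonneg_right hσ (norm_nonneg _)
        _ ≤ ‖∑ k ∈ T, b k • u k‖ * ‖x₀‖ := by
            rw [one_mul]; exact ContinuousLinearMap.le_opNorm _ _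
        _ ≤ ‖∑ k ∈ Finset.range n, b k • u k‖ * (‖x₀‖ + 1) :=
            mul_le_mul (hsup n b T (Finset.filter_subset _ _)) (by linarith only []) (norm_nonneg _)
              (norm_nonneg _)
    rw [e1, div_mul_eq_mul_div, le_div_iff₀ hδ]
    linarith only [e2, e3]

end

end Vale.Agent.P129
end
end

section

section

open Filter Topology

namespace Vale.Agent.P129

/-- Building a sequence whose initial segments have prescribed properties. -/
lemma exists_seq_of_step {α : Type*} (Q : ℕ → (ℕ → α) → Prop)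
    (hloc : ∀ k x y, (∀ i < k, x i = y i) → Q k x → Q k y) (x0 : ℕ → α) (h0 : Q 0 x0)
    (step : ∀ k x, Q k x → ∃ y, Q (k + 1) (Function.update x k y)) : ∃ x, ∀ k, Q k x := by
  classical
  have : Nonempty α := ⟨x0 0⟩
  choose! y hy using step
  let s : ℕ → (ℕ → α) := fun k => Nat.rec x0 (fun k x => Function.update x k (y k x)) k
  have hs : ∀ k, s (k + 1) = Function.update (s k) k (y k (s k)) := fun k => rfl
  have hQ : ∀ k, Q k (s k) := by
    intro k
    induction k with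
    | zero => exact h0
    | succ k ih => rw [hs]; exact hy k _ ih
  refine ⟨fun i => s (i + 1) i, fun k => hloc k (s k) _ ?_ (hQ k)⟩
  induction k with
  | zero => intro i hi; omega
  | succ k ih =>
    intro i hi
    rcases Nat.lt_succ_iff_lt_or_eq.1 hi with h | h
    · rw [hs, Function.update_of_ne (by omega)]
      exact ih i h
    · subst h; rfl

section

variable {𝕜 : Type*} [RCLike 𝕜] {X : Type*} [NormedAddCommGroup X] [NormedSpace 𝕜 X]

/-- `u` is a combination of `f N, …, f (M - 1)` with coefficients of total modulus `t`. -/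
def InS (f : ℕ → X →L[𝕜] 𝕜) (N M : ℕ) (t : ℝ) (u : X →L[𝕜] 𝕜) : Prop :=
  ∃ b : ℕ → 𝕜, (∀ i, i < N → b i = 0) ∧ (∀ i, M ≤ i → b i = 0) ∧
    ∑ i ∈ Finset.range M, ‖b i‖ = t ∧ u = ∑ i ∈ Finset.range M, b i • f i

lemma InS.mono {f : ℕ → X →L[𝕜] 𝕜} {N N' M M' : ℕ} {t : ℝ} {u : X →L[𝕜] 𝕜}
    (h : InS f N M t u) (hN : N' ≤ N) (hM : M ≤ M') : InS f N' M' t u := by
  obtain ⟨b, h1, h2, h3, h4⟩ := h
  refine ⟨b, fun i hi => h1 i (by omega), fun i hi => h2 i (by omega), ?_, ?_⟩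
  · rw [← h3]
    refine (Finset.sum_subset (Finset.range_subset_range.2 hM) fun i _ hi => ?_).symm
    rw [h2 i (by simpa using hi), norm_zero]
  · rw [h4]
    refine Finset.sum_subset (Finset.range_subset_range.2 hM) fun i _ hi => ?_
    rw [h2 i (by simpa using hi)]; exact zero_smul 𝕜 (f i)

lemma InS.smul {f : ℕ → X →L[𝕜] 𝕜} {N M : ℕ} {t : ℝ} {u : X →L[𝕜] 𝕜}
    (h : InS f N M t u) (c : 𝕜) : InS f N M (‖c‖ * t) (c • u) := by
  obtain ⟨b, h1, h2, h3, h4⟩ := h
  refine ⟨fun i => c * b i, fun i hi => by simp [h1 i hi], fun i hi => by simp [h2 i hi], ?_, ?_⟩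
  · rw [← h3, Finset.mul_sum]
    exact Finset.sum_congr rfl fun i _ => norm_mul _ _
  · rw [h4, Finset.smul_sum]
    exact Finset.sum_congr rfl fun i _ => smul_smul _ _ _

lemma InS.add {f : ℕ → X →L[𝕜] 𝕜} {N M L : ℕ} {t s : ℝ} {u v : X →L[𝕜] 𝕜}
    (h : InS f N M t u) (h' : InS f M L s v) (hN : N ≤ M) (hM : M ≤ L) :
    InS f N L (t + s) (u + v) := by
  obtain ⟨b, h1, h2, h3, h4⟩ := h
  obtain ⟨b', h1', h2', h3', h4'⟩ := h'
  have e3 : ∑ i ∈ Finset.range L, ‖b i‖ = t := by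
    rw [← h3]
    refine (Finset.sum_subset (Finset.range_subset_range.2 hM) fun i _ hi => ?_).symm
    rw [h2 i (by simpa using hi), norm_zero]
  have e4 : u = ∑ i ∈ Finset.range L, b i • f i := by
    rw [h4]
    refine Finset.sum_subset (Finset.range_subset_range.2 hM) fun i _ hi => ?_
    rw [h2 i (by simpa using hi)]; exact zero_smul 𝕜 (f i)
  refine ⟨fun i => b i + b' i, fun i hi => ?_, fun i hi => ?_, ?_, ?_⟩
  · show b i + b' i = 0
    rw [h1 i hi, h1' i (by omega), add_zero]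
  · show b i + b' i = 0
    rw [h2 i (by omega), h2' i hi, add_zero]
  · rw [← e3, ← h3', ← Finset.sum_add_distrib]
    refine Finset.sum_congr rfl fun i _ => ?_
    show ‖b i + b' i‖ = ‖b i‖ + ‖b' i‖
    rcases lt_or_ge i M with hi | hi
    · rw [h1' i hi, add_zero, norm_zero, add_zero]
    · rw [h2 i hi, zero_add, norm_zero, zero_add]
  · rw [e4, h4', ← Finset.sum_add_distrib]
    exact Finset.sum_congr rfl fun i _ => (add_smul _ _ _).symm

lemma InS.zero (f : ℕ → X →L[𝕜] 𝕜) (N : ℕ) : InS f N N 0 0 :=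
  ⟨fun _ => 0, fun _ _ => rfl, fun _ _ => rfl, by simp,
    (Finset.sum_eq_zero fun i _ => zero_smul 𝕜 (f i)).symm⟩

lemma InS.norm_le {f : ℕ → X →L[𝕜] 𝕜} (hf : ∀ i, ‖f i‖ ≤ 1) {N M : ℕ} {t : ℝ} {u : X →L[𝕜] 𝕜}
    (h : InS f N M t u) : ‖u‖ ≤ t := by
  obtain ⟨b, h1, h2, h3, h4⟩ := h
  rw [h4, ← h3]
  refine (norm_sum_le _ _).trans (Finset.sum_le_sum fun i _ => ?_)
  rw [norm_smul]
  exact mul_le_of_le_one_right (norm_nonneg _) (hf i)

lemma InS.le_norm {f : ℕ → X →L[𝕜] 𝕜} {c : ℝ}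
    (hc : ∀ (n : ℕ) (a : ℕ → 𝕜), c * ∑ i ∈ Finset.range n, ‖a i‖ ≤
      ‖∑ i ∈ Finset.range n, a i • f i‖) {N M : ℕ} {t : ℝ} {u : X →L[𝕜] 𝕜}
    (h : InS f N M t u) : c * t ≤ ‖u‖ := by
  obtain ⟨b, h1, h2, h3, h4⟩ := h
  rw [h4, ← h3]
  exact hc M b

/-- Sequences of normalised combinations of the `f i` moving to infinity. -/
def Adm (f g : ℕ → X →L[𝕜] 𝕜) : Prop := ∀ N, ∀ᶠ n in atTop, ∃ M, N ≤ M ∧ InS f N M 1 (g n)

/-- Every tail of `g` dominates a tail of `h` pointwise. -/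
def Dom (g h : ℕ → X →L[𝕜] 𝕜) : Prop :=
  ∀ N, ∀ᶠ n in atTop, ∀ (x : X) (r : ℝ), (∀ j ≥ N, ‖g j x‖ ≤ r) → ‖h n x‖ ≤ r

lemma Dom.refl (g : ℕ → X →L[𝕜] 𝕜) : Dom g g := fun N => by
  filter_upwards [eventually_ge_atTop N] with n hn x r h using h n hn

lemma Dom.trans {g h k : ℕ → X →L[𝕜] 𝕜} (h1 : Dom g h) (h2 : Dom h k) : Dom g k := by
  intro N
  obtain ⟨M, hM⟩ := eventually_atTop.1 (h1 N)
  filter_upwards [h2 M] with n hn x r h
  exact hn x r fun j hj => hM j hj x r h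

/-- The asymptotic size of a sequence of functionals on the unit ball. -/
noncomputable def osc (g : ℕ → X →L[𝕜] 𝕜) : ℝ :=
  sInf {r : ℝ | 0 ≤ r ∧ ∀ x : X, ‖x‖ ≤ 1 → ∀ᶠ n in atTop, ‖g n x‖ ≤ r}

lemma osc_nonneg (g : ℕ → X →L[𝕜] 𝕜) : 0 ≤ osc g := Real.sInf_nonneg fun _ hr => hr.1

lemma bddBelow_osc (g : ℕ → X →L[𝕜] 𝕜) :
    BddBelow {r : ℝ | 0 ≤ r ∧ ∀ x : X, ‖x‖ ≤ 1 → ∀ᶠ n in atTop, ‖g n x‖ ≤ r} :=
  ⟨0, fun _ hr => hr.1⟩

lemma Adm.mem_osc {f g : ℕ → X →L[𝕜] 𝕜} (hf : ∀ i, ‖f i‖ ≤ 1) (hg : Adm f g) :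
    (1 : ℝ) ∈ {r : ℝ | 0 ≤ r ∧ ∀ x : X, ‖x‖ ≤ 1 → ∀ᶠ n in atTop, ‖g n x‖ ≤ r} := by
  refine ⟨zero_le_one, fun x hx => ?_⟩
  filter_upwards [hg 0] with n hn
  obtain ⟨M, -, hM⟩ := hn
  calc ‖g n x‖ ≤ ‖g n‖ * ‖x‖ := (g n).le_opNorm x
    _ ≤ 1 * 1 := mul_le_mul (hM.norm_le hf) hx (norm_nonneg _) zero_le_one
    _ = 1 := one_mul 1

lemma eventually_of_osc_lt {f g : ℕ → X →L[𝕜] 𝕜} (hf : ∀ i, ‖f i‖ ≤ 1) (hg : Adm f g) {r : ℝ}
    (hr : osc g < r) {x : X} (hx : ‖x‖ ≤ 1) : ∀ᶠ n in atTop, ‖g n x‖ ≤ r := by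
  obtain ⟨s, hs, hsr⟩ := exists_lt_of_csInf_lt ⟨1, hg.mem_osc hf⟩ hr
  filter_upwards [hs.2 x hx] with n hn using hn.trans hsr.le

lemma exists_of_lt_osc {g : ℕ → X →L[𝕜] 𝕜} {r : ℝ} (h0 : 0 ≤ r)
    (hr : r < osc g) : ∃ x : X, ‖x‖ ≤ 1 ∧ ∃ᶠ n in atTop, r < ‖g n x‖ := by
  by_contra hcon
  push Not at hcon
  exact absurd (csInf_le (bddBelow_osc g) ⟨h0, hcon⟩) (not_le.2 hr)

lemma osc_mono {f g h : ℕ → X →L[𝕜] 𝕜} (hf : ∀ i, ‖f i‖ ≤ 1) (hg : Adm f g) (hd : Dom g h) :
    osc h ≤ osc g := by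
  refine csInf_le_csInf (bddBelow_osc h) ⟨1, hg.mem_osc hf⟩ fun r hr => ⟨hr.1, fun x hx => ?_⟩
  obtain ⟨N, hN⟩ := eventually_atTop.1 (hr.2 x hx)
  filter_upwards [hd N] with n hn using hn x r hN

/-- Diagonalisation. -/
lemma exists_diag {f : ℕ → X →L[𝕜] 𝕜} (G : ℕ → ℕ → X →L[𝕜] 𝕜) (hG : ∀ k, Adm f (G k))
    (hd : ∀ k, Dom (G k) (G (k + 1))) : ∃ g, Adm f g ∧ ∀ k, Dom (G k) g := by
  have hd' : ∀ k l, k ≤ l → Dom (G k) (G l) := by
    intro k l hkl
    induction l, hkl using Nat.le_induction with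
    | base => exact Dom.refl _
    | succ l _ ih => exact ih.trans (hd l)
  have h1 : ∀ n, ∃ m, (∃ M, n ≤ M ∧ InS f n M 1 (G n m)) ∧ ∀ k ≤ n,
      ∀ (x : X) (r : ℝ), (∀ j ≥ n, ‖G k j x‖ ≤ r) → ‖G n m x‖ ≤ r := by
    intro n
    have e1 : ∀ᶠ m in atTop, ∀ k ∈ Finset.range (n + 1),
        ∀ (x : X) (r : ℝ), (∀ j ≥ n, ‖G k j x‖ ≤ r) → ‖G n m x‖ ≤ r := by
      rw [Filter.eventually_all_finset]
      intro k hk
      exact hd' k n (by simpa only [Finset.mem_range, Order.lt_add_one_iff] using hk) n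
    obtain ⟨m, hm1, hm2⟩ := ((hG n n).and e1).exists
    exact ⟨m, hm1, fun k hk => hm2 k (by simpa only [Finset.mem_range, Order.lt_add_one_iff] using hk)⟩
  choose m hm1 hm2 using h1
  refine ⟨fun n => G n (m n), fun N => ?_, fun k N => ?_⟩
  · filter_upwards [eventually_ge_atTop N] with n hn
    obtain ⟨M, hM1, hM2⟩ := hm1 n
    exact ⟨M, hn.trans hM1, hM2.mono hn le_rfl⟩
  · filter_upwards [eventually_ge_atTop N, eventually_ge_atTop k] with n hn hk x r h
    exact hm2 n k hk x r fun j hj => h j (hn.trans hj)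

/-- A sequence whose asymptotic size cannot be lowered. -/
lemma exists_stable {f : ℕ → X →L[𝕜] 𝕜} (hf : ∀ i, ‖f i‖ ≤ 1) (hff : Adm f f) :
    ∃ g, Adm f g ∧ ∀ h, Adm f h → Dom g h → osc h = osc g := by
  have step : ∀ (s : {g : ℕ → X →L[𝕜] 𝕜 // Adm f g}) (k : ℕ),
      ∃ t : {g : ℕ → X →L[𝕜] 𝕜 // Adm f g}, Dom s.1 t.1 ∧
        ∀ h, Adm f h → Dom s.1 h → osc t.1 ≤ osc h + 1 / ((k : ℝ) + 1) := by
    intro s k
    have hbdd : BddBelow (osc '' {h | Adm f h ∧ Dom s.1 h}) :=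
      ⟨0, by rintro _ ⟨h, -, rfl⟩; exact osc_nonneg h⟩
    have hne : (osc '' {h | Adm f h ∧ Dom s.1 h}).Nonempty := ⟨_, s.1, ⟨s.2, Dom.refl _⟩, rfl⟩
    obtain ⟨_, ⟨t, ⟨ht1, ht2⟩, rfl⟩, ht3⟩ := exists_lt_of_csInf_lt hne
      (lt_add_of_pos_right (sInf (osc '' {h | Adm f h ∧ Dom s.1 h}))
        (show (0 : ℝ) < 1 / ((k : ℝ) + 1) by (clear * -; positivity)))
    refine ⟨⟨t, ht1⟩, ht2, fun h hh1 hh2 => ht3.le.trans ?_⟩
    have := csInf_le hbdd ⟨h, ⟨hh1, hh2⟩, rfl⟩
    linarith only [this]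
  choose nx hn1 hn2 using step
  let G : ℕ → {g : ℕ → X →L[𝕜] 𝕜 // Adm f g} := fun k => Nat.rec ⟨f, hff⟩ (fun k s => nx s k) k
  have hGs : ∀ k, G (k + 1) = nx (G k) k := fun k => rfl
  obtain ⟨g, hg1, hg2⟩ := exists_diag (fun k => (G k).1) (fun k => (G k).2)
    (fun k => by show Dom (G k).1 (G (k + 1)).1; rw [hGs]; exact hn1 _ _)
  refine ⟨g, hg1, fun h hh hd => le_antisymm (osc_mono hf hg1 hd) ?_⟩
  refine le_of_forall_pos_le_add fun ε hε => ?_
  obtain ⟨k, hk⟩ := exists_nat_one_div_lt hε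
  have e1 := hn2 (G k) k h hh ((hg2 k).trans hd)
  rw [← hGs] at e1
  have e2 := osc_mono hf (G (k + 1)).2 (hg2 (k + 1))
  linarith

lemma adm_self (f : ℕ → X →L[𝕜] 𝕜) : Adm f f := by
  intro N
  filter_upwards [eventually_ge_atTop N] with n hn
  refine ⟨n + 1, by omega, Pi.single n 1, fun i hi => ?_, fun i hi => ?_, ?_, ?_⟩
  · rw [Pi.single_eq_of_ne (by omega)]
  · rw [Pi.single_eq_of_ne (by omega)]
  · rw [Finset.sum_eq_single n]
    · simp
    · intro i _ hi; rw [Pi.single_eq_of_ne hi, norm_zero]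
    · intro h; exact absurd (Finset.self_mem_range_succ n) h
  · rw [Finset.sum_eq_single n]
    · simp only [Pi.single_eq_same, one_smul]
    · intro i _ hi; rw [Pi.single_eq_of_ne hi]; exact zero_smul 𝕜 (f i)
    · intro h; exact absurd (Finset.self_mem_range_succ n) h

/-- Signed sums of far out members along prescribed infinite sets. -/
lemma exists_signed_sum {f g : ℕ → X →L[𝕜] 𝕜} (hg : Adm f g) {ι : Type*} (A : ι → Set ℕ)
    (s : ι → 𝕜) (hs : ∀ l, ‖s l‖ = 1) (S : Finset ι) (hA : ∀ l ∈ S, (A l).Infinite) (N : ℕ) :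
    ∃ (a : ι → ℕ) (M : ℕ), N ≤ M ∧ (∀ l ∈ S, a l ∈ A l ∧ N ≤ a l) ∧
      InS f N M (S.card : ℝ) (∑ l ∈ S, s l • g (a l)) := by
  classical
  induction S using Finset.induction_on with
  | empty => exact ⟨fun _ => 0, N, le_rfl, by simp, by simpa using InS.zero f N⟩
  | insert l₀ S hl ih =>
    obtain ⟨a, M, hNM, ha, hM⟩ := ih fun l hl => hA l (Finset.mem_insert_of_mem hl)
    obtain ⟨n, hn, hn'⟩ := ((Nat.frequently_atTop_iff_infinite.2
      (hA l₀ (Finset.mem_insert_self _ _))).and_eventually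
        ((hg M).and (eventually_ge_atTop N))).exists
    obtain ⟨⟨L, hL1, hL2⟩, hn2⟩ := hn'
    refine ⟨Function.update a l₀ n, L, hNM.trans hL1, fun l hl' => ?_, ?_⟩
    · rcases Finset.mem_insert.1 hl' with rfl | h
      · simpa using ⟨hn, hn2⟩
      · have : l ≠ l₀ := fun h' => hl (h' ▸ h)
        rw [Function.update_of_ne this]; exact ha l h
    · have e1 : ∑ l ∈ insert l₀ S, s l • g (Function.update a l₀ n l) =
          (∑ l ∈ S, s l • g (a l)) + s l₀ • g n := by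
        rw [Finset.sum_insert hl, add_comm, Function.update_self]
        congr 1
        refine Finset.sum_congr rfl fun l hl' => ?_
        have : l ≠ l₀ := fun h' => hl (h' ▸ hl')
        rw [Function.update_of_ne this]
      rw [e1, Finset.card_insert_of_notMem hl]
      push_cast
      have e2 := hL2.smul (s l₀)
      rw [hs, one_mul] at e2
      exact hM.add e2 hNM hL1

/-- Rotating a frequently large bounded sequence. -/
lemma exists_rotate (w : ℕ → 𝕜) (B ρ e : ℝ) (hB : ∀ n, ‖w n‖ ≤ B) (he : 0 < e)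
    (hw : ∃ᶠ n in atTop, ρ < ‖w n‖) :
    ∃ c : 𝕜, ‖c‖ = 1 ∧ ∃ᶠ n in atTop, ρ - e < RCLike.re (c * w n) := by
  obtain ⟨a, ha, φ, hφ, hlim⟩ := tendsto_subseq_of_frequently_bounded
    (s := {z : 𝕜 | ρ < ‖z‖ ∧ ‖z‖ ≤ B}) (x := w)
    ((Metric.isBounded_closedBall (x := (0 : 𝕜)) (r := B)).subset fun z hz => by
      simpa only [Metric.mem_closedBall, dist_zero_right] using hz.2) (hw.mono fun n hn => ⟨hn, hB n⟩)
  have ha' : ρ ≤ ‖a‖ := by
    have hcl : IsClosed {z : 𝕜 | ρ ≤ ‖z‖} := isClosed_le continuous_const continuous_norm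
    exact (closure_minimal (fun z (hz : ρ < ‖z‖ ∧ ‖z‖ ≤ B) => hz.1.le) hcl) ha
  obtain ⟨c, hc1, hc2⟩ := RCLike.exists_norm_eq_mul_self a
  refine ⟨c, hc1, ?_⟩
  have h1 : Tendsto (fun n => RCLike.re (c * w (φ n))) atTop (𝓝 (RCLike.re (c * a))) :=
    (RCLike.continuous_re.tendsto _).comp (hlim.const_mul c)
  rw [← hc2, RCLike.ofReal_re] at h1
  have h2 : ∀ᶠ n in atTop, ρ - e < RCLike.re (c * w (φ n)) :=
    h1.eventually_const_lt (by linarith only [he, ha'])
  exact hφ.tendsto_atTop.frequently h2.frequently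

/-- One step of the tree construction: a stable sequence splits prescribed infinite sets. -/
lemma tree_step {f g : ℕ → X →L[𝕜] 𝕜} (hf : ∀ i, ‖f i‖ ≤ 1) (hg : Adm f g)
    (hst : ∀ h, Adm f h → Dom g h → osc h = osc g) (hδ : 0 < osc g) {ι : Type*} (A : ι → Set ℕ)
    (s : ι → ℝ) (hs : ∀ l, s l = 1 ∨ s l = -1) (S : Finset ι) (hA : ∀ l ∈ S, (A l).Infinite)
    (η : ℝ) (hη : 0 < η) :
    ∃ x : X, ‖x‖ ≤ 1 ∧ ∀ l ∈ S, {n | n ∈ A l ∧ ‖g n x - ((osc g * s l : ℝ) : 𝕜)‖ ≤ η}.Infinite := by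
  classical
  rcases S.eq_empty_or_nonempty with rfl | hS
  · exact ⟨0, by simp, by simp⟩
  set δ := osc g with hδ'
  set r : ℝ := (S.card : ℝ) with hr
  have hr1 : 1 ≤ r := by
    rw [hr]; exact_mod_cast Finset.card_pos.2 hS
  -- small parameter
  obtain ⟨e, he0, he1, heδ, heη⟩ : ∃ e : ℝ, 0 < e ∧ e ≤ 1 ∧ e < δ ∧
      e * (2 * δ + 1 + 6 * r * δ) ≤ η ^ 2 := by
    have hden : 0 < 2 * δ + 1 + 6 * r * δ := by positivity
    refine ⟨min (min 1 (δ / 2)) (η ^ 2 / (2 * δ + 1 + 6 * r * δ)), ?_, ?_, ?_, ?_⟩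
    · exact lt_min (lt_min one_pos (by linarith)) (by positivity)
    · exact (min_le_left _ _).trans (min_le_left _ _)
    · exact ((min_le_left _ _).trans (min_le_right _ _)).trans_lt (by linarith)
    · calc _ ≤ η ^ 2 / (2 * δ + 1 + 6 * r * δ) * (2 * δ + 1 + 6 * r * δ) :=
            mul_le_mul_of_nonneg_right (min_le_right _ _) hden.le
        _ = η ^ 2 := div_mul_cancel₀ _ hden.ne'
  have hs1 : ∀ l, ‖((s l : ℝ) : 𝕜)‖ = 1 := by
    intro l; rw [RCLike.norm_ofReal]; rcases hs l with h | h <;> simp [h]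
  -- the averaged sequence
  choose a M hM1 ha hM2 using exists_signed_sum hg A (fun l => ((s l : ℝ) : 𝕜)) hs1 S hA
  let h : ℕ → X →L[𝕜] 𝕜 := fun n => ((r⁻¹ : ℝ) : 𝕜) • ∑ l ∈ S, ((s l : ℝ) : 𝕜) • g (a n l)
  have hrn : ‖((r⁻¹ : ℝ) : 𝕜)‖ = r⁻¹ := by
    rw [RCLike.norm_ofReal, abs_of_pos (by positivity)]
  have hAdm : Adm f h := by
    intro N
    filter_upwards [eventually_ge_atTop N] with n hn
    refine ⟨M n, hn.trans (hM1 n), ?_⟩
    have e1 := (hM2 n).smul ((r⁻¹ : ℝ) : 𝕜)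
    rw [hrn, ← hr, inv_mul_cancel₀ (by positivity)] at e1
    exact e1.mono hn le_rfl
  have hDom : Dom g h := by
    intro N
    filter_upwards [eventually_ge_atTop N] with n hn x t ht
    have e1 : h n x = ((r⁻¹ : ℝ) : 𝕜) * ∑ l ∈ S, ((s l : ℝ) : 𝕜) * g (a n l) x := by
      simp only [h, FunLike.coe_smul, Pi.smul_apply, FunLike.coe_sum,
        Finset.sum_apply, smul_eq_mul]
    rw [e1, norm_mul, hrn, inv_mul_le_iff₀ (by positivity)]
    refine (norm_sum_le _ _).trans ?_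
    calc ∑ l ∈ S, ‖((s l : ℝ) : 𝕜) * g (a n l) x‖ ≤ ∑ l ∈ S, t := by
          refine Finset.sum_le_sum fun l hl => ?_
          rw [norm_mul, hs1, one_mul]
          exact ht _ (hn.trans (ha n l hl).2)
      _ = r * t := by rw [Finset.sum_const, nsmul_eq_mul]
  have hosc : osc h = δ := hst h hAdm hDom
  obtain ⟨x, hx1, hx2⟩ := exists_of_lt_osc (g := h) (r := δ - e) (by linarith) (by linarith)
  have hb : ∀ n, ‖h n x‖ ≤ 1 := by
    intro n
    have e1 := (hM2 n).smul ((r⁻¹ : ℝ) : 𝕜)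
    rw [hrn, ← hr, inv_mul_cancel₀ (by positivity)] at e1
    calc ‖h n x‖ ≤ ‖h n‖ * ‖x‖ := (h n).le_opNorm x
      _ ≤ 1 * 1 := mul_le_mul (e1.norm_le hf) hx1 (norm_nonneg _) zero_le_one
      _ = 1 := one_mul 1
  obtain ⟨c, hc1, hc2⟩ := exists_rotate (fun n => h n x) 1 (δ - e) e hb he0 hx2
  have hcx : ‖c • x‖ ≤ 1 := by rw [norm_smul, hc1, one_mul]; exact hx1
  refine ⟨c • x, hcx, fun l₀ hl₀ => ?_⟩
  have hev : ∀ᶠ n in atTop, ∀ j ≥ n, ‖g j x‖ ≤ δ + e := by
    obtain ⟨N, hN⟩ := eventually_atTop.1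
      (eventually_of_osc_lt hf hg (r := δ + e) (by linarith) hx1)
    filter_upwards [eventually_ge_atTop N] with n hn j hj using hN j (hn.trans hj)
  rw [← Nat.frequently_atTop_iff_infinite]
  rw [frequently_atTop]
  intro N
  obtain ⟨n, ⟨hn1, hn2⟩, hn3⟩ := ((hc2.and_eventually hev).and_eventually
    (eventually_ge_atTop N)).exists
  refine ⟨a n l₀, hn3.trans (ha n l₀ hl₀).2, (ha n l₀ hl₀).1, ?_⟩
  -- the estimate
  let z : ι → 𝕜 := fun l => ((s l : ℝ) : 𝕜) * g (a n l) (c • x)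
  have hz1 : ∀ l ∈ S, ‖z l‖ ≤ δ + e := by
    intro l hl
    simp only [z, norm_mul, hs1, one_mul, map_smul, smul_eq_mul, hc1]
    exact hn2 _ (ha n l hl).2
  have hz2 : ∀ l ∈ S, RCLike.re (z l) ≤ δ + e := fun l hl =>
    (RCLike.re_le_norm _).trans (hz1 l hl)
  have hz3 : r * (δ - e - e) < ∑ l ∈ S, RCLike.re (z l) := by
    have e1 : c * h n x = ((r⁻¹ : ℝ) : 𝕜) * ∑ l ∈ S, z l := by
      simp only [h, z, FunLike.coe_smul, Pi.smul_apply, FunLike.coe_sum,
        Finset.sum_apply, smul_eq_mul, map_smul]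
      rw [mul_left_comm, Finset.mul_sum]
      congr 1
      exact Finset.sum_congr rfl fun l _ => by ring
    have e2 : RCLike.re (c * h n x) = r⁻¹ * ∑ l ∈ S, RCLike.re (z l) := by
      rw [e1, RCLike.re_ofReal_mul, map_sum]
    rw [e2] at hn1
    have e3 := mul_lt_mul_of_pos_left hn1 (show 0 < r by positivity)
    rwa [mul_inv_cancel_left₀ (by positivity)] at e3
  have hz4 : δ - 3 * r * e ≤ RCLike.re (z l₀) := by
    have e1 : ∑ l ∈ S, RCLike.re (z l) = RCLike.re (z l₀) + ∑ l ∈ S.erase l₀, RCLike.re (z l) :=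
      (Finset.add_sum_erase S _ hl₀).symm
    have e2 : ∑ l ∈ S.erase l₀, RCLike.re (z l) ≤ (r - 1) * (δ + e) := by
      calc ∑ l ∈ S.erase l₀, RCLike.re (z l) ≤ ∑ l ∈ S.erase l₀, (δ + e) :=
            Finset.sum_le_sum fun l hl => hz2 l (Finset.mem_of_mem_erase hl)
        _ = (r - 1) * (δ + e) := by
            rw [Finset.sum_const, nsmul_eq_mul, Finset.card_erase_of_mem hl₀,
              Nat.cast_sub (Finset.card_pos.2 hS), Nat.cast_one]
    nlinarith
  have hz5 : ‖z l₀ - (δ : 𝕜)‖ ^ 2 ≤ η ^ 2 := by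
    have e1 : ‖z l₀ - (δ : 𝕜)‖ ^ 2 = ‖z l₀‖ ^ 2 - 2 * δ * RCLike.re (z l₀) + δ ^ 2 := by
      rw [← RCLike.normSq_eq_def', ← RCLike.normSq_eq_def', RCLike.normSq_apply,
        RCLike.normSq_apply]
      simp only [map_sub, RCLike.ofReal_re, RCLike.ofReal_im]
      ring
    have e2 : ‖z l₀‖ ^ 2 ≤ (δ + e) ^ 2 := pow_le_pow_left₀ (norm_nonneg _) (hz1 l₀ hl₀) 2
    have e3 : 2 * δ * (δ - 3 * r * e) ≤ 2 * δ * RCLike.re (z l₀) :=
      mul_le_mul_of_nonneg_left hz4 (by linarith)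
    nlinarith
  have hz6 : ‖z l₀ - (δ : 𝕜)‖ ≤ η := le_of_sq_le_sq hz5 hη.le
  have hz7 : g (a n l₀) (c • x) - ((δ * s l₀ : ℝ) : 𝕜) = ((s l₀ : ℝ) : 𝕜) * (z l₀ - (δ : 𝕜)) := by
    have e1 : ((s l₀ : ℝ) : 𝕜) * ((s l₀ : ℝ) : 𝕜) = 1 := by
      rw [← RCLike.ofReal_mul]
      rcases hs l₀ with h | h <;> simp [h]
    simp only [z]
    rw [mul_sub, ← mul_assoc, e1, one_mul, RCLike.ofReal_mul, mul_comm ((δ : ℝ) : 𝕜)]
  rw [hz7, norm_mul, hs1, one_mul]
  exact hz6

/-- A stable sequence of positive size carries an `ℓ¹`-tree. -/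
lemma exists_tree {f g : ℕ → X →L[𝕜] 𝕜} (hf : ∀ i, ‖f i‖ ≤ 1) (hg : Adm f g)
    (hst : ∀ h, Adm f h → Dom g h → osc h = osc g) (hδ : 0 < osc g) (η : ℝ) (hη : 0 < η) :
    ∃ x : ℕ → X, (∀ i, ‖x i‖ ≤ 1) ∧ ∀ (m : ℕ) (ε : ℕ → ℝ), (∀ i, ε i = 1 ∨ ε i = -1) →
      {n | ∀ i < m, ‖g n (x i) - ((osc g * ε i : ℝ) : 𝕜)‖ ≤ η}.Infinite := by
  classical
  let sg : Finset ℕ → ℕ → ℝ := fun E i => if i ∈ E then 1 else -1
  have hsg : ∀ E i, sg E i = 1 ∨ sg E i = -1 := by
    intro E i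
    by_cases h : i ∈ E <;> simp [sg, h]
  let Q : ℕ → (ℕ → X) → Prop := fun k x => (∀ i < k, ‖x i‖ ≤ 1) ∧
    ∀ E : Finset ℕ, {n | ∀ i < k, ‖g n (x i) - ((osc g * sg E i : ℝ) : 𝕜)‖ ≤ η}.Infinite
  obtain ⟨x, hx⟩ := exists_seq_of_step Q (fun k x y hxy h => by
      refine ⟨fun i hi => by rw [← hxy i hi]; exact h.1 i hi, fun E => (h.2 E).mono ?_⟩
      intro n hn i hi
      rw [← hxy i hi]
      exact hn i hi) (fun _ => 0) ⟨by simp only [not_lt_zero, norm_zero, zero_le_one, implies_true], fun E => by simpa only [not_lt_zero, map_zero, map_mul, zero_sub, norm_neg, norm_mul, norm_algebraMap', Real.norm_eq_abs,     IsEmpty.forall_iff, implies_true, Set.ofPred_true] using Set.infinite_univ⟩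
    (fun k x hk => by
      obtain ⟨y, hy1, hy2⟩ := tree_step hf hg hst hδ
        (fun E : Finset ℕ => {n | ∀ i < k, ‖g n (x i) - ((osc g * sg E i : ℝ) : 𝕜)‖ ≤ η})
        (fun E => sg E k) (fun E => hsg E k) (Finset.range (k + 1)).powerset
        (fun E _ => hk.2 E) η hη
      refine ⟨y, fun i hi => ?_, fun E => ?_⟩
      · rcases Nat.lt_succ_iff_lt_or_eq.1 hi with h | h
        · rw [Function.update_of_ne (by omega)]; exact hk.1 i h
        · subst h; rw [Function.update_self]; exact hy1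
      · have hE : E ∩ Finset.range (k + 1) ∈ (Finset.range (k + 1)).powerset :=
          Finset.mem_powerset.2 Finset.inter_subset_right
        have hsE : ∀ i < k + 1, sg (E ∩ Finset.range (k + 1)) i = sg E i := by
          intro i hi
          simp only [sg, Finset.mem_inter, Finset.mem_range, hi, and_true]
        refine (hy2 _ hE).mono ?_
        rintro n ⟨hn1, hn2⟩ i hi
        rcases Nat.lt_succ_iff_lt_or_eq.1 hi with h | h
        · rw [Function.update_of_ne (by omega), ← hsE i hi]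
          exact hn1 i h
        · subst h
          rw [Function.update_self, ← hsE i hi]
          exact hn2)
  refine ⟨x, fun i => (hx (i + 1)).1 i (by omega), fun m ε hε => ?_⟩
  refine ((hx m).2 ((Finset.range m).filter fun i => ε i = 1)).mono ?_
  intro n hn i hi
  have e1 : sg ((Finset.range m).filter fun i => ε i = 1) i = ε i := by
    simp only [sg, Finset.mem_filter, Finset.mem_range, hi, true_and]
    rcases hε i with h | h
    · rw [if_pos h, h]
    · rw [if_neg (by rw [h]; norm_num), h]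
  rw [← e1]
  exact hn i hi

/-- Extraction of a subsequence with successive supports. -/
lemma exists_block_subseq {f g : ℕ → X →L[𝕜] 𝕜} (hg : Adm f g) :
    ∃ φ : ℕ → ℕ, StrictMono φ ∧ ∃ N : ℕ → ℕ, (∀ k, N k ≤ N (k + 1)) ∧
      ∀ k, InS f (N k) (N (k + 1)) 1 (g (φ k)) := by
  have H : ∀ p : ℕ × ℕ, ∃ q : ℕ × ℕ, p.1 < q.1 ∧ p.2 ≤ q.2 ∧ InS f p.2 q.2 1 (g q.1) := by
    intro p
    obtain ⟨n, ⟨M, hM1, hM2⟩, hn⟩ := ((hg p.2).and (eventually_gt_atTop p.1)).exists
    exact ⟨(n, M), hn, hM1, hM2⟩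
  choose nx h1 h2 h3 using H
  let s : ℕ → ℕ × ℕ := fun k => Nat.rec (nx (0, 0)) (fun _ p => nx p) k
  have hs : ∀ k, s (k + 1) = nx (s k) := fun k => rfl
  refine ⟨fun k => (s (k + 1)).1, strictMono_nat_of_lt_succ fun k => ?_, fun k => (s k).2,
    fun k => ?_, fun k => ?_⟩
  · show (s (k + 1)).1 < (s (k + 1 + 1)).1
    rw [hs (k + 1)]; exact h1 _
  · show (s k).2 ≤ (s (k + 1)).2
    rw [hs]; exact h2 _
  · show InS f (s k).2 (s (k + 1)).2 1 (g (s (k + 1)).1)
    rw [hs]; exact h3 _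

/-- Successive normalised combinations of an `ℓ¹`-sequence form an `ℓ¹`-sequence. -/
lemma block_lower {f u : ℕ → X →L[𝕜] 𝕜} {c : ℝ}
    (hc : ∀ (n : ℕ) (a : ℕ → 𝕜), c * ∑ i ∈ Finset.range n, ‖a i‖ ≤
      ‖∑ i ∈ Finset.range n, a i • f i‖) (N : ℕ → ℕ) (hN : ∀ k, N k ≤ N (k + 1))
    (hu : ∀ k, InS f (N k) (N (k + 1)) 1 (u k)) (n : ℕ) (a : ℕ → 𝕜) :
    c * ∑ i ∈ Finset.range n, ‖a i‖ ≤ ‖∑ i ∈ Finset.range n, a i • u i‖ := by
  have key : ∀ n, N 0 ≤ N n ∧
      InS f (N 0) (N n) (∑ i ∈ Finset.range n, ‖a i‖) (∑ i ∈ Finset.range n, a i • u i) := by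
    intro n
    induction n with
    | zero => exact ⟨le_rfl, by simpa only [Finset.range_zero, Finset.sum_empty] using InS.zero f (N 0)⟩
    | succ n ih =>
      refine ⟨ih.1.trans (hN n), ?_⟩
      rw [Finset.sum_range_succ, Finset.sum_range_succ]
      have e1 := (hu n).smul (a n)
      rw [mul_one] at e1
      exact ih.2.add e1 ih.1 (hN n)
  exact (key n).2.le_norm hc

/-- The Hagler-Johnson dichotomy for an `ℓ¹`-sequence in a dual space. -/
theorem hagler_johnson {f : ℕ → X →L[𝕜] 𝕜} (hf : ∀ i, ‖f i‖ ≤ 1) {c : ℝ}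
    (hc : ∀ (n : ℕ) (a : ℕ → 𝕜), c * ∑ i ∈ Finset.range n, ‖a i‖ ≤
      ‖∑ i ∈ Finset.range n, a i • f i‖) :
    (∃ u : ℕ → X →L[𝕜] 𝕜, (∀ k, ‖u k‖ ≤ 1) ∧ (∀ x, Tendsto (fun k => u k x) atTop (𝓝 0)) ∧
      ∀ (n : ℕ) (a : ℕ → 𝕜), c * ∑ k ∈ Finset.range n, ‖a k‖ ≤
        ‖∑ k ∈ Finset.range n, a k • u k‖) ∨
    ∃ δ : ℝ, 0 < δ ∧ ∃ x : ℕ → X, (∀ i, ‖x i‖ ≤ 1) ∧
      ∀ (m : ℕ) (ε : ℕ → ℝ), (∀ i, ε i = 1 ∨ ε i = -1) → ∃ ψ : X →L[𝕜] 𝕜, ‖ψ‖ ≤ 1 ∧
        ∀ i < m, ‖ψ (x i) - ((δ * ε i : ℝ) : 𝕜)‖ ≤ δ / 16 := by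
  obtain ⟨g, hg, hst⟩ := exists_stable hf (adm_self f)
  rcases eq_or_lt_of_le (osc_nonneg g) with h0 | h0
  · left
    obtain ⟨φ, hφ, N, hN, hu⟩ := exists_block_subseq hg
    refine ⟨fun k => g (φ k), fun k => (hu k).norm_le hf, fun x => ?_,
      block_lower hc N hN hu⟩
    have key : ∀ y : X, ‖y‖ ≤ 1 → Tendsto (fun n => g n y) atTop (𝓝 0) := by
      intro y hy
      rw [Metric.tendsto_nhds]
      intro ε hε
      filter_upwards [eventually_of_osc_lt hf hg (r := ε / 2) (by rw [← h0]; linarith only [hε]) hy]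
        with n hn
      rw [dist_zero_right]
      linarith
    have hx1 : ‖(((‖x‖ + 1)⁻¹ : ℝ) : 𝕜) • x‖ ≤ 1 := by
      rw [norm_smul, RCLike.norm_ofReal, abs_of_pos (by positivity),
        inv_mul_le_iff₀ (by positivity)]
      linarith only []
    have h2 := ((key _ hx1).comp hφ.tendsto_atTop).const_mul (((‖x‖ + 1 : ℝ)) : 𝕜)
    rw [mul_zero] at h2
    refine h2.congr fun k => ?_
    simp only [Function.comp_apply, map_smul, smul_eq_mul]
    rw [← mul_assoc, ← RCLike.ofReal_mul, mul_inv_cancel₀ (by positivity), RCLike.ofReal_one,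
      one_mul]
  · right
    obtain ⟨x, hx, hx'⟩ := exists_tree hf hg hst h0 (osc g / 16) (by linarith only [h0])
    refine ⟨osc g, h0, x, hx, fun m ε hε => ?_⟩
    obtain ⟨n, hn1, hn2⟩ := ((Nat.frequently_atTop_iff_infinite.2 (hx' m ε hε)).and_eventually
      (hg 0)).exists
    obtain ⟨M, -, hM⟩ := hn2
    exact ⟨g n, hM.norm_le hf, hn1⟩

end

end Vale.Agent.P129
end
end

section

section

/-!
# Rademacher sums: second and fourth moments, Khinchine lower bound, Bessel inequality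
-/

namespace Vale.Agent.P129

open Finset

/-- Sign of a Boolean. -/
def sg (b : Bool) : ℝ := if b then 1 else -1

lemma sg_mul_self (b : Bool) : sg b * sg b = 1 := by
  cases b <;> simp [sg]

lemma abs_sg (b : Bool) : |sg b| = 1 := by
  cases b <;> simp [sg]

/-- Rademacher sum. -/
def rs {n : ℕ} (b : Fin n → ℝ) (ω : Fin n → Bool) : ℝ := ∑ k, b k * sg (ω k)

lemma sum_bool_fun_succ {n : ℕ} (F : (Fin (n + 1) → Bool) → ℝ) :
    ∑ ω, F ω = ∑ ω : Fin n → Bool, (F (Fin.cons true ω) + F (Fin.cons false ω)) := by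
  rw [← (Fin.consEquiv (fun _ : Fin (n + 1) => Bool)).sum_comp, Fintype.sum_prod_type]
  simp only [Fintype.sum_bool]
  rw [← Finset.sum_add_distrib]
  rfl

lemma rs_cons {n : ℕ} (b : Fin (n + 1) → ℝ) (x : Bool) (ω : Fin n → Bool) :
    rs b (Fin.cons x ω) = b 0 * sg x + rs (fun k => b k.succ) ω := by
  simp only [rs, Fin.sum_univ_succ, Fin.cons_zero, Fin.cons_succ]

lemma sum_rs_sq {n : ℕ} : ∀ b : Fin n → ℝ, ∑ ω, rs b ω ^ 2 = 2 ^ n * ∑ k, b k ^ 2 := by
  induction n with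
  | zero => intro b; simp [rs]
  | succ n ih =>
    intro b
    rw [sum_bool_fun_succ]
    simp only [rs_cons]
    have h : ∀ ω : Fin n → Bool,
        (b 0 * sg true + rs (fun k => b k.succ) ω) ^ 2
          + (b 0 * sg false + rs (fun k => b k.succ) ω) ^ 2
        = 2 * b 0 ^ 2 + 2 * rs (fun k => b k.succ) ω ^ 2 := by
      intro ω
      simp only [sg]
      simp only [↓reduceIte, mul_one, Bool.false_eq_true, mul_neg]
      ring
    simp_rw [h]
    have e2 : ∑ ω : Fin n → Bool, 2 * rs (fun k => b k.succ) ω ^ 2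
        = 2 * (2 ^ n * ∑ k : Fin n, b k.succ ^ 2) := by rw [← Finset.mul_sum, ih]
    rw [Finset.sum_add_distrib, e2, Fin.sum_univ_succ]
    simp only [sum_const, card_univ, Fintype.card_pi, Fintype.card_bool, prod_const, Fintype.card_fin, nsmul_eq_mul, Nat.cast_pow, Nat.cast_ofNat]
    ring

lemma sum_rs_four {n : ℕ} : ∀ b : Fin n → ℝ,
    ∑ ω, rs b ω ^ 4 ≤ 3 * 2 ^ n * (∑ k, b k ^ 2) ^ 2 := by
  induction n with
  | zero => intro b; simp only [univ_unique, rs, univ_eq_empty, sum_empty, ne_eq, OfNat.ofNat_ne_zero, not_false_eq_true, zero_pow, sum_const_zero, pow_zero, mul_one, mul_zero, Std.le_refl]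
  | succ n ih =>
    intro b
    rw [sum_bool_fun_succ]
    simp only [rs_cons]
    have h : ∀ ω : Fin n → Bool,
        (b 0 * sg true + rs (fun k => b k.succ) ω) ^ 4
          + (b 0 * sg false + rs (fun k => b k.succ) ω) ^ 4
        = 2 * b 0 ^ 4 + 12 * b 0 ^ 2 * rs (fun k => b k.succ) ω ^ 2
          + 2 * rs (fun k => b k.succ) ω ^ 4 := by
      intro ω
      simp only [sg]
      simp only [↓reduceIte, mul_one, Bool.false_eq_true, mul_neg]
      ring
    simp_rw [h]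
    have e2 : ∑ ω : Fin n → Bool, 12 * b 0 ^ 2 * rs (fun k => b k.succ) ω ^ 2
        = 12 * b 0 ^ 2 * (2 ^ n * ∑ k : Fin n, b k.succ ^ 2) := by
      rw [← Finset.mul_sum, sum_rs_sq]
    have e4 : ∑ ω : Fin n → Bool, 2 * rs (fun k => b k.succ) ω ^ 4
        = 2 * ∑ ω : Fin n → Bool, rs (fun k => b k.succ) ω ^ 4 := by rw [← Finset.mul_sum]
    have hc : ∑ _ω : Fin n → Bool, 2 * b 0 ^ 4 = 2 ^ n * (2 * b 0 ^ 4) := by simp only [sum_const, card_univ, Fintype.card_pi, Fintype.card_bool, prod_const, Fintype.card_fin, nsmul_eq_mul, Nat.cast_pow, Nat.cast_ofNat]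
    rw [Finset.sum_add_distrib, Finset.sum_add_distrib, e2, e4, hc, Fin.sum_univ_succ]
    have h4 := ih (fun k => b k.succ)
    set B := ∑ k : Fin n, b k.succ ^ 2
    have h2n : (0 : ℝ) < 2 ^ n := by positivity
    have : (3 : ℝ) * 2 ^ (n + 1) * (b 0 ^ 2 + B) ^ 2
        = 2 * (3 * 2 ^ n * B ^ 2) + 12 * b 0 ^ 2 * (2 ^ n * B) + 6 * 2 ^ n * b 0 ^ 4 := by ring
    rw [this]
    have h5 : 0 ≤ (2 : ℝ) ^ n * b 0 ^ 4 := by (clear * -; positivity)
    linarith

/-- Khinchine lower bound (with a crude constant). -/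
lemma khinchine {n : ℕ} (b : Fin n → ℝ) :
    6 / 11 * (2 ^ n * Real.sqrt (∑ k, b k ^ 2)) ≤ ∑ ω, |rs b ω| := by
  set L := Real.sqrt (∑ k, b k ^ 2) with hL
  have hsq : L ^ 2 = ∑ k, b k ^ 2 :=
    Real.sq_sqrt (Finset.sum_nonneg fun k _ => sq_nonneg _)
  rcases eq_or_lt_of_le (Real.sqrt_nonneg (∑ k, b k ^ 2)) with h0 | h0
  · rw [← hL] at h0
    rw [← h0]
    simp only [mul_zero]
    exact Finset.sum_nonneg fun ω _ => abs_nonneg _
  · rw [← hL] at h0
    have hpt : ∀ ω : Fin n → Bool, 1 / 11 * (9 * rs b ω ^ 2 / L - rs b ω ^ 4 / L ^ 3)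
        ≤ |rs b ω| := by
      intro ω
      set s := |rs b ω| with hs
      have hs0 : 0 ≤ s := abs_nonneg _
      have e2 : rs b ω ^ 2 = s ^ 2 := by rw [hs, sq_abs]
      have e4 : rs b ω ^ 4 = s ^ 4 := by
        have : rs b ω ^ 4 = (rs b ω ^ 2) ^ 2 := by ring
        rw [this, e2]
        ring
      rw [e2, e4]
      have hu : ∀ u : ℝ, 0 ≤ u → 9 * u ^ 2 - u ^ 4 ≤ 11 * u := by
        intro u hu
        have h1 : 0 ≤ u ^ 3 - 9 * u + 11 := by
          nlinarith only [hu, mul_nonneg (sq_nonneg (u - 7 / 4)) (by linarith : (0 : ℝ) ≤ u + 7 / 2)]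
        nlinarith only [hu, h1]
      have h2 := hu (s / L) (by (clear * - h0; positivity))
      have h3 : 9 * s ^ 2 / L - s ^ 4 / L ^ 3 = L * (9 * (s / L) ^ 2 - (s / L) ^ 4) := by
        (clear * - h0; field_simp)
      have h4 : s = L * (s / L) := by field_simp
      rw [h3]
      calc 1 / 11 * (L * (9 * (s / L) ^ 2 - (s / L) ^ 4))
          ≤ 1 / 11 * (L * (11 * (s / L))) := by
            have := mul_le_mul_of_nonneg_left h2 h0.le
            linarith only [this]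
        _ = L * (s / L) := by ring
        _ = s := h4.symm
    have hsum := Finset.sum_le_sum fun ω (_ : ω ∈ (Finset.univ : Finset (Fin n → Bool))) => hpt ω
    rw [← Finset.mul_sum, Finset.sum_sub_distrib, ← Finset.sum_div, ← Finset.sum_div,
      ← Finset.mul_sum, sum_rs_sq] at hsum
    refine le_trans ?_ hsum
    have h4 := sum_rs_four b
    rw [← hsq] at h4 ⊢
    have h5 : (∑ ω, rs b ω ^ 4) / L ^ 3 ≤ 3 * 2 ^ n * (L ^ 2) ^ 2 / L ^ 3 :=
      div_le_div_of_nonneg_right h4 (by (clear * - h0; positivity))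
    have h6 : 3 * 2 ^ n * (L ^ 2) ^ 2 / L ^ 3 = 3 * 2 ^ n * L := by field_simp
    have h7 : 9 * (2 ^ n * L ^ 2) / L = 9 * 2 ^ n * L := by field_simp
    rw [h7]
    rw [h6] at h5
    linarith only [h5]

/-- Upper bound for the first absolute moment. -/
lemma sum_abs_rs_le {n : ℕ} (b : Fin n → ℝ) :
    ∑ ω, |rs b ω| ≤ 2 ^ n * Real.sqrt (∑ k, b k ^ 2) := by
  have h1 := sq_sum_le_card_mul_sum_sq (s := (Finset.univ : Finset (Fin n → Bool)))
    (f := fun ω => |rs b ω|)
  simp only [sq_abs, sum_rs_sq, Finset.card_univ, Fintype.card_fun, Fintype.card_bool,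
    Fintype.card_fin] at h1
  have h2 : (∑ ω, |rs b ω|) ^ 2 ≤ (2 ^ n * Real.sqrt (∑ k, b k ^ 2)) ^ 2 := by
    rw [mul_pow, Real.sq_sqrt (Finset.sum_nonneg fun k _ => sq_nonneg _)]
    push_cast at h1
    linarith only [h1]
  exact le_of_sq_le_sq h2 (by (clear * -; positivity)) |> fun h => h

lemma sum_abs_rs_le' {n : ℕ} (b : Fin n → ℝ) : ∑ ω, |rs b ω| ≤ 2 ^ n * ∑ k, |b k| := by
  calc ∑ ω, |rs b ω| ≤ ∑ _ω : Fin n → Bool, ∑ k, |b k| := by
        refine Finset.sum_le_sum fun ω _ => ?_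
        refine (Finset.abs_sum_le_sum_abs _ _).trans (Finset.sum_le_sum fun k _ => ?_)
        rw [abs_mul, abs_sg, mul_one]
    _ = 2 ^ n * ∑ k, |b k| := by simp only [sum_const, card_univ, Fintype.card_pi, Fintype.card_bool, prod_const, Fintype.card_fin, nsmul_eq_mul, Nat.cast_pow, Nat.cast_ofNat]

lemma sum_sg_mul {n : ℕ} {j k : Fin n} (hjk : j ≠ k) :
    ∑ ω : Fin n → Bool, sg (ω j) * sg (ω k) = 0 := by
  have h1 := sum_rs_sq (n := n) (fun i => (if i = j then 1 else 0) + if i = k then 1 else 0)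
  have h2 : ∀ ω : Fin n → Bool,
      rs (fun i => (if i = j then (1 : ℝ) else 0) + if i = k then 1 else 0) ω
        = sg (ω j) + sg (ω k) := by
    intro ω
    simp only [rs, add_mul, ite_mul, one_mul, zero_mul, sum_add_distrib, sum_ite_eq', mem_univ, ↓reduceIte]
  simp_rw [h2] at h1
  have h3 : ∀ ω : Fin n → Bool, (sg (ω j) + sg (ω k)) ^ 2 = 2 + 2 * (sg (ω j) * sg (ω k)) := by
    intro ω
    have e1 := sg_mul_self (ω j)
    have e2 := sg_mul_self (ω k)
    linarith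
  simp_rw [h3] at h1
  rw [Finset.sum_add_distrib, ← Finset.mul_sum] at h1
  have h4 : ∑ i : Fin n, ((if i = j then (1 : ℝ) else 0) + if i = k then 1 else 0) ^ 2 = 2 := by
    have : ∀ i : Fin n, ((if i = j then (1 : ℝ) else 0) + if i = k then 1 else 0) ^ 2
        = (if i = j then (1 : ℝ) else 0) + if i = k then 1 else 0 := by
      intro i
      by_cases hij : i = j
      · have : i ≠ k := by rw [hij]; exact hjk
        simp [hij, hjk]
      · by_cases hik : i = k
        · simp [hik, Ne.symm hjk]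
        · simp [hij, hik]
    simp_rw [this]
    rw [Finset.sum_add_distrib]
    simp only [sum_ite_eq', mem_univ, ↓reduceIte]
    norm_num
  rw [h4] at h1
  simp only [sum_const, card_univ, Fintype.card_pi, Fintype.card_bool, prod_const, Fintype.card_fin, nsmul_eq_mul, Nat.cast_pow, Nat.cast_ofNat, add_eq_left, mul_eq_zero, OfNat.ofNat_ne_zero, false_or] at h1
  linarith only [h1]

section

variable {𝕜 : Type*} [RCLike 𝕜]

/-- Bessel inequality for Rademacher functions. -/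
lemma bessel {n : ℕ} (φ : (Fin n → Bool) → 𝕜) :
    ∑ k, ‖(1 / 2 ^ n : 𝕜) * ∑ ω, ((sg (ω k) : ℝ) : 𝕜) * φ ω‖ ^ 2 ≤ 1 / 2 ^ n * ∑ ω, ‖φ ω‖ ^ 2 := by
  set s : ℝ := (Real.sqrt (2 ^ n))⁻¹ with hs
  have hs2 : s * s = 1 / 2 ^ n := by
    rw [hs, ← mul_inv, Real.mul_self_sqrt (by positivity), one_div]
  have hs0 : 0 ≤ s := by positivity
  let v : Fin n → EuclideanSpace 𝕜 (Fin n → Bool) := fun k =>
    WithLp.toLp 2 fun ω => ((s * sg (ω k) : ℝ) : 𝕜)
  have hin : ∀ k (ψ : EuclideanSpace 𝕜 (Fin n → Bool)),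
      inner 𝕜 (v k) ψ = (s : 𝕜) * ∑ ω, ((sg (ω k) : ℝ) : 𝕜) * ψ ω := by
    intro k ψ
    rw [PiLp.inner_apply, Finset.mul_sum]
    refine Finset.sum_congr rfl fun ω _ => ?_
    simp only [v, RCLike.inner_apply, map_mul, RCLike.conj_ofReal]
    ring
  have hv : Orthonormal 𝕜 v := by
    rw [orthonormal_iff_ite]
    intro j k
    rw [hin]
    simp only [v]
    have h1 : ∑ ω : Fin n → Bool, ((sg (ω j) : ℝ) : 𝕜) * ((s * sg (ω k) : ℝ) : 𝕜)
        = ((s * ∑ ω : Fin n → Bool, sg (ω j) * sg (ω k) : ℝ) : 𝕜) := by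
      rw [Finset.mul_sum]
      push_cast
      refine Finset.sum_congr rfl fun ω _ => ?_
      ring
    rw [h1]
    split_ifs with h
    · subst h
      simp_rw [sg_mul_self]
      rw [← RCLike.ofReal_mul]
      have : s * (s * ∑ _ω : Fin n → Bool, (1 : ℝ)) = 1 := by
        rw [← mul_assoc, hs2]
        simp only [one_div, sum_const, card_univ, Fintype.card_pi, Fintype.card_bool, prod_const, Fintype.card_fin, nsmul_eq_mul, Nat.cast_pow, Nat.cast_ofNat, mul_one, ne_eq, pow_eq_zero_iff', OfNat.ofNat_ne_zero, false_and, not_false_eq_true, inv_mul_cancel₀]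
      rw [this]
      simp only [map_one]
    · rw [sum_sg_mul h]
      simp
  have h := hv.sum_inner_products_le (WithLp.toLp 2 φ) (s := Finset.univ)
  rw [EuclideanSpace.norm_sq_eq] at h
  have h2 : ∀ k, ‖(1 / 2 ^ n : 𝕜) * ∑ ω, ((sg (ω k) : ℝ) : 𝕜) * φ ω‖ ^ 2
      = 1 / 2 ^ n * ‖inner 𝕜 (v k) (WithLp.toLp 2 φ)‖ ^ 2 := by
    intro k
    rw [hin, norm_mul, norm_mul, mul_pow, mul_pow, RCLike.norm_ofReal, abs_of_nonneg hs0]
    have e1 : ‖(1 / 2 ^ n : 𝕜)‖ = 1 / 2 ^ n := by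
      rw [norm_div, norm_pow]
      simp
    rw [e1]
    have e2 : s ^ 2 = 1 / 2 ^ n := by rw [sq, hs2]
    rw [e2]
    ring
  simp_rw [h2]
  rw [← Finset.mul_sum]
  exact mul_le_mul_of_nonneg_left h (by positivity)

end

end Vale.Agent.P129
end
end

section

section

open Filter Topology Metric

namespace Vale.Agent.P129

/-- successive approximation -/
theorem surjective_of_approx {𝕜 : Type*} [RCLike 𝕜] {X Y : Type*} [NormedAddCommGroup X]
    [NormedSpace 𝕜 X] [CompleteSpace X] [NormedAddCommGroup Y] [NormedSpace 𝕜 Y]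
    (T : X →L[𝕜] Y) (C : ℝ) (hC : ∀ y, ∃ x, ‖T x - y‖ ≤ 1 / 2 * ‖y‖ ∧ ‖x‖ ≤ C * ‖y‖) :
    Function.Surjective T := by
  choose g hg using hC
  let h : Y → Y := fun y => y - T (g y)
  have hle : ∀ y, ‖h y‖ ≤ 1 / 2 * ‖y‖ := by
    intro y
    simp only [h]
    rw [norm_sub_rev]
    exact (hg y).1
  intro y
  have hnle : ∀ n : ℕ, ‖h^[n] y‖ ≤ (1 / 2) ^ n * ‖y‖ := by
    intro n
    induction n with
    | zero => simp
    | succ n IH =>
      rw [Function.iterate_succ']
      refine le_trans (hle _) ?_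
      rw [pow_succ', mul_assoc]
      exact mul_le_mul_of_nonneg_left IH (by norm_num)
  let u : ℕ → X := fun n => g (h^[n] y)
  have ule : ∀ n, ‖u n‖ ≤ (1 / 2) ^ n * (|C| * ‖y‖) := fun n ↦ by
    refine le_trans (hg _).2 ?_
    calc C * ‖h^[n] y‖ ≤ |C| * ‖h^[n] y‖ :=
          mul_le_mul_of_nonneg_right (le_abs_self C) (norm_nonneg _)
      _ ≤ |C| * ((1 / 2) ^ n * ‖y‖) := mul_le_mul_of_nonneg_left (hnle n) (abs_nonneg _)
      _ = (1 / 2) ^ n * (|C| * ‖y‖) := by ring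
  have sNu : Summable fun n => ‖u n‖ := by
    refine .of_nonneg_of_le (fun n => norm_nonneg _) ule ?_
    exact Summable.mul_right _ (summable_geometric_of_lt_one (by norm_num) (by norm_num))
  have su : Summable u := sNu.of_norm
  refine ⟨tsum u, ?_⟩
  have fsumeq : ∀ n : ℕ, T (∑ i ∈ Finset.range n, u i) = y - h^[n] y := by
    intro n
    induction n with
    | zero => simp
    | succ n IH =>
      rw [Finset.sum_range_succ, map_add, IH, Function.iterate_succ_apply', sub_add]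
  have h1 : Tendsto (fun n => ∑ i ∈ Finset.range n, u i) atTop (𝓝 (tsum u)) :=
    su.hasSum.tendsto_sum_nat
  have L₁ : Tendsto (fun n => T (∑ i ∈ Finset.range n, u i)) atTop (𝓝 (T (tsum u))) :=
    (T.continuous.tendsto _).comp h1
  simp only [fsumeq] at L₁
  have L₂ : Tendsto (fun n => y - h^[n] y) atTop (𝓝 (y - 0)) := by
    refine tendsto_const_nhds.sub ?_
    rw [tendsto_iff_norm_sub_tendsto_zero]
    simp only [sub_zero]
    refine squeeze_zero (fun _ => norm_nonneg _) hnle ?_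
    rw [← zero_mul ‖y‖]
    exact (tendsto_pow_atTop_nhds_zero_of_lt_one (by norm_num) (by norm_num)).mul
      tendsto_const_nhds
  have h2 := tendsto_nhds_unique L₁ L₂
  rw [h2, sub_zero]

theorem surjective_of_adjoint_bounded_below {𝕜 : Type*} [RCLike 𝕜] {X Y : Type*}
    [NormedAddCommGroup X] [NormedSpace 𝕜 X] [CompleteSpace X] [NormedAddCommGroup Y]
    [NormedSpace 𝕜 Y] [CompleteSpace Y] (T : X →L[𝕜] Y) (c : ℝ) (hc : 0 < c)
    (hT : ∀ F : Y →L[𝕜] 𝕜, c * ‖F‖ ≤ ‖F.comp T‖) : Function.Surjective T := by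
  let _ : NormedSpace ℝ X := NormedSpace.restrictScalars ℝ 𝕜 X
  have _ : IsScalarTower ℝ 𝕜 X := RestrictScalars.isScalarTower ℝ 𝕜 X
  let _ : NormedSpace ℝ Y := NormedSpace.restrictScalars ℝ 𝕜 Y
  have _ : IsScalarTower ℝ 𝕜 Y := RestrictScalars.isScalarTower ℝ 𝕜 Y
  set K : Set Y := closure (T '' ball 0 1) with hK
  have hKconv : Convex ℝ K := by
    refine Convex.closure ?_
    have h1 : Convex ℝ (ball (0 : X) 1) := convex_ball 0 1
    exact h1.linear_image ((T : X →ₗ[𝕜] Y).restrictScalars ℝ)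
  have hball : closedBall (0 : Y) c ⊆ K := by
    intro y hy
    by_contra hyK
    obtain ⟨F, u, h1, h2⟩ := RCLike.geometric_hahn_banach_closed_point (𝕜 := 𝕜) hKconv
      isClosed_closure hyK
    have h0 : (0 : Y) ∈ K := subset_closure ⟨0, mem_ball_self one_pos, map_zero T⟩
    have hu0 : 0 < u := by
      have := h1 0 h0
      simpa using this
    have hFT : ‖F.comp T‖ ≤ u := by
      by_contra hcon
      push Not at hcon
      obtain ⟨x, hx1, hx2⟩ := (F.comp T).exists_lt_apply_of_lt_opNorm hcon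
      obtain ⟨w, hw1, hw2⟩ := RCLike.exists_norm_eq_mul_self ((F.comp T) x)
      have h6 : T (w • x) ∈ K := by
        refine subset_closure ⟨w • x, ?_, rfl⟩
        rw [mem_ball_zero_iff, norm_smul, hw1, one_mul]
        exact hx1
      have h7 := h1 _ h6
      have h8 : F (T (w • x)) = ((‖(F.comp T) x‖ : ℝ) : 𝕜) := by
        rw [map_smul, map_smul, smul_eq_mul, hw2]
        rfl
      rw [h8, RCLike.ofReal_re] at h7
      linarith only [hx2, h7]
    have h3 := hT F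
    have h4 : RCLike.re (F y) ≤ ‖F‖ * ‖y‖ :=
      le_trans (RCLike.re_le_norm _) (F.le_opNorm y)
    have h5 : ‖y‖ ≤ c := by simpa only [mem_closedBall, dist_zero_right] using hy
    have h6 : ‖F‖ * ‖y‖ ≤ ‖F‖ * c := mul_le_mul_of_nonneg_left h5 (norm_nonneg _)
    linarith only [h2, hFT, h3, h4, h6]
  refine surjective_of_approx T c⁻¹ (fun y => ?_)
  by_cases hy : y = 0
  · refine ⟨0, ?_, ?_⟩ <;> simp [hy]
  · have hy0 : 0 < ‖y‖ := norm_pos_iff.mpr hy
    set a : ℝ := c / ‖y‖ with ha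
    have ha0 : 0 < a := by positivity
    have h1 : a • y ∈ K := by
      refine hball ?_
      rw [mem_closedBall_zero_iff, norm_smul, Real.norm_eq_abs, abs_of_pos ha0, ha]
      rw [div_mul_cancel₀ _ hy0.ne']
    obtain ⟨z, ⟨x, hx, rfl⟩, hz⟩ := Metric.mem_closure_iff.mp h1 (c / 2) (by positivity)
    rw [mem_ball_zero_iff] at hx
    refine ⟨a⁻¹ • x, ?_, ?_⟩
    · have h2 : T (a⁻¹ • x) - y = a⁻¹ • (T x - a • y) := by
        have h9 : T (a⁻¹ • x) = a⁻¹ • T x := ((T : X →ₗ[𝕜] Y).restrictScalars ℝ).map_smul a⁻¹ x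
        rw [h9, smul_sub, smul_smul, inv_mul_cancel₀ ha0.ne', one_smul]
      rw [h2, norm_smul, Real.norm_eq_abs, abs_of_pos (by positivity)]
      rw [dist_eq_norm, norm_sub_rev] at hz
      have h3 : a⁻¹ = ‖y‖ / c := by rw [ha, inv_div]
      rw [h3]
      calc ‖y‖ / c * ‖T x - a • y‖ ≤ ‖y‖ / c * (c / 2) :=
            mul_le_mul_of_nonneg_left hz.le (by positivity)
        _ = 1 / 2 * ‖y‖ := by field_simp
    · rw [norm_smul, Real.norm_eq_abs, abs_of_pos (by positivity), ha, inv_div]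
      calc ‖y‖ / c * ‖x‖ ≤ ‖y‖ / c * 1 := mul_le_mul_of_nonneg_left hx.le (by positivity)
        _ = c⁻¹ * ‖y‖ := by ring

theorem exists_separable_quotient_of_surjective {𝕜 : Type*} [RCLike 𝕜] {X Y : Type*}
    [NormedAddCommGroup X] [NormedSpace 𝕜 X] [CompleteSpace X] [NormedAddCommGroup Y]
    [NormedSpace 𝕜 Y] [CompleteSpace Y] [TopologicalSpace.SeparableSpace Y]
    (hY : ¬ FiniteDimensional 𝕜 Y) (T : X →L[𝕜] Y) (hT : Function.Surjective T) :
    ∃ M : Submodule 𝕜 X, IsClosed (M : Set X) ∧ TopologicalSpace.SeparableSpace (X ⧸ M) ∧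
      ¬ FiniteDimensional 𝕜 (X ⧸ M) := by
  refine ⟨LinearMap.ker (T : X →ₗ[𝕜] Y), ?_, ?_, ?_⟩
  · exact T.isClosed_ker
  · let e : (X ⧸ LinearMap.ker (T : X →ₗ[𝕜] Y)) ≃ₗ[𝕜] Y :=
      LinearMap.quotKerEquivOfSurjective (T : X →ₗ[𝕜] Y) hT
    have he : ∀ x, e (Submodule.Quotient.mk x) = T x := fun x => rfl
    have hsymm : Continuous e.symm := by
      have hq : IsQuotientMap T := (T.isOpenMap hT).isQuotientMap T.continuous hT
      rw [hq.continuous_iff]
      have : (e.symm ∘ T) = fun x => Submodule.Quotient.mk x := by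
        funext x
        simp only [Function.comp_apply]
        rw [← he, e.symm_apply_apply]
      rw [this]
      exact continuous_quotient_mk'
    exact (e.symm.surjective.denseRange).separableSpace hsymm
  · intro hfin
    apply hY
    exact Module.Finite.equiv (LinearMap.quotKerEquivOfSurjective (T : X →ₗ[𝕜] Y) hT)

section basis

variable {𝕜 : Type*} [RCLike 𝕜] {Y : Type*} [NormedAddCommGroup Y] [NormedSpace 𝕜 Y]

theorem separable_of_basis (e : ℕ → Y) (ev : ℕ → Y → 𝕜)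
    (h : ∀ y, Tendsto (fun n => ∑ k ∈ Finset.range n, ev k y • e k) atTop (𝓝 y)) :
    TopologicalSpace.SeparableSpace Y := by
  have h1 : TopologicalSpace.IsSeparable (Set.range e) := (Set.countable_range e).isSeparable
  have h2 := (h1.span (R := 𝕜)).closure
  have h3 : closure (Submodule.span 𝕜 (Set.range e) : Set Y) = Set.univ := by
    rw [Set.eq_univ_iff_forall]
    intro y
    refine mem_closure_of_tendsto (h y) (Filter.Eventually.of_forall (fun n => ?_))
    exact Submodule.sum_mem _ (fun k _ =>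
      Submodule.smul_mem _ _ (Submodule.subset_span ⟨k, rfl⟩))
  rw [h3] at h2
  exact TopologicalSpace.isSeparable_univ_iff.mp h2

theorem not_finiteDimensional_of_basis (e : ℕ → Y) (ev : ℕ → Y →L[𝕜] 𝕜)
    (h : ∀ i j, ev i (e j) = if i = j then 1 else 0) : ¬ FiniteDimensional 𝕜 Y := by
  intro hfin
  have h1 : LinearIndependent 𝕜 e := by
    rw [linearIndependent_iff']
    intro s g hg i hi
    have h2 := congrArg (ev i) hg
    rw [map_sum, map_zero] at h2
    have h3 : ∀ j ∈ s, ev i (g j • e j) = if i = j then g j else 0 := by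
      intro j _
      rw [map_smul, h, smul_eq_mul]
      split_ifs <;> simp
    rw [Finset.sum_congr rfl h3, Finset.sum_ite_eq, if_pos hi] at h2
    exact h2
  have h2 := h1.finite
  exact not_finite ℕ

theorem exists_separable_quotient_of_basis {X : Type*} [NormedAddCommGroup X] [NormedSpace 𝕜 X]
    [CompleteSpace X] [CompleteSpace Y] (T : X →L[𝕜] Y) (e : ℕ → Y) (ev : ℕ → Y →L[𝕜] 𝕜)
    (h1 : ∀ i j, ev i (e j) = if i = j then 1 else 0)
    (h2 : ∀ y, Tendsto (fun n => ∑ k ∈ Finset.range n, ev k y • e k) atTop (𝓝 y))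
    (h3 : ∀ F : Y →L[𝕜] 𝕜, Tendsto (fun n => ∑ k ∈ Finset.range n, F (e k) • ev k) atTop (𝓝 F))
    (c : ℝ) (hc : 0 < c)
    (h4 : ∀ (n : ℕ) (a : ℕ → 𝕜), c * ‖∑ k ∈ Finset.range n, a k • ev k‖ ≤
      ‖∑ k ∈ Finset.range n, a k • (ev k).comp T‖) :
    ∃ M : Submodule 𝕜 X, IsClosed (M : Set X) ∧ TopologicalSpace.SeparableSpace (X ⧸ M) ∧
      ¬ FiniteDimensional 𝕜 (X ⧸ M) := by
  have := separable_of_basis e (fun k y => ev k y) h2
  refine exists_separable_quotient_of_surjective (not_finiteDimensional_of_basis e ev h1) T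
    (surjective_of_adjoint_bounded_below T c hc (fun F => ?_))
  have h5 : Tendsto (fun n => c * ‖∑ k ∈ Finset.range n, F (e k) • ev k‖) atTop
      (𝓝 (c * ‖F‖)) := ((h3 F).norm).const_mul c
  have h6 : Tendsto (fun n => ‖(∑ k ∈ Finset.range n, F (e k) • ev k).comp T‖) atTop
      (𝓝 ‖F.comp T‖) := by
    have h7 : Continuous (fun G : Y →L[𝕜] 𝕜 => G.comp T) := by fun_prop
    exact ((h7.tendsto F).comp (h3 F)).norm
  refine le_of_tendsto_of_tendsto' h5 h6 (fun n => ?_)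
  refine le_trans (h4 n (fun k => F (e k))) (le_of_eq ?_)
  congr 1
  ext x
  simp only [sum_apply, smul_apply, ContinuousLinearMap.comp_apply, smul_eq_mul]

end basis

/-- `l2` quotient -/
theorem exists_separable_quotient_of_l2 {𝕜 : Type*} [RCLike 𝕜] {X : Type*}
    [NormedAddCommGroup X] [NormedSpace 𝕜 X] [CompleteSpace X]
    (f : ℕ → X →L[𝕜] 𝕜) (c : ℝ) (hc : 0 < c)
    (hup : ∀ (x : X) (n : ℕ), ∑ k ∈ Finset.range n, ‖f k x‖ ^ 2 ≤ ‖x‖ ^ 2)
    (hlow : ∀ (n : ℕ) (a : ℕ → 𝕜), c ^ 2 * ∑ k ∈ Finset.range n, ‖a k‖ ^ 2 ≤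
      ‖∑ k ∈ Finset.range n, a k • f k‖ ^ 2) :
    ∃ M : Submodule 𝕜 X, IsClosed (M : Set X) ∧ TopologicalSpace.SeparableSpace (X ⧸ M) ∧
      ¬ FiniteDimensional 𝕜 (X ⧸ M) := by
  have hs : ∀ x, Summable (fun k => ‖f k x‖ ^ 2) := fun x =>
    summable_of_sum_range_le (fun k => sq_nonneg _) (hup x)
  have hmem : ∀ x, Memℓp (fun k => f k x) 2 := by
    intro x
    refine memℓp_gen ?_
    simpa only [ENNReal.toReal_ofNat, Real.rpow_ofNat] using hs x
  let T0 : X →ₗ[𝕜] lp (fun _ : ℕ => 𝕜) 2 :=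
    { toFun := fun x => ⟨fun k => f k x, hmem x⟩
      map_add' := fun x y => by
        ext k
        exact map_add (f k) x y
      map_smul' := fun a x => by
        ext k
        exact map_smul (f k) a x }
  have hT0 : ∀ x k, (T0 x) k = f k x := fun x k => rfl
  have hTn : ∀ x, ‖T0 x‖ ≤ 1 * ‖x‖ := by
    intro x
    rw [one_mul]
    have h1 := lp.norm_rpow_eq_tsum (p := 2) (by norm_num) (T0 x)
    have h2 : ‖T0 x‖ ^ 2 = ∑' k, ‖f k x‖ ^ 2 := by
      simpa only [ENNReal.toReal_ofNat, Real.rpow_ofNat, hT0] using h1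
    have h3 : ∑' k, ‖f k x‖ ^ 2 ≤ ‖x‖ ^ 2 :=
      Real.tsum_le_of_sum_range_le (fun k => sq_nonneg _) (hup x)
    rw [← h2] at h3
    exact (pow_le_pow_iff_left₀ (norm_nonneg _) (norm_nonneg _) two_ne_zero).mp h3
  let T : X →L[𝕜] lp (fun _ : ℕ => 𝕜) 2 := T0.mkContinuous 1 hTn
  let e : ℕ → lp (fun _ : ℕ => 𝕜) 2 := fun k => lp.single 2 k (1 : 𝕜)
  let ev : ℕ → lp (fun _ : ℕ => 𝕜) 2 →L[𝕜] 𝕜 := fun k => innerSL 𝕜 (e k)
  have hev : ∀ k y, ev k y = y k := by
    intro k y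
    show inner 𝕜 (lp.single 2 k (1 : 𝕜)) y = y k
    rw [lp.inner_single_left, RCLike.inner_apply]
    simp only [map_one, mul_one]
  have hsmul : ∀ (k : ℕ) (a : 𝕜), a • e k = lp.single 2 k a := by
    intro k a
    show a • lp.single (E := fun _ : ℕ => 𝕜) 2 k (1 : 𝕜) = _
    rw [← lp.single_smul, smul_eq_mul, mul_one]
  have hev2 : ∀ y, Tendsto (fun n => ∑ k ∈ Finset.range n, ev k y • e k) atTop (𝓝 y) := by
    intro y
    have h1 := (lp.hasSum_single (p := 2) (by norm_num) y).tendsto_sum_nat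
    refine h1.congr (fun n => ?_)
    refine Finset.sum_congr rfl (fun k _ => ?_)
    rw [hev, hsmul]
  have hnorm : ∀ (n : ℕ) (a : ℕ → 𝕜), ‖∑ k ∈ Finset.range n, a k • e k‖ ^ 2 =
      ∑ k ∈ Finset.range n, ‖a k‖ ^ 2 := by
    intro n a
    have h1 := lp.norm_sum_single (E := fun _ : ℕ => 𝕜) (p := 2) (by (clear * -; norm_num)) a (Finset.range n)
    simp only [hsmul]
    simpa only [ENNReal.toReal_ofNat, Real.rpow_ofNat] using h1
  have hev_norm : ∀ (n : ℕ) (a : ℕ → 𝕜), ‖∑ k ∈ Finset.range n, a k • ev k‖ =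
      ‖∑ k ∈ Finset.range n, (starRingEnd 𝕜 (a k)) • e k‖ := by
    intro n a
    have h1 : ∑ k ∈ Finset.range n, a k • ev k =
        innerSL 𝕜 (∑ k ∈ Finset.range n, (starRingEnd 𝕜 (a k)) • e k) := by
      ext y
      simp only [_root_.sum_apply, _root_.smul_apply, innerSL_apply_apply,
        sum_inner, inner_smul_left, ev, RCLike.conj_conj, smul_eq_mul]
    rw [h1, innerSL_apply_norm]
  refine exists_separable_quotient_of_basis T e ev ?_ hev2 ?_ c hc ?_
  · intro i j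
    rw [hev]
    show (lp.single 2 j (1 : 𝕜) : lp (fun _ : ℕ => 𝕜) 2) i = _
    rw [lp.single_apply]
    simp [Pi.single_apply]
  · intro F
    set b := (InnerProductSpace.toDual 𝕜 (lp (fun _ : ℕ => 𝕜) 2)).symm F with hb
    have hF : F = innerSL 𝕜 b := by
      ext y
      rw [innerSL_apply_apply, hb, InnerProductSpace.toDual_symm_apply]
    have h1 : ∀ n, ∑ k ∈ Finset.range n, F (e k) • ev k =
        innerSL 𝕜 (∑ k ∈ Finset.range n, ev k b • e k) := by
      intro n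
      ext y
      simp only [hF, innerSL_apply_apply, sum_apply, smul_apply, smul_eq_mul, sum_inner, inner_smul_left]
      refine Finset.sum_congr rfl (fun k _ => ?_)
      congr 1
      simp only [ev, innerSL_apply_apply]
      rw [inner_conj_symm]
    simp only [h1]
    rw [hF]
    exact ((innerSL 𝕜).continuous.tendsto b).comp (hev2 b)
  · intro n a
    have h1 : ∀ k, (ev k).comp T = f k := by
      intro k
      ext x
      exact hev k (T0 x)
    simp only [h1]
    have h2 := hlow n a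
    have h3 : ‖∑ k ∈ Finset.range n, a k • ev k‖ ^ 2 = ∑ k ∈ Finset.range n, ‖a k‖ ^ 2 := by
      rw [hev_norm, hnorm]
      refine Finset.sum_congr rfl (fun k _ => ?_)
      rw [RCLike.norm_conj]
    rw [← h3, ← mul_pow] at h2
    exact (pow_le_pow_iff_left₀ (by positivity) (norm_nonneg _) two_ne_zero).mp h2

namespace C0aux

section abs

variable {𝕜 : Type*} [RCLike 𝕜] {Y : Type*} [NormedAddCommGroup Y] [NormedSpace 𝕜 Y]
  {e : ℕ → Y} {ev : ℕ → Y →L[𝕜] 𝕜}

theorem sum_coord (h1 : ∀ i j, ev i (e j) = if i = j then 1 else 0) (n : ℕ) (a : ℕ → 𝕜)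
    (j : ℕ) : ev j (∑ k ∈ Finset.range n, a k • e k) = if j < n then a j else 0 := by
  rw [map_sum]
  have h2 : ∀ k ∈ Finset.range n, ev j (a k • e k) = if j = k then a k else 0 := by
    intro k _
    rw [map_smul, h1, smul_eq_mul]
    split_ifs <;> simp
  rw [Finset.sum_congr rfl h2, Finset.sum_ite_eq]
  simp

theorem tendsto_sum (h1 : ∀ i j, ev i (e j) = if i = j then 1 else 0)
    (hle : ∀ (y : Y) (C : ℝ), 0 ≤ C → (∀ k, ‖ev k y‖ ≤ C) → ‖y‖ ≤ C)
    (hnull : ∀ y, Tendsto (fun k => ev k y) atTop (𝓝 0)) (y : Y) :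
    Tendsto (fun n => ∑ k ∈ Finset.range n, ev k y • e k) atTop (𝓝 y) := by
  rw [Metric.tendsto_atTop]
  intro ε hε
  obtain ⟨N, hN⟩ := Metric.tendsto_atTop.mp (hnull y) (ε / 2) (by positivity)
  refine ⟨N, fun n hn => ?_⟩
  rw [dist_eq_norm]
  refine lt_of_le_of_lt (hle _ (ε / 2) (by positivity) (fun j => ?_)) (by linarith only [hε])
  rw [map_sub, sum_coord h1 n (fun k => ev k y) j]
  split_ifs with hj
  · rw [sub_self, norm_zero]
    positivity
  · rw [zero_sub, norm_neg]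
    have := hN j (by omega)
    rw [dist_zero_right] at this
    exact this.le

theorem sum_norm_le (h1 : ∀ i j, ev i (e j) = if i = j then 1 else 0)
    (hle : ∀ (y : Y) (C : ℝ), 0 ≤ C → (∀ k, ‖ev k y‖ ≤ C) → ‖y‖ ≤ C)
    (F : Y →L[𝕜] 𝕜) (n : ℕ) : ∑ k ∈ Finset.range n, ‖F (e k)‖ ≤ ‖F‖ := by
  choose w hw1 hw2 using fun k => RCLike.exists_norm_eq_mul_self (F (e k))
  have h3 : ((∑ k ∈ Finset.range n, ‖F (e k)‖ : ℝ) : 𝕜) =
      F (∑ k ∈ Finset.range n, w k • e k) := by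
    rw [map_sum, RCLike.ofReal_sum]
    refine Finset.sum_congr rfl (fun k _ => ?_)
    rw [map_smul, smul_eq_mul, ← hw2]
  have h2 : ‖∑ k ∈ Finset.range n, w k • e k‖ ≤ 1 := by
    refine hle _ 1 zero_le_one (fun j => ?_)
    rw [sum_coord h1]
    split_ifs
    · rw [hw1]
    · rw [norm_zero]
      exact zero_le_one
  calc ∑ k ∈ Finset.range n, ‖F (e k)‖
      = ‖((∑ k ∈ Finset.range n, ‖F (e k)‖ : ℝ) : 𝕜)‖ := by
        rw [RCLike.norm_ofReal, abs_of_nonneg (Finset.sum_nonneg (fun k _ => norm_nonneg _))]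
    _ = ‖F (∑ k ∈ Finset.range n, w k • e k)‖ := by rw [h3]
    _ ≤ ‖F‖ * ‖∑ k ∈ Finset.range n, w k • e k‖ := F.le_opNorm _
    _ ≤ ‖F‖ * 1 := mul_le_mul_of_nonneg_left h2 (norm_nonneg _)
    _ = ‖F‖ := mul_one _

theorem tendsto_functional (h1 : ∀ i j, ev i (e j) = if i = j then 1 else 0)
    (hle : ∀ (y : Y) (C : ℝ), 0 ≤ C → (∀ k, ‖ev k y‖ ≤ C) → ‖y‖ ≤ C)
    (hnull : ∀ y, Tendsto (fun k => ev k y) atTop (𝓝 0)) (hev : ∀ k, ‖ev k‖ ≤ 1)
    (F : Y →L[𝕜] 𝕜) :
    Tendsto (fun n => ∑ k ∈ Finset.range n, F (e k) • ev k) atTop (𝓝 F) := by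
  have hsum : Summable (fun k => ‖F (e k)‖) :=
    summable_of_sum_range_le (fun k => norm_nonneg _) (sum_norm_le h1 hle F)
  have hS : Summable (fun k => F (e k) • ev k) := by
    refine Summable.of_norm_bounded hsum (fun k => ?_)
    rw [norm_smul]
    calc ‖F (e k)‖ * ‖ev k‖ ≤ ‖F (e k)‖ * 1 :=
          mul_le_mul_of_nonneg_left (hev k) (norm_nonneg _)
      _ = ‖F (e k)‖ := mul_one _
  have h3 := hS.hasSum.tendsto_sum_nat
  have h2 : ∑' k, F (e k) • ev k = F := by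
    refine ContinuousLinearMap.ext (fun y => ?_)
    have h3 : Tendsto (fun n => (∑ k ∈ Finset.range n, F (e k) • ev k) y) atTop
        (𝓝 ((∑' k, F (e k) • ev k) y)) := by
      have h5 : Continuous (fun G : Y →L[𝕜] 𝕜 => G y) :=
        (ContinuousLinearMap.apply 𝕜 𝕜 y).continuous
      exact (h5.tendsto _).comp h3
    have h4 : Tendsto (fun n => (∑ k ∈ Finset.range n, F (e k) • ev k) y) atTop (𝓝 (F y)) := by
      refine ((F.continuous.tendsto y).comp (tendsto_sum h1 hle hnull y)).congr (fun n => ?_)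
      simp only [Function.comp_apply, map_sum, map_smul, _root_.sum_apply, _root_.smul_apply,
        smul_eq_mul]
      exact Finset.sum_congr rfl (fun k _ => mul_comm _ _)
    exact tendsto_nhds_unique h3 h4
  rw [h2] at h3
  exact h3

theorem quotient_of_abs {X : Type*} [NormedAddCommGroup X] [NormedSpace 𝕜 X]
    [CompleteSpace X] [CompleteSpace Y]
    (h1 : ∀ i j, ev i (e j) = if i = j then 1 else 0)
    (hle : ∀ (y : Y) (C : ℝ), 0 ≤ C → (∀ k, ‖ev k y‖ ≤ C) → ‖y‖ ≤ C)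
    (hnull : ∀ y, Tendsto (fun k => ev k y) atTop (𝓝 0)) (hev : ∀ k, ‖ev k‖ ≤ 1)
    (hsurj : ∀ y : ℕ → 𝕜, Tendsto y atTop (𝓝 0) → ∃ z : Y, ∀ k, ev k z = y k)
    (f : ℕ → X →L[𝕜] 𝕜) (c : ℝ) (hc : 0 < c) (hb : ∀ k, ‖f k‖ ≤ 1)
    (hfnull : ∀ x, Tendsto (fun k => f k x) atTop (𝓝 0))
    (hlow : ∀ (n : ℕ) (a : ℕ → 𝕜), c * ∑ k ∈ Finset.range n, ‖a k‖ ≤
      ‖∑ k ∈ Finset.range n, a k • f k‖) :
    ∃ M : Submodule 𝕜 X, IsClosed (M : Set X) ∧ TopologicalSpace.SeparableSpace (X ⧸ M) ∧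
      ¬ FiniteDimensional 𝕜 (X ⧸ M) := by
  choose t ht using fun x => hsurj (fun k => f k x) (hfnull x)
  have hinj : ∀ y z : Y, (∀ k, ev k y = ev k z) → y = z := by
    intro y z h
    rw [← sub_eq_zero, ← norm_eq_zero]
    refine le_antisymm (hle _ 0 le_rfl (fun k => ?_)) (norm_nonneg _)
    rw [map_sub, h k, sub_self, norm_zero]
  let T0 : X →ₗ[𝕜] Y :=
    { toFun := t
      map_add' := fun x y => hinj _ _ (fun k => by rw [map_add, ht, ht, ht, map_add])
      map_smul' := fun a x => hinj _ _ (fun k => by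
        rw [RingHom.id_apply, map_smul, ht, ht, map_smul]) }
  have hTn : ∀ x, ‖T0 x‖ ≤ 1 * ‖x‖ := by
    intro x
    refine hle _ _ (by (clear * -; positivity)) (fun k => ?_)
    have h2 : ev k (T0 x) = f k x := ht x k
    rw [h2]
    exact le_trans ((f k).le_opNorm x) (mul_le_mul_of_nonneg_right (hb k) (norm_nonneg _))
  refine exists_separable_quotient_of_basis (T0.mkContinuous 1 hTn) e ev h1
    (tendsto_sum h1 hle hnull) (tendsto_functional h1 hle hnull hev) c hc ?_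
  intro n a
  have h3 : ∀ k, (ev k).comp (T0.mkContinuous 1 hTn) = f k := by
    intro k
    ext x
    exact ht x k
  simp only [h3]
  refine le_trans (mul_le_mul_of_nonneg_left ?_ hc.le) (hlow n a)
  refine le_trans (norm_sum_le _ _) (Finset.sum_le_sum (fun k _ => ?_))
  rw [norm_smul]
  calc ‖a k‖ * ‖ev k‖ ≤ ‖a k‖ * 1 := mul_le_mul_of_nonneg_left (hev k) (norm_nonneg _)
    _ = ‖a k‖ := mul_one _

end abs

/-- `c0` as a closed subspace of `l^infty` -/
def c0sub (𝕜 : Type*) [RCLike 𝕜] : Submodule 𝕜 (lp (fun _ : ℕ => 𝕜) ⊤) where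
  carrier := {y | Tendsto (fun k => y k) atTop (𝓝 0)}
  add_mem' := by
    intro a b ha hb
    have := Tendsto.add ha hb
    rw [add_zero] at this
    exact this
  zero_mem' := tendsto_const_nhds
  smul_mem' := by
    intro c a ha
    have := Tendsto.const_smul ha c
    rw [smul_zero] at this
    exact this

variable {𝕜 : Type*} [RCLike 𝕜]

theorem mem_c0sub {y : lp (fun _ : ℕ => 𝕜) ⊤} :
    y ∈ c0sub 𝕜 ↔ Tendsto (fun k => y k) atTop (𝓝 0) := Iff.rfl

theorem isClosed_c0sub : IsClosed (c0sub 𝕜 : Set (lp (fun _ : ℕ => 𝕜) ⊤)) := by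
  refine isClosed_of_closure_subset (fun y hy => ?_)
  rw [SetLike.mem_coe, mem_c0sub, Metric.tendsto_atTop]
  intro ε hε
  obtain ⟨z, hz, hyz⟩ := Metric.mem_closure_iff.mp hy (ε / 2) (by positivity)
  rw [SetLike.mem_coe, mem_c0sub] at hz
  obtain ⟨N, hN⟩ := Metric.tendsto_atTop.mp hz (ε / 2) (by positivity)
  refine ⟨N, fun n hn => ?_⟩
  have h1 := hN n hn
  have h2 : ‖(y - z) n‖ ≤ ‖y - z‖ := lp.norm_apply_le_norm (by norm_num) _ n
  rw [dist_eq_norm] at hyz
  rw [dist_zero_right] at h1 ⊢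
  have h3 : ‖y n‖ ≤ ‖(y - z) n‖ + ‖z n‖ := by
    have : y n = (y - z) n + z n := by
      rw [lp.coeFn_sub, Pi.sub_apply, sub_add_cancel]
    calc ‖y n‖ = ‖(y - z) n + z n‖ := by rw [← this]
      _ ≤ _ := norm_add_le _ _
  linarith only [hyz, h1, h2, h3]

theorem complete_c0sub : CompleteSpace (c0sub 𝕜) := isClosed_c0sub.completeSpace_coe

theorem memlp_of_null {y : ℕ → 𝕜} (hy : Tendsto y atTop (𝓝 0)) : Memℓp y ⊤ := by
  refine memℓp_infty ?_
  have h1 := hy.norm
  rw [norm_zero] at h1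
  exact h1.bddAbove_range

/-- a null sequence as an element of `c0` -/
noncomputable def mk (y : ℕ → 𝕜) (hy : Tendsto y atTop (𝓝 0)) : c0sub 𝕜 :=
  ⟨⟨y, memlp_of_null hy⟩, hy⟩

theorem norm_le_of (y : c0sub 𝕜) {C : ℝ} (hC : 0 ≤ C) (h : ∀ k, ‖y.1 k‖ ≤ C) : ‖y‖ ≤ C :=
  lp.norm_le_of_forall_le hC h

theorem coord_le (y : c0sub 𝕜) (k : ℕ) : ‖y.1 k‖ ≤ ‖y‖ :=
  lp.norm_apply_le_norm (by norm_num) y.1 k

theorem tendsto_single (k : ℕ) : Tendsto (Pi.single k (1 : 𝕜) : ℕ → 𝕜) atTop (𝓝 0) := by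
  refine tendsto_const_nhds.congr' ?_
  filter_upwards [eventually_gt_atTop k] with j hj
  rw [Pi.single_eq_of_ne (by omega)]

/-- unit vectors -/
noncomputable def e (k : ℕ) : c0sub 𝕜 := mk (Pi.single k (1 : 𝕜)) (tendsto_single k)

theorem e_apply (k j : ℕ) : (e k : c0sub 𝕜).1 j = if j = k then 1 else 0 := by
  show (Pi.single k (1 : 𝕜) : ℕ → 𝕜) j = _
  rw [Pi.single_apply]

/-- coordinate functionals -/
noncomputable def ev (k : ℕ) : c0sub 𝕜 →L[𝕜] 𝕜 :=
  LinearMap.mkContinuous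
    { toFun := fun y => y.1 k
      map_add' := fun x y => rfl
      map_smul' := fun a x => rfl } 1 (fun y => by rw [one_mul]; exact coord_le y k)

theorem ev_norm (k : ℕ) : ‖(ev k : c0sub 𝕜 →L[𝕜] 𝕜)‖ ≤ 1 :=
  LinearMap.mkContinuous_norm_le _ zero_le_one _

end C0aux

/-- `c0` quotient -/
theorem exists_separable_quotient_of_c0 {𝕜 : Type*} [RCLike 𝕜] {X : Type*}
    [NormedAddCommGroup X] [NormedSpace 𝕜 X] [CompleteSpace X]
    (f : ℕ → X →L[𝕜] 𝕜) (c : ℝ) (hc : 0 < c) (hb : ∀ k, ‖f k‖ ≤ 1)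
    (hnull : ∀ x, Tendsto (fun k => f k x) atTop (𝓝 0))
    (hlow : ∀ (n : ℕ) (a : ℕ → 𝕜), c * ∑ k ∈ Finset.range n, ‖a k‖ ≤
      ‖∑ k ∈ Finset.range n, a k • f k‖) :
    ∃ M : Submodule 𝕜 X, IsClosed (M : Set X) ∧ TopologicalSpace.SeparableSpace (X ⧸ M) ∧
      ¬ FiniteDimensional 𝕜 (X ⧸ M) := by
  have := C0aux.complete_c0sub (𝕜 := 𝕜)
  exact C0aux.quotient_of_abs (Y := C0aux.c0sub 𝕜) (e := C0aux.e) (ev := C0aux.ev)
    (fun i j => C0aux.e_apply j i)
    (fun y _ hC h => C0aux.norm_le_of y hC h) (fun y => y.2) C0aux.ev_norm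
    (fun y hy => ⟨C0aux.mk y hy, fun _ => rfl⟩) f c hc hb hnull hlow

end Vale.Agent.P129
end
end

section

section

/-!
# Sign functionals give functionals equivalent to an orthonormal sequence
-/

namespace Vale.Agent.P129

open Finset Filter Topology

section

variable {𝕜 : Type*} [RCLike 𝕜] {X : Type*} [NormedAddCommGroup X] [NormedSpace 𝕜 X]

/-- Rademacher average of functionals. -/
noncomputable def avgF {n : ℕ} (ψ : (Fin n → Bool) → X →L[𝕜] 𝕜) (k : Fin n) : X →L[𝕜] 𝕜 :=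
  (1 / 2 ^ n : 𝕜) • ∑ ω, ((sg (ω k) : ℝ) : 𝕜) • ψ ω

lemma avgF_apply {n : ℕ} (ψ : (Fin n → Bool) → X →L[𝕜] 𝕜) (k : Fin n) (x : X) :
    avgF ψ k x = (1 / 2 ^ n : 𝕜) * ∑ ω, ((sg (ω k) : ℝ) : 𝕜) * ψ ω x := by
  simp only [avgF, one_div, smul_apply, _root_.sum_apply, smul_eq_mul]

lemma avgF_bessel {n : ℕ} {ψ : (Fin n → Bool) → X →L[𝕜] 𝕜} (hψ : ∀ ω, ‖ψ ω‖ ≤ 1) (x : X) :
    ∑ k, ‖avgF ψ k x‖ ^ 2 ≤ ‖x‖ ^ 2 := by
  simp_rw [avgF_apply]
  refine (bessel (fun ω => ψ ω x)).trans ?_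
  have h1 : ∀ ω, ‖ψ ω x‖ ≤ ‖x‖ := fun ω =>
    ((ψ ω).le_opNorm x).trans (mul_le_of_le_one_left (norm_nonneg _) (hψ ω))
  calc 1 / 2 ^ n * ∑ ω, ‖ψ ω x‖ ^ 2 ≤ 1 / 2 ^ n * ∑ _ω : Fin n → Bool, ‖x‖ ^ 2 := by
        gcongr with ω _
        exact h1 ω
    _ = ‖x‖ ^ 2 := by simp only [one_div, sum_const, card_univ, Fintype.card_pi, Fintype.card_bool, prod_const, Fintype.card_fin, nsmul_eq_mul, Nat.cast_pow, Nat.cast_ofNat, ne_eq, pow_eq_zero_iff', OfNat.ofNat_ne_zero, false_and, not_false_eq_true, inv_mul_cancel_left₀]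

lemma avgF_norm_le {n : ℕ} {ψ : (Fin n → Bool) → X →L[𝕜] 𝕜} (hψ : ∀ ω, ‖ψ ω‖ ≤ 1) (k : Fin n) :
    ‖avgF ψ k‖ ≤ 1 := by
  refine ContinuousLinearMap.opNorm_le_bound _ zero_le_one fun x => ?_
  rw [one_mul]
  have h1 := avgF_bessel hψ x
  have h2 : ‖avgF ψ k x‖ ^ 2 ≤ ∑ k, ‖avgF ψ k x‖ ^ 2 :=
    Finset.single_le_sum (f := fun k => ‖avgF ψ k x‖ ^ 2) (fun _ _ => sq_nonneg _)
      (Finset.mem_univ k)
  exact le_of_sq_le_sq (h2.trans h1) (norm_nonneg _) |> fun h => h

lemma rs_sub {n : ℕ} (b q : Fin n → ℝ) (ω : Fin n → Bool) :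
    rs (fun k => b k - q k) ω = rs b ω - rs q ω := by
  simp only [rs, sub_mul, sum_sub_distrib]

lemma avgF_lower {n : ℕ} {ψ : (Fin n → Bool) → X →L[𝕜] 𝕜} {x : X} {δ : ℝ} (hδ : 0 < δ)
    (s : (Fin n → Bool) → ℝ) (hs : ∀ ω, |s ω| = 1) (q : Fin n → ℝ)
    (hsq : ∀ ω, s ω * rs q ω = |rs q ω|)
    (h : ∀ ω, ‖ψ ω x - ((δ * s ω : ℝ) : 𝕜)‖ ≤ δ / 16) (a : Fin n → 𝕜) :
    45 / 88 * δ * Real.sqrt (∑ k, RCLike.re (a k) ^ 2)
      - δ / 16 * Real.sqrt (∑ k, RCLike.im (a k) ^ 2)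
      - 2 * δ * ∑ k, |RCLike.re (a k) - q k| ≤ RCLike.re (∑ k, a k * avgF ψ k x) := by
  set b : Fin n → ℝ := fun k => RCLike.re (a k) with hb
  set b' : Fin n → ℝ := fun k => RCLike.im (a k) with hb'
  -- rewriting the right side
  have h1 : RCLike.re (∑ k, a k * avgF ψ k x)
      = 1 / 2 ^ n * ∑ ω, (rs b ω * RCLike.re (ψ ω x) - rs b' ω * RCLike.im (ψ ω x)) := by
    have e1 : ∑ k, a k * avgF ψ k x
        = ((1 / 2 ^ n : ℝ) : 𝕜) * ∑ ω, (∑ k, a k * ((sg (ω k) : ℝ) : 𝕜)) * ψ ω x := by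
      simp_rw [avgF_apply]
      push_cast
      rw [Finset.mul_sum]
      simp_rw [Finset.sum_mul, Finset.mul_sum]
      rw [Finset.sum_comm]
      refine Finset.sum_congr rfl fun ω _ => Finset.sum_congr rfl fun k _ => ?_
      ring
    rw [e1, RCLike.re_ofReal_mul]
    congr 1
    rw [map_sum]
    refine Finset.sum_congr rfl fun ω _ => ?_
    rw [RCLike.mul_re]
    have e2 : RCLike.re (∑ k, a k * ((sg (ω k) : ℝ) : 𝕜)) = rs b ω := by
      rw [map_sum]
      refine Finset.sum_congr rfl fun k _ => ?_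
      rw [RCLike.re_mul_ofReal]
    have e3 : RCLike.im (∑ k, a k * ((sg (ω k) : ℝ) : 𝕜)) = rs b' ω := by
      rw [map_sum]
      refine Finset.sum_congr rfl fun k _ => ?_
      rw [RCLike.im_mul_ofReal]
    rw [e2, e3]
  have hpt : ∀ ω, 15 / 16 * δ * |rs b ω| - 2 * δ * |rs (fun k => b k - q k) ω|
      - δ / 16 * |rs b' ω| ≤ rs b ω * RCLike.re (ψ ω x) - rs b' ω * RCLike.im (ψ ω x) := by
    intro ω
    rw [rs_sub]
    have hre : |RCLike.re (ψ ω x) - δ * s ω| ≤ δ / 16 := by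
      have := RCLike.abs_re_le_norm (ψ ω x - ((δ * s ω : ℝ) : 𝕜))
      rw [map_sub, RCLike.ofReal_re] at this
      exact this.trans (h ω)
    have him : |RCLike.im (ψ ω x)| ≤ δ / 16 := by
      have := RCLike.abs_im_le_norm (ψ ω x - ((δ * s ω : ℝ) : 𝕜))
      rw [map_sub, RCLike.ofReal_im, sub_zero] at this
      exact this.trans (h ω)
    set B := rs b ω
    set B' := rs b' ω
    set Q := rs q ω
    have h2 : |Q| - |B - Q| ≤ B * s ω := by
      have e1 : B * s ω = |Q| + (B - Q) * s ω := by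
        rw [← hsq ω]
        ring
      have e2 : |(B - Q) * s ω| = |B - Q| := by rw [abs_mul, hs, mul_one]
      have e3 := neg_abs_le ((B - Q) * s ω)
      rw [e2] at e3
      linarith only [e1, e3]
    have h3 : |B| - 2 * |B - Q| ≤ B * s ω := by
      have : |B| ≤ |Q| + |B - Q| := by
        have := abs_add_le Q (B - Q)
        simpa only [ge_iff_le, add_sub_cancel] using this
      linarith only [h2, this]
    have h4 : B * RCLike.re (ψ ω x) = δ * (B * s ω) + B * (RCLike.re (ψ ω x) - δ * s ω) := by ring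
    have h5 : -(δ / 16 * |B|) ≤ B * (RCLike.re (ψ ω x) - δ * s ω) := by
      have e1 := neg_abs_le (B * (RCLike.re (ψ ω x) - δ * s ω))
      rw [abs_mul] at e1
      have e2 := mul_le_mul_of_nonneg_left hre (abs_nonneg B)
      linarith only [e1, e2]
    have h6 : B' * RCLike.im (ψ ω x) ≤ δ / 16 * |B'| := by
      have e1 := le_abs_self (B' * RCLike.im (ψ ω x))
      rw [abs_mul] at e1
      have e2 := mul_le_mul_of_nonneg_left him (abs_nonneg B')
      linarith only [e1, e2]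
    have h7 := mul_le_mul_of_nonneg_left h3 hδ.le
    rw [h4]
    linarith
  rw [h1]
  have hsum := Finset.sum_le_sum fun ω (_ : ω ∈ (Finset.univ : Finset (Fin n → Bool))) => hpt ω
  rw [Finset.sum_sub_distrib, Finset.sum_sub_distrib, ← Finset.mul_sum, ← Finset.mul_sum,
    ← Finset.mul_sum] at hsum
  have k1 := khinchine b
  have k2 := sum_abs_rs_le b'
  have k3 := sum_abs_rs_le' (fun k => b k - q k)
  have h2n : (0 : ℝ) < 2 ^ n := by positivity
  rw [one_div, le_inv_mul_iff₀ h2n]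
  refine le_trans ?_ hsum
  have m1 := mul_le_mul_of_nonneg_left k1 (by positivity : 0 ≤ 15 / 16 * δ)
  have m2 := mul_le_mul_of_nonneg_left k2 (by positivity : 0 ≤ δ / 16)
  have m3 := mul_le_mul_of_nonneg_left k3 (by positivity : 0 ≤ 2 * δ)
  linarith

/-- From sign functionals to a sequence of functionals equivalent to an orthonormal one. -/
theorem exists_l2_functionals (δ : ℝ) (hδ : 0 < δ) (x : ℕ → X) (hx : ∀ i, ‖x i‖ ≤ 1)
    (h : ∀ (m : ℕ) (ε : ℕ → ℝ), (∀ i, ε i = 1 ∨ ε i = -1) →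
      ∃ ψ : X →L[𝕜] 𝕜, ‖ψ‖ ≤ 1 ∧ ∀ i < m, ‖ψ (x i) - ((δ * ε i : ℝ) : 𝕜)‖ ≤ δ / 16) :
    ∃ f : ℕ → X →L[𝕜] 𝕜,
      (∀ x (n : ℕ), ∑ k ∈ Finset.range n, ‖f k x‖ ^ 2 ≤ ‖x‖ ^ 2) ∧
      (∀ (n : ℕ) (a : ℕ → 𝕜), (δ / 4) ^ 2 * ∑ k ∈ Finset.range n, ‖a k‖ ^ 2
        ≤ ‖∑ k ∈ Finset.range n, a k • f k‖ ^ 2) := by
  classical
  obtain ⟨e, he⟩ := exists_surjective_nat (ℕ →₀ ℚ)
  -- sign patterns
  let q : (i n : ℕ) → Fin n → ℝ := fun i n k => ((e i k : ℚ) : ℝ)
  let sgn : (n : ℕ) → (Fin n → Bool) → ℕ → ℝ := fun n ω i => if 0 ≤ rs (q i n) ω then 1 else -1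
  have hsgn : ∀ n ω i, sgn n ω i = 1 ∨ sgn n ω i = -1 := by
    intro n ω i
    simp only [sgn]
    split_ifs <;> simp
  have hsgn1 : ∀ n ω i, |sgn n ω i| = 1 := by
    intro n ω i
    rcases hsgn n ω i with h | h <;> rw [h] <;> norm_num
  have hsgn2 : ∀ n ω i, sgn n ω i * rs (q i n) ω = |rs (q i n) ω| := by
    intro n ω i
    simp only [sgn]
    split_ifs with h0
    · rw [one_mul, abs_of_nonneg h0]
    · rw [abs_of_neg (not_le.mp h0)]
      ring
  choose ψ hψ1 hψ2 using fun (n : ℕ) (ω : Fin n → Bool) => h n (sgn n ω) (hsgn n ω)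
  let f : ℕ → ℕ → X →L[𝕜] 𝕜 := fun n k => if hk : k < n then avgF (ψ n) ⟨k, hk⟩ else 0
  have hf1 : ∀ n k, ‖f n k‖ ≤ 1 := by
    intro n k
    simp only [f]
    split_ifs with hk
    · exact avgF_norm_le (hψ1 n) _
    · simp only [norm_zero, zero_le_one]
  have hfin : ∀ n (G : (X →L[𝕜] 𝕜) → ℕ → ℝ) , (∀ k, G 0 k = 0) →
      ∀ K ≤ n, ∑ k ∈ range K, G (f n k) k = ∑ k : Fin n, if (k : ℕ) < K then
        G (avgF (ψ n) k) k else 0 := by
    intro n G _ K hK
    rw [← Finset.sum_range (fun k => if hk : k < n then (if k < K then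
      G (avgF (ψ n) ⟨k, hk⟩) k else 0) else 0) |> fun h => h.trans (Finset.sum_congr rfl
        fun k _ => by simp)]
    rw [← Finset.sum_subset (Finset.range_subset_range.mpr hK)]
    · refine Finset.sum_congr rfl fun k hk => ?_
      have hk' := Finset.mem_range.mp hk
      have hkn : k < n := by omega
      simp [f, hkn, hk']
    · intro k hk hk'
      rw [Finset.mem_range] at hk hk'
      simp [hk']
  have hup : ∀ n x' K, K ≤ n → ∑ k ∈ range K, ‖f n k x'‖ ^ 2 ≤ ‖x'‖ ^ 2 := by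
    intro n x' K hK
    rw [hfin n (fun F _ => ‖F x'‖ ^ 2) (by simp) K hK]
    refine le_trans ?_ (avgF_bessel (hψ1 n) x')
    refine Finset.sum_le_sum fun k _ => ?_
    split_ifs
    · exact le_rfl
    · (clear * -; positivity)
  -- limits
  have hlim : ∀ k, ∃ φ : X →L[𝕜] 𝕜, ∀ x',
      Tendsto (fun n => f n k x') (hyperfilter ℕ : Filter ℕ) (𝓝 (φ x')) := by
    intro k
    have hc := WeakDual.isCompact_closedBall (𝕜 := 𝕜) (E := X) 0 1
    let u : Ultrafilter (WeakDual 𝕜 X) :=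
      (hyperfilter ℕ).map (fun n => StrongDual.toWeakDual (f n k))
    have hu : (WeakDual.toStrongDual ⁻¹' Metric.closedBall (0 : X →L[𝕜] 𝕜) 1) ∈ u := by
      have : ∀ᶠ n in (hyperfilter ℕ : Filter ℕ), f n k ∈ Metric.closedBall (0 : X →L[𝕜] 𝕜) 1 :=
        Eventually.of_forall fun n => by
          rw [mem_closedBall_zero_iff]
          exact hf1 n k
      exact this
    obtain ⟨φ, -, hφ⟩ := isCompact_iff_ultrafilter_le_nhds'.1 hc u hu
    refine ⟨WeakDual.toStrongDual φ, fun x' => ?_⟩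
    have h1 : Tendsto (fun n => StrongDual.toWeakDual (f n k))
        (hyperfilter ℕ : Filter ℕ) (𝓝 φ) := hφ
    exact ((WeakDual.eval_continuous x').tendsto φ).comp h1
  choose φ hφ using hlim
  refine ⟨φ, fun x' K => ?_, fun K a => ?_⟩
  · have h1 : Tendsto (fun n => ∑ k ∈ range K, ‖f n k x'‖ ^ 2)
        (hyperfilter ℕ : Filter ℕ) (𝓝 (∑ k ∈ range K, ‖φ k x'‖ ^ 2)) :=
      tendsto_finsetSum _ fun k _ => ((hφ k x').norm).pow 2
    refine le_of_tendsto h1 ?_
    have : ∀ᶠ n in (atTop : Filter ℕ), ∑ k ∈ range K, ‖f n k x'‖ ^ 2 ≤ ‖x'‖ ^ 2 := by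
      filter_upwards [eventually_ge_atTop K] with n hn
      exact hup n x' K hn
    exact this.filter_mono Nat.hyperfilter_le_atTop
  · -- lower bound when the real part dominates
    have main : ∀ a : ℕ → 𝕜,
        ∑ k ∈ range K, RCLike.im (a k) ^ 2 ≤ ∑ k ∈ range K, RCLike.re (a k) ^ 2 →
        2 / 5 * δ * Real.sqrt (∑ k ∈ range K, RCLike.re (a k) ^ 2)
          ≤ ‖∑ k ∈ range K, a k • φ k‖ := by
      intro a hdom
      set A := Real.sqrt (∑ k ∈ range K, RCLike.re (a k) ^ 2) with hA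
      have hB : Real.sqrt (∑ k ∈ range K, RCLike.im (a k) ^ 2) ≤ A := Real.sqrt_le_sqrt hdom
      refine le_of_forall_pos_sub_le fun η hη => ?_
      -- rational approximation
      have hq : ∀ k, ∃ r : ℚ, |RCLike.re (a k) - r| ≤ η / (2 * δ * (K + 1)) := by
        intro k
        obtain ⟨r, hr1, hr2⟩ := exists_rat_btwn
          (show RCLike.re (a k) - η / (2 * δ * (K + 1)) < RCLike.re (a k) by
            have : 0 < η / (2 * δ * (K + 1)) := by (clear * - hη hδ; positivity)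
            linarith only [this])
        refine ⟨r, ?_⟩
        rw [abs_le]
        constructor <;> linarith only [hr1, hr2]
      choose r hr using hq
      obtain ⟨i, hi⟩ := he (Finsupp.onFinset (range K) (fun k => if k < K then r k else 0)
        (by intro k hk; simp at hk; simpa using hk.1))
      have hik : ∀ k, e i k = if k < K then r k else 0 := by
        intro k
        rw [hi]
        rfl
      have hn : ∀ n, K ≤ n → i < n →
          2 / 5 * δ * A - η ≤ RCLike.re (∑ k ∈ range K, a k * f n k (x i)) := by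
        intro n hKn hin
        let a' : Fin n → 𝕜 := fun k => if (k : ℕ) < K then a k else 0
        have h1 := avgF_lower hδ (fun ω => sgn n ω i) (fun ω => hsgn1 n ω i) (q i n)
          (fun ω => hsgn2 n ω i) (x := x i) (ψ := ψ n) (fun ω => hψ2 n ω i hin) a'
        have hrange : ∀ G : ℕ → ℝ, ∑ k : Fin n, (if (k : ℕ) < K then G k else 0)
            = ∑ k ∈ range K, G k := by
          intro G
          rw [← Finset.sum_range (fun k => if k < K then G k else 0)]
          rw [← Finset.sum_subset (Finset.range_subset_range.mpr hKn)]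
          · refine Finset.sum_congr rfl fun k hk => ?_
            simp [Finset.mem_range.mp hk]
          · intro k _ hk'
            rw [Finset.mem_range] at hk'
            simp [hk']
        have e1 : ∑ k, RCLike.re (a' k) ^ 2 = ∑ k ∈ range K, RCLike.re (a k) ^ 2 := by
          rw [← hrange]
          refine Finset.sum_congr rfl fun k _ => ?_
          simp only [a']
          split_ifs <;> simp
        have e2 : ∑ k, RCLike.im (a' k) ^ 2 = ∑ k ∈ range K, RCLike.im (a k) ^ 2 := by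
          rw [← hrange]
          refine Finset.sum_congr rfl fun k _ => ?_
          simp only [a']
          split_ifs <;> simp
        have e3 : ∑ k, |RCLike.re (a' k) - q i n k| = ∑ k ∈ range K, |RCLike.re (a k) - r k| := by
          rw [← hrange]
          refine Finset.sum_congr rfl fun k _ => ?_
          simp only [a', q, hik]
          split_ifs <;> simp
        have e4 : RCLike.re (∑ k, a' k * avgF (ψ n) k (x i))
            = RCLike.re (∑ k ∈ range K, a k * f n k (x i)) := by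
          rw [map_sum, map_sum, hfin n (fun F k => RCLike.re (a k * F (x i))) (by simp) K hKn]
          refine Finset.sum_congr rfl fun k _ => ?_
          simp only [a']
          split_ifs <;> simp only [zero_mul, map_zero]
        rw [e1, e2, e3, e4] at h1
        refine le_trans ?_ h1
        have e5 : ∑ k ∈ range K, |RCLike.re (a k) - r k| ≤ K * (η / (2 * δ * (K + 1))) := by
          refine (Finset.sum_le_sum fun k _ => hr k).trans ?_
          simp
        have e6 : 2 * δ * (K * (η / (2 * δ * (K + 1)))) ≤ η := by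
          have : 2 * δ * (K * (η / (2 * δ * (K + 1)))) = η * (K / (K + 1)) := by
            (clear * - hδ hη; field_simp)
          rw [this]
          have h2 : (K : ℝ) / (K + 1) ≤ 1 := by
            rw [div_le_one (by (clear * -; positivity))]
            linarith only []
          nlinarith only [hη, h2]
        have e7 := mul_le_mul_of_nonneg_left e5 (by positivity : 0 ≤ 2 * δ)
        have e8 := mul_le_mul_of_nonneg_left hB (by positivity : 0 ≤ δ / 16)
        have hA0 : 0 ≤ A := Real.sqrt_nonneg _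
        have e9 : 0 ≤ δ * A := by (clear * - hδ; positivity)
        rw [← hA]
        linarith only [e6, e7, e8, e9]
      -- pass to the limit
      have hlim : Tendsto (fun n => RCLike.re (∑ k ∈ range K, a k * f n k (x i)))
          (hyperfilter ℕ : Filter ℕ) (𝓝 (RCLike.re (∑ k ∈ range K, a k * φ k (x i)))) := by
        refine (RCLike.continuous_re.tendsto _).comp ?_
        exact tendsto_finsetSum _ fun k _ => (hφ k (x i)).const_mul (a k)
      have h2 : 2 / 5 * δ * A - η ≤ RCLike.re (∑ k ∈ range K, a k * φ k (x i)) := by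
        refine ge_of_tendsto hlim ?_
        have : ∀ᶠ n in (atTop : Filter ℕ),
            2 / 5 * δ * A - η ≤ RCLike.re (∑ k ∈ range K, a k * f n k (x i)) := by
          filter_upwards [eventually_ge_atTop (max K (i + 1))] with n hn'
          exact hn n (le_trans (le_max_left _ _) hn')
            (lt_of_lt_of_le (Nat.lt_succ_self i) (le_trans (le_max_right _ _) hn'))
        exact this.filter_mono Nat.hyperfilter_le_atTop
      have h3 : ∑ k ∈ range K, a k * φ k (x i) = (∑ k ∈ range K, a k • φ k) (x i) := by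
        simp only [_root_.sum_apply, smul_apply, smul_eq_mul]
      rw [h3] at h2
      calc 2 / 5 * δ * A - η ≤ RCLike.re ((∑ k ∈ range K, a k • φ k) (x i)) := h2
        _ ≤ ‖(∑ k ∈ range K, a k • φ k) (x i)‖ := RCLike.re_le_norm _
        _ ≤ ‖∑ k ∈ range K, a k • φ k‖ * ‖x i‖ := ContinuousLinearMap.le_opNorm _ _
        _ ≤ ‖∑ k ∈ range K, a k • φ k‖ := mul_le_of_le_one_right (norm_nonneg _) (hx i)
    -- conclusion from `main`
    have concl : ∀ a : ℕ → 𝕜,
        ∑ k ∈ range K, RCLike.im (a k) ^ 2 ≤ ∑ k ∈ range K, RCLike.re (a k) ^ 2 →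
        (δ / 4) ^ 2 * (2 * ∑ k ∈ range K, RCLike.re (a k) ^ 2)
          ≤ ‖∑ k ∈ range K, a k • φ k‖ ^ 2 := by
      intro a hdom
      have h1 := main a hdom
      have h2 : (2 / 5 * δ * Real.sqrt (∑ k ∈ range K, RCLike.re (a k) ^ 2)) ^ 2
          ≤ ‖∑ k ∈ range K, a k • φ k‖ ^ 2 := pow_le_pow_left₀ (by positivity) h1 2
      rw [mul_pow, Real.sq_sqrt (Finset.sum_nonneg fun k _ => sq_nonneg _)] at h2
      refine le_trans ?_ h2
      have h3 : 0 ≤ δ ^ 2 * ∑ k ∈ range K, RCLike.re (a k) ^ 2 :=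
        mul_nonneg (sq_nonneg _) (Finset.sum_nonneg fun k _ => sq_nonneg _)
      nlinarith only [h3]
    have hnorm : ∀ a : ℕ → 𝕜, ∑ k ∈ range K, ‖a k‖ ^ 2
        = ∑ k ∈ range K, RCLike.re (a k) ^ 2 + ∑ k ∈ range K, RCLike.im (a k) ^ 2 := by
      intro a
      rw [← Finset.sum_add_distrib]
      refine Finset.sum_congr rfl fun k _ => ?_
      rw [RCLike.norm_sq_eq_def]
      ring
    by_cases hdom : ∑ k ∈ range K, RCLike.im (a k) ^ 2 ≤ ∑ k ∈ range K, RCLike.re (a k) ^ 2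
    · refine le_trans ?_ (concl a hdom)
      gcongr
      rw [hnorm]
      linarith only [hdom]
    · push Not at hdom
      -- rotate
      set a2 : ℕ → 𝕜 := fun k => -(RCLike.I * a k) with ha2
      have hre : ∀ k, RCLike.re (a2 k) = RCLike.im (a k) := by
        intro k
        simp only [ha2, map_neg, RCLike.mul_re, RCLike.I_re, zero_mul, RCLike.I_im', zero_sub, neg_neg]
      have him : ∀ k, RCLike.im (a2 k) ^ 2 ≤ RCLike.re (a k) ^ 2 := by
        intro k
        have h1 : RCLike.im (a2 k) = -(RCLike.im (RCLike.I : 𝕜) * RCLike.re (a k)) := by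
          simp only [ha2, map_neg, RCLike.mul_im, RCLike.I_re, zero_mul, zero_add]
        rw [h1, neg_sq, mul_pow]
        have h2 : RCLike.im (RCLike.I : 𝕜) ^ 2 ≤ 1 := by
          rcases RCLike.I_mul_I (K := 𝕜) with h | h
          · rw [h]; simp only [map_zero, ne_eq, OfNat.ofNat_ne_zero, not_false_eq_true, zero_pow, zero_le_one]
          · have := RCLike.norm_I_of_ne_zero (K := 𝕜) (by
              intro h0
              rw [h0] at h
              simp only [mul_zero, zero_eq_neg, one_ne_zero] at h)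
            have h3 := RCLike.abs_im_le_norm (RCLike.I : 𝕜)
            rw [this] at h3
            rw [← sq_abs]
            exact pow_le_one₀ (abs_nonneg _) h3
        nlinarith only [h2]
      have h1 := concl a2 (by
        simp_rw [hre]
        exact (Finset.sum_le_sum fun k _ => him k).trans hdom.le)
      simp_rw [hre] at h1
      have h2 : ‖∑ k ∈ range K, a2 k • φ k‖ ≤ ‖∑ k ∈ range K, a k • φ k‖ := by
        have e1 : ∑ k ∈ range K, a2 k • φ k = -((RCLike.I : 𝕜) • ∑ k ∈ range K, a k • φ k) := by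
          rw [Finset.smul_sum, ← Finset.sum_neg_distrib]
          refine Finset.sum_congr rfl fun k _ => ?_
          ext y
          simp only [ha2, smul_apply, smul_eq_mul, neg_mul, mul_assoc, neg_apply]
        rw [e1, norm_neg, norm_smul]
        apply mul_le_of_le_one_left (norm_nonneg _)
        rcases RCLike.I_mul_I (K := 𝕜) with h | h
        · rw [h]; simp only [norm_zero, zero_le_one]
        · rw [RCLike.norm_I_of_ne_zero (by
            intro h0
            rw [h0] at h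
            simp at h)]
      refine le_trans ?_ (h1.trans (pow_le_pow_left₀ (norm_nonneg _) h2 2))
      gcongr
      rw [hnorm]
      linarith only [hdom]

end

/-- P129 M5b: functionals of norm at most one reproducing all sign patterns on a bounded sequence
produce an infinite-dimensional separable quotient (isomorphic to `ℓ²`). -/
theorem exists_separable_quotient_of_signs {𝕜 : Type*} [RCLike 𝕜] {X : Type*}
    [NormedAddCommGroup X] [NormedSpace 𝕜 X] [CompleteSpace X]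
    (δ : ℝ) (hδ : 0 < δ) (x : ℕ → X) (hx : ∀ i, ‖x i‖ ≤ 1)
    (h : ∀ (m : ℕ) (ε : ℕ → ℝ), (∀ i, ε i = 1 ∨ ε i = -1) →
      ∃ ψ : X →L[𝕜] 𝕜, ‖ψ‖ ≤ 1 ∧ ∀ i < m, ‖ψ (x i) - ((δ * ε i : ℝ) : 𝕜)‖ ≤ δ / 16) :
    ∃ M : Submodule 𝕜 X, IsClosed (M : Set X) ∧ TopologicalSpace.SeparableSpace (X ⧸ M) ∧
      ¬ FiniteDimensional 𝕜 (X ⧸ M) := by
  obtain ⟨f, hup, hlow⟩ := exists_l2_functionals δ hδ x hx h
  exact exists_separable_quotient_of_l2 f (δ / 4) (by positivity) hup hlow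

end Vale.Agent.P129
end
end

section

section

open Filter Topology MeasureTheory

namespace Vale.Agent.P129

/-- Hagler-Johnson: an `ℓ¹`-sequence in the dual yields an infinite-dimensional separable
quotient. -/
theorem exists_separable_quotient_of_l1 {𝕜 : Type*} [RCLike 𝕜] {X : Type*}
    [NormedAddCommGroup X] [NormedSpace 𝕜 X] [CompleteSpace X]
    (u : ℕ → X →L[𝕜] 𝕜) (hu : ∀ k, ‖u k‖ ≤ 1) (c : ℝ) (hc : 0 < c)
    (hlow : ∀ (n : ℕ) (a : ℕ → 𝕜), c * ∑ k ∈ Finset.range n, ‖a k‖ ≤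
      ‖∑ k ∈ Finset.range n, a k • u k‖) :
    ∃ M : Submodule 𝕜 X, IsClosed (M : Set X) ∧ TopologicalSpace.SeparableSpace (X ⧸ M) ∧
      ¬ FiniteDimensional 𝕜 (X ⧸ M) := by
  rcases hagler_johnson hu hlow with ⟨v, h1, h2, h3⟩ | ⟨δ, hδ, x, hx, h⟩
  · exact exists_separable_quotient_of_c0 v c hc h1 h2 h3
  · exact exists_separable_quotient_of_signs δ hδ x hx h

/-- If every set mapping which assigns Lebesgue null sets to finite sets of reals has an infinite
free set, then every infinite-dimensional Banach space has an infinite-dimensional separable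
quotient. -/
theorem exists_separable_quotient_of_free {𝕜 : Type*} [RCLike 𝕜] {X : Type*}
    [NormedAddCommGroup X] [NormedSpace 𝕜 X] [CompleteSpace X]
    (hfree : ∀ F : Finset ℝ → Set ℝ, (∀ s, volume (F s) = 0) →
      ∃ g : ℕ → ℝ, Function.Injective g ∧
        ∀ (S : Finset ℕ) (j : ℕ), j ∉ S → g j ∉ F (S.image g))
    (hinf : ¬ FiniteDimensional 𝕜 X) :
    ∃ M : Submodule 𝕜 X, IsClosed (M : Set X) ∧ TopologicalSpace.SeparableSpace (X ⧸ M) ∧
      ¬ FiniteDimensional 𝕜 (X ⧸ M) := by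
  by_contra hno
  obtain ⟨φ, hφ1, H⟩ := exists_family_sequence hinf hno hfree
  by_cases hα : ∀ (x : X) (ε : ℝ), 0 < ε → ∃ n : ℕ, ∀ (S : Finset ℕ) (a : ℕ → 𝕜),
      (∀ i ∈ S, n ≤ i) → ‖(∑ i ∈ S, a i • φ i) x‖ ≤ ε * ‖∑ i ∈ S, a i • φ i‖
  · exact hno (exists_separable_quotient_of_alpha φ hφ1 H hα)
  · push Not at hα
    obtain ⟨x₀, δ, hδ, hβ⟩ := hα
    obtain ⟨u, c, hc, hu, hlow⟩ := exists_l1_of_beta φ H x₀ δ hδ hβ
    exact hno (exists_separable_quotient_of_l1 u hu c hc hlow)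

end Vale.Agent.P129
end
end

section

section

open Filter Topology

namespace Vale.Agent.P129

/-- At fewer than non(M) points of an infinite-dimensional normed space there is an unbounded
sequence of functionals which is pointwise bounded. -/
theorem exists_unbounded_bounded_at {𝕜 : Type*} [RCLike 𝕜] {X : Type*}
    [NormedAddCommGroup X] [NormedSpace 𝕜 X]
    (hinf : ¬ FiniteDimensional 𝕜 X) {ι : Type*} [Infinite ι]
    (hι : ∀ F : ι → ℝ, IsMeagre (Set.range F)) (d : ι → X) :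
    ∃ g : ℕ → X →L[𝕜] 𝕜, (∀ R : ℝ, ∃ k, R < ‖g k‖) ∧ ∀ i, d i ∈ bddSub g := by
  let _ : NormedSpace ℝ X := NormedSpace.restrictScalars ℝ 𝕜 X
  have _ : IsScalarTower ℝ 𝕜 X := RestrictScalars.isScalarTower ℝ 𝕜 X
  have hinf' : ¬ FiniteDimensional ℝ X := by
    intro hf
    exact hinf (Module.Finite.of_restrictScalars_finite ℝ 𝕜 X)
  have hdual := not_finiteDimensional_dual hinf'
  let W : ∀ n, Ell (X →L[ℝ] ℝ) n := fun n =>
    { T := (exists_ellipsoid hdual n).choose
      le := (exists_ellipsoid hdual n).choose_spec.1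
      big := (exists_ellipsoid hdual n).choose_spec.2 }
  have hequiv : Nonempty (ι ≃ (ι ⊕ ι) × (ι ⊕ ι)) := by
    rw [← Cardinal.eq]
    have h0 : Cardinal.aleph0 ≤ Cardinal.mk ι := Cardinal.aleph0_le_mk ι
    simp only [Cardinal.mk_prod, Cardinal.lift_id, Cardinal.mk_sum, Cardinal.add_eq_self h0,
      Cardinal.mul_eq_self h0]
  obtain ⟨ε⟩ := hequiv
  have hι' : ∀ F : (ι ⊕ ι) × (ι ⊕ ι) → ℝ, IsMeagre (Set.range F) := by
    intro F
    have := hι (F ∘ ε)
    rwa [ε.surjective.range_comp] at this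
  have hev : ∀ (h : ℕ → ℕ) (S : (ι ⊕ ι) × (ι ⊕ ι) → ℕ → Finset ℕ),
      (∀ i k, (S i k).card ≤ h k) → ∃ e : ℕ → ℕ, ∀ i, ∀ᶠ k in atTop, e k ∉ S i k :=
    fun h S hS => exists_evading hι' h S hS
  let d' : ι ⊕ ι → X := Sum.elim (fun i => (RCLike.I : 𝕜) • d i) d
  obtain ⟨f, c, hc, hf1, hf2⟩ := exists_fast_null W hev d'
  let g : ℕ → X →L[𝕜] 𝕜 := fun k =>
    (((3 / 2 : ℝ) ^ k : ℝ) : 𝕜) • StrongDual.extendRCLike (𝕜 := 𝕜) (f k)
  have hgn : ∀ k, ‖g k‖ = (3 / 2 : ℝ) ^ k * ‖f k‖ := by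
    intro k
    simp only [g, norm_smul, RCLike.norm_ofReal, StrongDual.norm_extendRCLike]
    rw [abs_of_pos (by positivity)]
  refine ⟨g, ?_, ?_⟩
  · intro R
    have h1 : Tendsto (fun k : ℕ => (3 / 2 : ℝ) ^ k * c) atTop atTop :=
      (tendsto_pow_atTop_atTop_of_one_lt (by norm_num)).atTop_mul_const hc
    obtain ⟨k, hk⟩ := (h1.eventually_gt_atTop R).exists
    refine ⟨k, hk.trans_le ?_⟩
    rw [hgn]
    exact mul_le_mul_of_nonneg_left (hf1 k) (by positivity)
  · intro i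
    have h1 : ∀ᶠ k in atTop, ‖g k (d i)‖ ≤ 2 := by
      filter_upwards [hf2 (Sum.inl i), hf2 (Sum.inr i)] with k hk1 hk2
      have e1 : ‖StrongDual.extendRCLike (𝕜 := 𝕜) (f k) (d i)‖ ≤ (1 / 2 : ℝ) ^ k + (1 / 2 : ℝ) ^ k := by
        rw [StrongDual.extendRCLike_apply]
        refine (norm_sub_le _ _).trans ?_
        refine add_le_add ?_ ?_
        · rw [RCLike.norm_ofReal]; simpa [d'] using hk2
        · rw [norm_mul, RCLike.norm_ofReal]
          have : |f k ((RCLike.I : 𝕜) • d i)| ≤ (1 / 2 : ℝ) ^ k := by simpa [d'] using hk1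
          refine (mul_le_of_le_one_left (abs_nonneg _) ?_).trans this
          rcases eq_or_ne (RCLike.I : 𝕜) 0 with h | h
          · rw [h, norm_zero]; exact zero_le_one
          · rw [RCLike.norm_I_of_ne_zero h]
      have e2 : ‖g k (d i)‖ = (3 / 2 : ℝ) ^ k * ‖StrongDual.extendRCLike (𝕜 := 𝕜) (f k) (d i)‖ := by
        simp only [smul_apply, norm_smul, RCLike.norm_ofReal, g]
        rw [abs_of_pos (by positivity)]
      rw [e2]
      calc (3 / 2 : ℝ) ^ k * ‖StrongDual.extendRCLike (𝕜 := 𝕜) (f k) (d i)‖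
          ≤ (3 / 2 : ℝ) ^ k * ((1 / 2 : ℝ) ^ k + (1 / 2 : ℝ) ^ k) :=
            mul_le_mul_of_nonneg_left e1 (by positivity)
        _ = 2 * (3 / 4 : ℝ) ^ k := by
            have : (3 / 2 : ℝ) ^ k * (1 / 2 : ℝ) ^ k = (3 / 4 : ℝ) ^ k := by
              rw [← mul_pow]; norm_num
            rw [mul_add, this]; ring
        _ ≤ 2 * 1 := by
            refine mul_le_mul_of_nonneg_left ?_ (by norm_num)
            exact pow_le_one₀ (by norm_num) (by norm_num)
        _ = 2 := by norm_num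
    obtain ⟨K, hK⟩ := eventually_atTop.1 h1
    refine ⟨2 + ∑ k ∈ Finset.range K, ‖g k (d i)‖, fun k => ?_⟩
    by_cases hk : k < K
    · have : ‖g k (d i)‖ ≤ ∑ k ∈ Finset.range K, ‖g k (d i)‖ :=
        Finset.single_le_sum (f := fun k => ‖g k (d i)‖) (fun _ _ => norm_nonneg _)
          (Finset.mem_range.2 hk)
      linarith only [this]
    · have h2 := hK k (not_lt.1 hk)
      have : 0 ≤ ∑ k ∈ Finset.range K, ‖g k (d i)‖ :=
        Finset.sum_nonneg fun _ _ => norm_nonneg _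
      linarith only [h2, this]

/-- An infinite-dimensional normed space spanned by fewer than non(M) vectors is not
barrelled. -/
theorem not_barrelled_of_span {𝕜 : Type*} [RCLike 𝕜] {X : Type*}
    [NormedAddCommGroup X] [NormedSpace 𝕜 X]
    (hinf : ¬ FiniteDimensional 𝕜 X) {ι : Type*} [Infinite ι]
    (hι : ∀ F : ι → ℝ, IsMeagre (Set.range F)) (d : ι → X)
    (hd : Submodule.span 𝕜 (Set.range d) = ⊤) : ¬ BarrelledSpace 𝕜 X := by
  intro hb
  obtain ⟨g, hg1, hg2⟩ := exists_unbounded_bounded_at hinf hι d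
  have hall : ∀ x, x ∈ bddSub g := by
    intro x
    have h1 : Submodule.span 𝕜 (Set.range d) ≤ bddSub g :=
      Submodule.span_le.2 (by rintro _ ⟨i, rfl⟩; exact hg2 i)
    rw [hd] at h1
    exact h1 Submodule.mem_top
  let p : ℕ → Seminorm 𝕜 X := fun k => (normSeminorm 𝕜 𝕜).comp (g k).toLinearMap
  have hp : ∀ k x, p k x = ‖g k x‖ := fun k x => rfl
  have hpc : ∀ k, Continuous (p k) := fun k => by
    have : Continuous fun x => ‖g k x‖ := (g k).continuous.norm
    exact this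
  have hbdd : BddAbove (Set.range p) := by
    rw [Seminorm.bddAbove_range_iff]
    intro x
    obtain ⟨c, hc⟩ := hall x
    exact ⟨c, by rintro _ ⟨k, rfl⟩; exact hc k⟩
  have hcont := Seminorm.continuous_iSup p hpc hbdd
  rw [← Seminorm.coe_iSup_eq hbdd] at hcont
  obtain ⟨C, hC, hC'⟩ := Seminorm.bound_of_continuous_normedSpace (⨆ i, p i) hcont
  obtain ⟨k, hk⟩ := hg1 C
  refine absurd hk (not_lt.2 ?_)
  refine ContinuousLinearMap.opNorm_le_bound _ hC.le fun x => ?_
  refine le_trans ?_ (hC' x)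
  have := le_ciSup hbdd k
  exact this x

end Vale.Agent.P129
end
end

section

section

open Filter Topology

namespace Vale.Agent.P129

section

variable {𝕜 : Type*} [RCLike 𝕜] {X : Type*} [NormedAddCommGroup X] [NormedSpace 𝕜 X]

/-- Preimages of closed sets with empty interior under a digit map are nowhere dense. -/
lemma nowhereDense_preimage (e : ℝ → X)
    (he : ∀ I : Set ℝ, IsOpen I → I.Nonempty → ∃ (x₀ : X) (r : ℝ), 0 < r ∧
      ∀ y ∈ Metric.ball x₀ r, ∀ ε > 0, ∃ J : Set ℝ, IsOpen J ∧ J.Nonempty ∧ J ⊆ I ∧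
        ∀ t ∈ J, e t ∈ Metric.ball y ε)
    (C : Set X) (hC : IsClosed C) (hint : interior C = ∅) : IsNowhereDense (e ⁻¹' C) := by
  rw [IsNowhereDense, Set.eq_empty_iff_forall_notMem]
  intro t ht
  obtain ⟨x₀, r, hr, H⟩ := he (interior (closure (e ⁻¹' C))) isOpen_interior ⟨t, ht⟩
  have h1 : ¬ Metric.ball x₀ r ⊆ C := by
    intro h
    have : x₀ ∈ interior C := interior_maximal h Metric.isOpen_ball (Metric.mem_ball_self hr)
    rw [hint] at this
    exact this
  obtain ⟨y, hy1, hy2⟩ := Set.not_subset.1 h1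
  obtain ⟨ε, hε, hball⟩ := Metric.isOpen_iff.1 hC.isOpen_compl y hy2
  obtain ⟨J, hJ1, ⟨s, hs⟩, hJ3, hJ4⟩ := H y hy1 ε hε
  have h2 : s ∈ closure (e ⁻¹' C) := interior_subset (hJ3 hs)
  obtain ⟨u, hu1, hu2⟩ := mem_closure_iff.1 h2 J hJ1 hs
  exact hball (hJ4 u hu1) hu2

theorem barrelled_span_of_digit_map (e : ℝ → X)
    (he : ∀ I : Set ℝ, IsOpen I → I.Nonempty → ∃ (x₀ : X) (r : ℝ), 0 < r ∧
      ∀ y ∈ Metric.ball x₀ r, ∀ ε > 0, ∃ J : Set ℝ, IsOpen J ∧ J.Nonempty ∧ J ⊆ I ∧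
        ∀ t ∈ J, e t ∈ Metric.ball y ε)
    (T : Set ℝ) (hT : ¬ IsMeagre T) :
    Dense (Submodule.span 𝕜 (e '' T) : Set X) ∧
      BarrelledSpace 𝕜 (Submodule.span 𝕜 (e '' T)) := by
  let _ : NormedSpace ℝ X := NormedSpace.restrictScalars ℝ 𝕜 X
  have _ : IsScalarTower ℝ 𝕜 X := RestrictScalars.isScalarTower ℝ 𝕜 X
  set E := Submodule.span 𝕜 (e '' T) with hE
  have hTE : ∀ t ∈ T, e t ∈ E := fun t ht => Submodule.subset_span ⟨t, ht, rfl⟩
  constructor
  · by_contra hd
    have hne : E.topologicalClosure ≠ ⊤ := by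
      intro h
      apply hd
      rw [Submodule.dense_iff_topologicalClosure_eq_top]
      exact h
    have hint : interior (E.topologicalClosure : Set X) = ∅ := by
      by_contra hne'
      apply hne
      exact E.topologicalClosure.eq_top_of_nonempty_interior'
        (Set.nonempty_iff_ne_empty.2 hne')
    have h1 := nowhereDense_preimage e he _ E.isClosed_topologicalClosure hint
    exact hT (h1.isMeagre.mono fun t ht => E.le_topologicalClosure (hTE t ht))
  · refine ⟨fun p hp => ?_⟩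
    -- the closed unit ball of the seminorm and its closure
    let B : Set E := {x | p x ≤ 1}
    have hB : IsClosed B := hp.isClosed_preimage 1
    let B' : Set X := (fun x : E => (x : X)) '' B
    let C : Set X := closure B'
    have hCE : ∀ x : E, (x : X) ∈ C → p x ≤ 1 := by
      intro x hx
      have : x ∈ closure B := by
        rw [Topology.IsInducing.subtypeVal.closure_eq_preimage_closure_image]
        exact hx
      rw [hB.closure_eq] at this
      exact this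
    -- scaling
    have hscale : ∀ n : ℕ, IsClosed ((fun x : X => ((n : ℝ) + 1)⁻¹ • x) ⁻¹' C) := fun n =>
      isClosed_closure.preimage (continuous_const_smul _)
    have hcover : T ⊆ ⋃ n : ℕ, e ⁻¹' ((fun x : X => ((n : ℝ) + 1)⁻¹ • x) ⁻¹' C) := by
      intro t ht
      obtain ⟨n, hn⟩ := exists_nat_ge (p ⟨e t, hTE t ht⟩)
      refine Set.mem_iUnion.2 ⟨n, subset_closure
        ⟨((((n : ℝ) + 1)⁻¹ : ℝ) : 𝕜) • ⟨e t, hTE t ht⟩, ?_, ?_⟩⟩
      · show p _ ≤ 1
        rw [map_smul_eq_mul, RCLike.norm_ofReal, abs_of_pos (by (clear * -; positivity)),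
          inv_mul_le_iff₀ (by positivity)]
        linarith only [hn]
      · show ((((n : ℝ) + 1)⁻¹ : ℝ) : 𝕜) • e t = ((n : ℝ) + 1)⁻¹ • e t
        exact (RCLike.real_smul_eq_coe_smul (K := 𝕜) _ _).symm
    have hint : ∃ n : ℕ, (interior ((fun x : X => ((n : ℝ) + 1)⁻¹ • x) ⁻¹' C)).Nonempty := by
      by_contra hcon
      push Not at hcon
      apply hT
      exact (isMeagre_iUnion fun n =>
        (nowhereDense_preimage e he _ (hscale n) (hcon n)).isMeagre).mono hcover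
    obtain ⟨n, x₁, hx₁⟩ := hint
    obtain ⟨ρ, hρ, hball⟩ := Metric.isOpen_iff.1 isOpen_interior x₁ hx₁
    -- the set C is symmetric and convex
    have hpconv : ∀ x y : E, p x ≤ 1 → p y ≤ 1 → p ((2 : 𝕜)⁻¹ • (x - y)) ≤ 1 := by
      intro x y hx hy
      rw [map_smul_eq_mul]
      have h1 : p (x - y) ≤ p x + p y := map_sub_le_add p x y
      have h2 : ‖(2 : 𝕜)⁻¹‖ = 1 / 2 := by rw [norm_inv, RCLike.norm_two]; norm_num
      rw [h2]
      linarith only [hx, hy, h1]
    have hCconv : ∀ x y : X, x ∈ C → y ∈ C → (2 : 𝕜)⁻¹ • (x - y) ∈ C := by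
      intro x y hx hy
      have hcont : Continuous fun q : X × X => (2 : 𝕜)⁻¹ • (q.1 - q.2) := by fun_prop
      have h1 : (x, y) ∈ closure (B' ×ˢ B') := by
        rw [closure_prod_eq]; exact ⟨hx, hy⟩
      have h2 := map_mem_closure hcont h1 (t := B') (fun q hq => by
        obtain ⟨⟨a, ha, ha'⟩, ⟨b, hb, hb'⟩⟩ := hq
        refine ⟨(2 : 𝕜)⁻¹ • (a - b), hpconv a b ha hb, ?_⟩
        simp only [SetLike.val_smul, AddSubgroupClass.coe_sub, ← ha', ← hb'])
      exact h2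
    have hsmall : ∀ x : E, ‖x‖ < ρ / ((n : ℝ) + 1) / 2 → p x ≤ 1 := by
      intro x hx
      apply hCE
      have hn : (0 : ℝ) < (n : ℝ) + 1 := by (clear * -; positivity)
      have e1 : ((n : ℝ) + 1)⁻¹ • (x₁ + ((n : ℝ) + 1) • (2 : 𝕜) • (x : X)) ∈ C := by
        have h1 : x₁ + ((n : ℝ) + 1) • (2 : 𝕜) • (x : X) ∈ Metric.ball x₁ ρ := by
          rw [Metric.mem_ball, dist_eq_norm, add_sub_cancel_left, norm_smul, norm_smul,
            RCLike.norm_two, Real.norm_of_nonneg hn.le]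
          have h2 : ‖(x : X)‖ < ρ / ((n : ℝ) + 1) / 2 := hx
          rw [div_div, lt_div_iff₀ (by positivity)] at h2
          linarith only [h2]
        have h3 := interior_subset (hball h1)
        exact h3
      have e2 : ((n : ℝ) + 1)⁻¹ • x₁ ∈ C := by
        have h3 := interior_subset hx₁
        exact h3
      have e3 := hCconv _ _ e1 e2
      have e4 : (2 : 𝕜)⁻¹ • (((n : ℝ) + 1)⁻¹ • (x₁ + ((n : ℝ) + 1) • (2 : 𝕜) • (x : X)) -
          ((n : ℝ) + 1)⁻¹ • x₁) = x := by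
        rw [smul_add, add_sub_cancel_left, inv_smul_smul₀ hn.ne', inv_smul_smul₀ (by simp)]
      rwa [e4] at e3
    refine Seminorm.continuous' (r := 1) ?_
    rw [Metric.mem_nhds_iff]
    refine ⟨ρ / ((n : ℝ) + 1) / 2, by (clear * - hρ; positivity), fun x hx => ?_⟩
    rw [Seminorm.mem_closedBall_zero]
    rw [mem_ball_zero_iff] at hx
    exact hsmall x hx

end

end Vale.Agent.P129
end
end

section

section

open Filter Topology Set

namespace Vale.Agent.P129

/-- The first digit of a number in `(0, 1]`. -/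
noncomputable def dig (v : ℝ) : ℕ := Nat.log 2 ⌊v⁻¹⌋₊

/-- The shift on `(0, 1]`. -/
noncomputable def shft (v : ℝ) : ℝ := 2 ^ (dig v + 1) * v - 1

/-- The inverse branches of the shift. -/
noncomputable def br (n : ℕ) (u : ℝ) : ℝ := (u + 1) / 2 ^ (n + 1)

lemma br_mem (n : ℕ) {u : ℝ} (hu : u ∈ Ioc (0 : ℝ) 1) : br n u ∈ Ioc (0 : ℝ) 1 := by
  obtain ⟨h0, h1⟩ := hu
  have h2 : (2 : ℝ) ≤ 2 ^ (n + 1) := by
    calc (2 : ℝ) = 2 ^ 1 := by norm_num
      _ ≤ 2 ^ (n + 1) := pow_le_pow_right₀ (by norm_num) (by omega)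
  refine ⟨by unfold br; positivity, ?_⟩
  unfold br
  rw [div_le_one (by positivity)]
  linarith only [h1, h2]

lemma dig_br (n : ℕ) {u : ℝ} (hu : u ∈ Ioc (0 : ℝ) 1) : dig (br n u) = n := by
  obtain ⟨h0, h1⟩ := hu
  unfold dig br
  rw [inv_div]
  have hu1 : (0 : ℝ) < u + 1 := by linarith only [h0]
  refine Nat.log_eq_of_pow_le_of_lt_pow ?_ ?_
  · refine Nat.le_floor ?_
    push_cast
    rw [le_div_iff₀ hu1, pow_succ]
    have : (0 : ℝ) < 2 ^ n := by positivity
    nlinarith only [h1, this]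
  · rw [Nat.floor_lt (by positivity)]
    push_cast
    rw [div_lt_iff₀ hu1]
    have : (0 : ℝ) < 2 ^ (n + 1) := by positivity
    nlinarith

lemma shft_br (n : ℕ) {u : ℝ} (hu : u ∈ Ioc (0 : ℝ) 1) : shft (br n u) = u := by
  unfold shft
  rw [dig_br n hu]
  unfold br
  rw [mul_div_cancel₀ _ (by positivity)]
  ring

lemma br_shft {v : ℝ} (hv : v ∈ Ioc (0 : ℝ) 1) :
    shft v ∈ Ioc (0 : ℝ) 1 ∧ br (dig v) (shft v) = v := by
  obtain ⟨h0, h1⟩ := hv
  have hinv : (1 : ℝ) ≤ v⁻¹ := (one_le_inv₀ h0).2 h1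
  have hfl : ⌊v⁻¹⌋₊ ≠ 0 := by
    have : 1 ≤ ⌊v⁻¹⌋₊ := Nat.le_floor (by simpa only [Nat.cast_one] using hinv)
    omega
  have e1 : (2 : ℝ) ^ dig v ≤ v⁻¹ := by
    have : 2 ^ dig v ≤ ⌊v⁻¹⌋₊ := Nat.pow_log_le_self 2 hfl
    calc (2 : ℝ) ^ dig v = ((2 ^ dig v : ℕ) : ℝ) := by push_cast; rfl
      _ ≤ (⌊v⁻¹⌋₊ : ℝ) := by exact_mod_cast this
      _ ≤ v⁻¹ := Nat.floor_le (by positivity)
  have e2 : v⁻¹ < (2 : ℝ) ^ (dig v + 1) := by
    have : ⌊v⁻¹⌋₊ < 2 ^ (dig v + 1) := Nat.lt_pow_succ_log_self (by norm_num) _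
    have h3 := (Nat.floor_lt (by positivity)).1 this
    push_cast at h3
    exact h3
  have e3 : (2 : ℝ) ^ dig v * v ≤ 1 := by
    have := mul_le_mul_of_nonneg_right e1 h0.le
    rwa [inv_mul_cancel₀ h0.ne'] at this
  have e4 : 1 < (2 : ℝ) ^ (dig v + 1) * v := by
    have := mul_lt_mul_of_pos_right e2 h0
    rwa [inv_mul_cancel₀ h0.ne'] at this
  refine ⟨⟨by unfold shft; linarith only [e4], ?_⟩, ?_⟩
  · unfold shft
    rw [pow_succ]
    linarith only [e3]
  · unfold br shft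
    rw [sub_add_cancel, mul_div_cancel_left₀ _ (by positivity)]

section

variable {X : Type*} [NormedAddCommGroup X] [NormedSpace ℝ X]

/-- The vector coded by the digits of a number in `(0, 1]`. -/
noncomputable def code (d : ℕ → X) (v : ℝ) : X := ∑' k : ℕ, ((1 / 2 : ℝ) ^ k) • d (dig (shft^[k] v))

lemma code_bound (d : ℕ → X) (hd : ∀ n, ‖d n‖ ≤ 1) (v : ℝ) (k : ℕ) :
    ‖((1 / 2 : ℝ) ^ k) • d (dig (shft^[k] v))‖ ≤ (1 / 2 : ℝ) ^ k := by
  rw [norm_smul, Real.norm_of_nonneg (by positivity)]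
  exact mul_le_of_le_one_right (by positivity) (hd _)

lemma code_norm_le (d : ℕ → X) (hd : ∀ n, ‖d n‖ ≤ 1) (v : ℝ) : ‖code d v‖ ≤ 2 := by
  have := tsum_of_norm_bounded hasSum_geometric_two (code_bound d hd v)
  exact this

lemma code_br [CompleteSpace X] (d : ℕ → X) (hd : ∀ n, ‖d n‖ ≤ 1) (n : ℕ) {u : ℝ}
    (hu : u ∈ Ioc (0 : ℝ) 1) : code d (br n u) = d n + (1 / 2 : ℝ) • code d u := by
  have hs : Summable fun k : ℕ => ((1 / 2 : ℝ) ^ k) • d (dig (shft^[k] (br n u))) :=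
    Summable.of_norm_bounded summable_geometric_two (code_bound d hd _)
  have hs' : Summable fun k : ℕ => ((1 / 2 : ℝ) ^ k) • d (dig (shft^[k] u)) :=
    Summable.of_norm_bounded summable_geometric_two (code_bound d hd _)
  unfold code
  rw [hs.tsum_eq_zero_add]
  congr 1
  · simp [dig_br n hu]
  · rw [← hs'.tsum_const_smul]
    refine tsum_congr fun k => ?_
    rw [Function.iterate_succ_apply, shft_br n hu, smul_smul, pow_succ, mul_comm]

/-- Affine parametrisations of cylinders. -/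
def Cyl (d : ℕ → X) (k : ℕ) (α β : ℝ) (x : X) : Prop :=
  0 < α ∧ α ≤ (1 / 2 : ℝ) ^ k ∧ ∀ u ∈ Ioc (0 : ℝ) 1, α * u + β ∈ Ioc (0 : ℝ) 1 ∧
    code d (α * u + β) = x + ((1 / 2 : ℝ) ^ k) • code d u

lemma Cyl.succ [CompleteSpace X] {d : ℕ → X} (hd : ∀ n, ‖d n‖ ≤ 1) {k : ℕ} {α β : ℝ} {x : X}
    (h : Cyl d k α β x) (n : ℕ) :
    ∃ α' β', Cyl d (k + 1) α' β' (x + ((1 / 2 : ℝ) ^ k) • d n) ∧
      ∀ u, α' * u + β' = α * br n u + β := by
  obtain ⟨h1, h2, h3⟩ := h
  have hn : (2 : ℝ) ≤ 2 ^ (n + 1) := by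
    calc (2 : ℝ) = 2 ^ 1 := by norm_num
      _ ≤ 2 ^ (n + 1) := pow_le_pow_right₀ (by norm_num) (by omega)
  have hu : ∀ u, α / 2 ^ (n + 1) * u + (α / 2 ^ (n + 1) + β) = α * br n u + β := by
    intro u
    unfold br
    ring
  refine ⟨α / 2 ^ (n + 1), α / 2 ^ (n + 1) + β, ⟨by positivity, ?_, ?_⟩, hu⟩
  · rw [pow_succ]
    calc α / 2 ^ (n + 1) ≤ α / 2 := div_le_div_of_nonneg_left h1.le (by norm_num) hn
      _ ≤ (1 / 2 : ℝ) ^ k * (1 / 2) := by linarith
  · intro u hu'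
    rw [hu]
    obtain ⟨h4, h5⟩ := h3 _ (br_mem n hu')
    refine ⟨h4, ?_⟩
    rw [h5, code_br d hd n hu', smul_add, smul_smul, pow_succ, add_assoc]

lemma Cyl.zeros [CompleteSpace X] {d : ℕ → X} (hd : ∀ n, ‖d n‖ ≤ 1) (hd0 : d 0 = 0) {k : ℕ}
    {α β : ℝ} {x : X} (h : Cyl d k α β x) (m : ℕ) :
    ∃ α' β', Cyl d (k + m) α' β' x ∧
      ∀ u ∈ Ioc (0 : ℝ) 1, ∃ u' ∈ Ioc (0 : ℝ) 1, α' * u + β' = α * u' + β := by
  induction m with
  | zero => exact ⟨α, β, h, fun u hu => ⟨u, hu, rfl⟩⟩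
  | succ m ih =>
    obtain ⟨α', β', h1, h2⟩ := ih
    obtain ⟨α'', β'', h3, h4⟩ := h1.succ hd 0
    rw [hd0, smul_zero, add_zero] at h3
    refine ⟨α'', β'', h3, fun u hu => ?_⟩
    rw [h4]
    exact h2 _ (br_mem 0 hu)

lemma exists_cyl [CompleteSpace X] {d : ℕ → X} (hd : ∀ n, ‖d n‖ ≤ 1) (k : ℕ) {v : ℝ}
    (hv : v ∈ Ioc (0 : ℝ) 1) :
    ∃ α β x, Cyl d k α β x ∧ ∃ u ∈ Ioc (0 : ℝ) 1, v = α * u + β := by
  induction k with
  | zero =>
    refine ⟨1, 0, 0, ⟨one_pos, by simp, fun u hu => ?_⟩, v, hv, by ring⟩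
    simpa only [one_mul, add_zero, mem_Ioc, one_div, pow_zero, one_smul, zero_add, and_true] using hu
  | succ k ih =>
    obtain ⟨α, β, x, h, u, hu, huv⟩ := ih
    obtain ⟨α', β', h', h''⟩ := h.succ hd (dig u)
    refine ⟨α', β', _, h', shft u, (br_shft hu).1, ?_⟩
    rw [h'', (br_shft hu).2, huv]

/-- A map from the real line to a separable Banach space under which preimages of closed sets with
empty interior are nowhere dense. -/
theorem exists_digit_map (X : Type*) [NormedAddCommGroup X] [NormedSpace ℝ X] [CompleteSpace X]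
    [TopologicalSpace.SeparableSpace X] :
    ∃ e : ℝ → X, ∀ I : Set ℝ, IsOpen I → I.Nonempty → ∃ (x₀ : X) (r : ℝ), 0 < r ∧
      ∀ y ∈ Metric.ball x₀ r, ∀ ε > 0, ∃ J : Set ℝ, IsOpen J ∧ J.Nonempty ∧ J ⊆ I ∧
        ∀ t ∈ J, e t ∈ Metric.ball y ε := by
  -- a dense sequence in the unit ball starting with zero
  obtain ⟨d, hd0, hd, hdd⟩ : ∃ d : ℕ → X, d 0 = 0 ∧ (∀ n, ‖d n‖ ≤ 1) ∧
      ∀ y ∈ Metric.ball (0 : X) 1, ∀ ε > 0, ∃ n, ‖d n - y‖ < ε := by
    have hne : Nonempty (Metric.closedBall (0 : X) 1) := ⟨⟨0, by simp only [Metric.mem_closedBall, dist_self, zero_le_one]⟩⟩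
    let b := TopologicalSpace.denseSeq (Metric.closedBall (0 : X) 1)
    have hb := TopologicalSpace.denseRange_denseSeq (Metric.closedBall (0 : X) 1)
    refine ⟨fun n => Nat.casesOn n 0 (fun m => (b m : X)), rfl, fun n => ?_, fun y hy ε hε => ?_⟩
    · cases n with
      | zero => simp only [Nat.rec_zero, norm_zero, zero_le_one]
      | succ m => exact mem_closedBall_zero_iff.1 (b m).2
    · obtain ⟨m, hm⟩ := hb.exists_dist_lt
        (⟨y, Metric.ball_subset_closedBall hy⟩ : Metric.closedBall (0 : X) 1) hε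
      refine ⟨m + 1, ?_⟩
      rw [Subtype.dist_eq, dist_comm, dist_eq_norm] at hm
      exact hm
  refine ⟨fun t => code d (1 - Int.fract t), fun I hI hIne => ?_⟩
  obtain ⟨t₀, ht₀⟩ := hIne
  obtain ⟨ρ, hρ, hball⟩ := Metric.isOpen_iff.1 hI t₀ ht₀
  obtain ⟨k, hk⟩ := exists_pow_lt_of_lt_one hρ (show (1 / 2 : ℝ) < 1 by norm_num)
  set m : ℤ := ⌊t₀⌋ with hm
  have hv₀ : 1 - Int.fract t₀ ∈ Ioc (0 : ℝ) 1 :=
    ⟨by have := Int.fract_lt_one t₀; linarith only [this], by have := Int.fract_nonneg t₀; linarith only [this]⟩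
  obtain ⟨α, β, x, hcyl, u₀, hu₀, hvu⟩ := exists_cyl (d := d) hd k hv₀
  have hpar : ∀ v ∈ Ioc (0 : ℝ) 1, 1 - Int.fract ((m : ℝ) + 1 - v) = v := by
    intro v hv
    have : ⌊(m : ℝ) + 1 - v⌋ = m := Int.floor_eq_iff.2 ⟨by linarith only [hv.2], by linarith only [hv.1]⟩
    rw [Int.fract, this]
    ring
  have ht₀' : t₀ = (m : ℝ) + 1 - (1 - Int.fract t₀) := by
    rw [Int.fract, hm]
    ring
  refine ⟨x, (1 / 2 : ℝ) ^ k, by positivity, fun y hy ε hε => ?_⟩
  -- the digit approximating the rescaled target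
  have hy' : (2 : ℝ) ^ k • (y - x) ∈ Metric.ball (0 : X) 1 := by
    rw [mem_ball_zero_iff, norm_smul, Real.norm_of_nonneg (by positivity)]
    rw [Metric.mem_ball, dist_eq_norm, one_div, inv_pow] at hy
    have := mul_lt_mul_of_pos_left hy (show (0 : ℝ) < 2 ^ k by positivity)
    rwa [mul_inv_cancel₀ (by positivity)] at this
  obtain ⟨n, hn⟩ := hdd _ hy' (ε / 2) (by positivity)
  obtain ⟨α₁, β₁, h₁, h₁'⟩ := hcyl.succ hd n
  obtain ⟨l, hl⟩ := exists_pow_lt_of_lt_one (show 0 < ε / 4 by positivity)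
    (show (1 / 2 : ℝ) < 1 by norm_num)
  obtain ⟨α₂, β₂, h₂, h₂'⟩ := h₁.zeros hd hd0 l
  obtain ⟨ha, hab, hcode⟩ := h₂
  refine ⟨Ioo ((m : ℝ) + 1 - (α₂ + β₂)) ((m : ℝ) + 1 - β₂), isOpen_Ioo,
    nonempty_Ioo.2 (by linarith only [ha]), ?_, ?_⟩
  · intro t ht
    have hu : ((m : ℝ) + 1 - t - β₂) / α₂ ∈ Ioc (0 : ℝ) 1 := by
      refine ⟨div_pos (by linarith only [ht.2]) ha, ?_⟩
      rw [div_le_one ha]
      linarith only [ht.1]
    obtain ⟨u', hu', e1⟩ := h₂' _ hu
    rw [mul_div_cancel₀ _ ha.ne', sub_add_cancel, h₁'] at e1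
    have hb := br_mem n hu'
    apply hball
    rw [Metric.mem_ball, Real.dist_eq]
    have e2 : t - t₀ = α * (u₀ - br n u') := by
      have : t₀ = (m : ℝ) + 1 - (α * u₀ + β) := by rw [← hvu]; exact ht₀'
      rw [this]
      linarith only [e1]
    rw [e2, abs_mul, abs_of_pos hcyl.1]
    have e3 : |u₀ - br n u'| ≤ 1 := by
      rw [abs_le]
      constructor <;> linarith only [hu₀.1, hb.2, hu₀.2, hb.1]
    calc α * |u₀ - br n u'| ≤ α * 1 := mul_le_mul_of_nonneg_left e3 hcyl.1.le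
      _ ≤ (1 / 2 : ℝ) ^ k := by rw [mul_one]; exact hcyl.2.1
      _ < ρ := hk
  · intro t ht
    have hu : ((m : ℝ) + 1 - t - β₂) / α₂ ∈ Ioc (0 : ℝ) 1 := by
      refine ⟨div_pos (by linarith only [ht.2]) ha, ?_⟩
      rw [div_le_one ha]
      linarith only [ht.1]
    obtain ⟨hmem, hc⟩ := hcode _ hu
    have e1 : α₂ * (((m : ℝ) + 1 - t - β₂) / α₂) + β₂ = (m : ℝ) + 1 - t := by
      rw [mul_div_cancel₀ _ ha.ne']; ring
    rw [e1] at hmem hc
    have e2 : 1 - Int.fract t = (m : ℝ) + 1 - t := by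
      have := hpar _ hmem
      rwa [show (m : ℝ) + 1 - ((m : ℝ) + 1 - t) = t by ring] at this
    show code d (1 - Int.fract t) ∈ Metric.ball y ε
    rw [e2, Metric.mem_ball, dist_eq_norm, hc]
    have e3 : x + (1 / 2 : ℝ) ^ k • d n + (1 / 2 : ℝ) ^ (k + 1 + l) •
        code d (((m : ℝ) + 1 - t - β₂) / α₂) - y =
        (1 / 2 : ℝ) ^ k • (d n - (2 : ℝ) ^ k • (y - x)) + (1 / 2 : ℝ) ^ (k + 1 + l) •
        code d (((m : ℝ) + 1 - t - β₂) / α₂) := by
      rw [smul_sub, smul_smul, ← mul_pow]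
      norm_num
      abel
    rw [e3]
    have hk1 : (1 / 2 : ℝ) ^ k ≤ 1 := pow_le_one₀ (by norm_num) (by norm_num)
    have hk2 : (1 / 2 : ℝ) ^ (k + 1 + l) ≤ (1 / 2 : ℝ) ^ l :=
      pow_le_pow_of_le_one (by norm_num) (by norm_num) (by omega)
    calc ‖(1 / 2 : ℝ) ^ k • (d n - (2 : ℝ) ^ k • (y - x)) + (1 / 2 : ℝ) ^ (k + 1 + l) •
          code d (((m : ℝ) + 1 - t - β₂) / α₂)‖
        ≤ (1 / 2 : ℝ) ^ k * ‖d n - (2 : ℝ) ^ k • (y - x)‖ + (1 / 2 : ℝ) ^ (k + 1 + l) *
          ‖code d (((m : ℝ) + 1 - t - β₂) / α₂)‖ := by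
          refine (norm_add_le _ _).trans ?_
          rw [norm_smul, norm_smul, Real.norm_of_nonneg (by positivity),
            Real.norm_of_nonneg (by positivity)]
      _ ≤ 1 * ‖d n - (2 : ℝ) ^ k • (y - x)‖ + (1 / 2 : ℝ) ^ l * 2 := by
          refine add_le_add (mul_le_mul_of_nonneg_right hk1 (norm_nonneg _)) ?_
          exact mul_le_mul hk2 (code_norm_le d hd _) (norm_nonneg _) (by positivity)
      _ < ε := by linarith only [hn, hl]

end

end Vale.Agent.P129
end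
end
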